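import Mathlib

/-!
P368: abstract operator framework (rows / columns / cells).
-/

namespace Vale.Agent.P368

open scoped InnerProductSpace

noncomputable section

variable {H : Type*} [NormedAddCommGroup H] [InnerProductSpace ℂ H]

/-- Orthogonal projection (as an algebraic element of `End`). -/
structure IsProj (A : Module.End ℂ H) : Prop where
  idem : A * A = A
  symm : ∀ x y : H, ⟪A x, y⟫_ℂ = ⟪x, A y⟫_ℂ

/-- `F s` is the product of the commuting operators `f j`, `j ∈ s`. -/
structure ProdFam {J : Type*} [DecidableEq J] (f : J → Module.End ℂ H)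
    (F : Finset J → Module.End ℂ H) : Prop where
  empty : F ∅ = 1
  insert : ∀ j s, j ∉ s → F (insert j s) = f j * F s

/-- Data of one first-layer gate (a row) with cells indexed by J. -/
structure GateData {J : Type*} [Fintype J] [DecidableEq J] (f t : J → Module.End ℂ H)
    (F T : Finset J → Module.End ℂ H) (η : J → ℝ) : Prop where
  hf : ∀ j, IsProj (f j)
  ht : ∀ j, IsProj (t j)
  hff : ∀ i j, Commute (f i) (f j)
  htt : ∀ i j, Commute (t i) (t j)
  hft : ∀ i j, i ≠ j → Commute (f i) (t j)
  hF : ProdFam f F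
  hT : ProdFam t T
  η_nonneg : ∀ j, 0 ≤ η j
  η_le : ∀ j, η j ≤ 1
  tft : ∀ j, t j * f j * t j = ((1 - η j : ℝ) : ℂ) • t j
  ftf : ∀ j, f j * t j * f j = ((1 - η j : ℝ) : ℂ) • f j

/-- The reflection `1 - 2T`. -/
def refl (T : Module.End ℂ H) : Module.End ℂ H := 1 - (2 : ℂ) • T

/-- `χ = R F R`. -/
def chi (F T : Module.End ℂ H) : Module.End ℂ H := refl T * F * refl T

/-- the constant of Lemma CovQ -/
def lam (s : ℝ) : ℝ := 2 + 4 * (1 + 2 * s) * (1 + s)

/-- Kinds of cell operators. -/
inductive Kind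
  | f | t | th | p
  deriving DecidableEq

/-- The abstract two-layer structure. `ops k l j` : cell operator of kind k at the cell l, j. -/
structure TwoLayer {L J : Type*} [Fintype L] [DecidableEq L] [Fintype J] [DecidableEq J]
    (ops : Kind → L → J → Module.End ℂ H)
    (F T : L → Finset J → Module.End ℂ H)
    (Th P : J → Finset L → Module.End ℂ H)
    (η ε ν : L → J → ℝ) (g : J → Prop) [DecidablePred g] : Prop where
  rows : ∀ l, GateData (ops Kind.f l) (ops Kind.t l) (F l) (T l) (η l)
  proj : ∀ k l j, IsProj (ops k l j)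
  comm : ∀ k k' l j l' j', (l, j) ≠ (l', j') → Commute (ops k l j) (ops k' l' j')
  hTh : ∀ j, ProdFam (fun l => ops Kind.th l j) (Th j)
  hP : ∀ j, ProdFam (fun l => ops Kind.p l j) (P j)
  ν_nonneg : ∀ l j, 0 ≤ ν l j
  ν_le : ∀ l j, ν l j ≤ 1
  ε_nonneg : ∀ l j, 0 ≤ ε l j
  ε_le : ∀ l j, ε l j ≤ 1
  tpt : ∀ l j, ops Kind.th l j * ops Kind.p l j * ops Kind.th l j
    = ((1 - ν l j : ℝ) : ℂ) • ops Kind.th l j
  ctc : ∀ l j, chi (F l Finset.univ) (T l Finset.univ) * ops Kind.th l j *
      chi (F l Finset.univ) (T l Finset.univ)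
    = ((1 - ε l j : ℝ) : ℂ) • chi (F l Finset.univ) (T l Finset.univ)
  cttc : ∀ l j k, ∃ s : ℂ, chi (F l Finset.univ) (T l Finset.univ) *
      (ops Kind.th l j * ops Kind.th l k) * chi (F l Finset.univ) (T l Finset.univ)
    = s • chi (F l Finset.univ) (T l Finset.univ)
  cptpc : ∀ l j, ∃ s : ℝ, chi (F l Finset.univ) (T l Finset.univ) *
      (ops Kind.p l j * ops Kind.th l j * ops Kind.p l j) * chi (F l Finset.univ) (T l Finset.univ)
    = (s : ℂ) • chi (F l Finset.univ) (T l Finset.univ)

/-- Second layer gate of column `j` (identity if the column has no gate). -/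
def colR {L J : Type*} [Fintype L] (Th : J → Finset L → Module.End ℂ H) (g : J → Prop)
    [DecidablePred g] (j : J) : Module.End ℂ H :=
  if g j then refl (Th j Finset.univ) else 1

/-- `B_j = R_j P_j R_j`. -/
def colB {L J : Type*} [Fintype L] (Th P : J → Finset L → Module.End ℂ H) (g : J → Prop)
    [DecidablePred g] (j : J) : Module.End ℂ H :=
  colR Th g j * P j Finset.univ * colR Th g j

end

end Vale.Agent.P368
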