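import Vale.Agent.Lib.P368.CoreE

/-!
P368, module M5: columns with large `μ` or large `ν` can be replaced by gateless columns.
-/

namespace Vale.Agent.P368

open scoped InnerProductSpace
open Finset

noncomputable section

variable {H : Type*} [NormedAddCommGroup H] [InnerProductSpace ℂ H]

/-- the bound `s ≤ 1 - ε/2` for one cell -/
theorem badCol_cell {θ p χ : Module.End ℂ H} (hθ : IsProj θ) (hp : IsProj p) (hχ : IsProj χ)
    {ν ε s : ℝ} (hν1 : ν ≤ 1) (hε1 : ε ≤ 1)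
    (h1 : θ * p * θ = ((1 - ν : ℝ) : ℂ) • θ) (h2 : χ * θ * χ = ((1 - ε : ℝ) : ℂ) • χ)
    (h3 : χ * (p * θ * p) * χ = (s : ℂ) • χ) (b : H) (hb : χ b = b) (hb0 : b ≠ 0) :
    0 ≤ s ∧ s ≤ 1 - ε / 2 := by
  have hbn : 0 < ‖b‖ ^ 2 := by
    have := norm_pos_iff.2 hb0
    positivity
  -- ‖θ p b‖² = s ‖b‖²
  have e1 : ‖θ (p b)‖ ^ 2 = s * ‖b‖ ^ 2 := by
    rw [hθ.nsq]
    have h4 : ⟪θ (p b), p b⟫_ℂ = ⟪(χ * (p * θ * p) * χ) b, b⟫_ℂ := by
      simp only [Module.End.mul_apply]
      rw [hb, hχ.symm, hb, hp.symm]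
    rw [h4, h3, LinearMap.smul_apply, hb, inner_smul_left, Complex.conj_ofReal,
      Complex.re_ofReal_mul, re_inner_self]
  have e2 : ‖(1 - θ) b‖ ^ 2 = ε * ‖b‖ ^ 2 := pair_nsq_compl hθ hχ h2 b hb
  have hs0 : 0 ≤ s := by
    by_contra hcon
    push Not at hcon
    have : s * ‖b‖ ^ 2 < 0 := mul_neg_of_neg_of_pos hcon hbn
    rw [← e1] at this
    exact absurd this (not_lt.2 (sq_nonneg _))
  refine ⟨hs0, ?_⟩
  set c := 1 - ν with hc
  have hc0 : 0 ≤ c := by linarith
  -- `‖p θ y‖² = c ‖θ y‖²`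
  rcases hc0.eq_or_lt with hcz | hcpos
  · -- c = 0: then p θ = 0, s = 0
    have h5 : ‖p (θ (p b))‖ ^ 2 = 0 := by
      have := pair_nsq hp hθ (c := c) h1 (θ (p b)) (hθ.app _)
      rw [this, ← hcz, zero_mul]
    have h6 : p (θ (p b)) = 0 := by
      have := pow_eq_zero_iff (two_ne_zero) |>.1 h5
      exact norm_eq_zero.1 this
    have h7 : ‖θ (p b)‖ ^ 2 = 0 := by
      rw [hθ.nsq, ← hp.app b, hp.app b]
      have h8 : ⟪θ (p b), p b⟫_ℂ = ⟪p (θ (p b)), b⟫_ℂ := (hp.symm _ _).symm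
      rw [h8, h6, inner_zero_left]; simp
    have h9 : s = 0 := by
      rw [e1] at h7
      rcases mul_eq_zero.1 h7 with h | h
      · exact h
      · exact absurd h hbn.ne'
    rw [h9]; linarith
  · -- the projection θ' = c⁻¹ p θ p
    set θ' : Module.End ℂ H := ((c⁻¹ : ℝ) : ℂ) • (p * θ * p) with hθ'
    have hcc : ((c : ℝ) : ℂ) ≠ 0 := Complex.ofReal_ne_zero.2 hcpos.ne'
    have hsq : (p * θ * p) * (p * θ * p) = ((c : ℝ) : ℂ) • (p * θ * p) := by
      calc (p * θ * p) * (p * θ * p) = p * (θ * (p * p) * θ) * p := by noncomm_ring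
        _ = p * (θ * p * θ) * p := by rw [hp.idem]
        _ = ((c : ℝ) : ℂ) • (p * θ * p) := by
          rw [h1, mul_smul_comm, smul_mul_assoc]
    have hproj : IsProj θ' := by
      refine ⟨?_, ?_⟩
      · rw [hθ', smul_mul_smul_comm, hsq, smul_smul]
        congr 1
        push_cast
        field_simp
      · intro x y
        rw [hθ']
        simp only [LinearMap.smul_apply, Module.End.mul_apply, inner_smul_left, inner_smul_right,
          Complex.conj_ofReal]
        rw [hp.symm, hθ.symm, hp.symm]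
    have hcross : θ' * θ * θ' = ((1 - ν : ℝ) : ℂ) • θ' := by
      rw [← hc, hθ', smul_mul_assoc, smul_mul_smul_comm, smul_smul]
      have h4 : (p * θ * p) * θ * (p * θ * p) = (((c : ℝ) : ℂ) * ((c : ℝ) : ℂ)) • (p * θ * p) := by
        calc (p * θ * p) * θ * (p * θ * p) = p * (θ * p * θ) * (p * θ * p) := by noncomm_ring
          _ = ((c : ℝ) : ℂ) • (p * θ * (p * θ * p)) := by
            rw [h1, mul_smul_comm, smul_mul_assoc]
          _ = ((c : ℝ) : ℂ) • (p * (θ * p * θ) * p) := by noncomm_ring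
          _ = _ := by rw [h1, mul_smul_comm, smul_mul_assoc, smul_smul]
      rw [h4, smul_smul]
      congr 1
      push_cast
      field_simp
    -- π ‖b‖² = ‖θ' b‖², c π = s
    have e3 : c * ‖θ' b‖ ^ 2 = s * ‖b‖ ^ 2 := by
      rw [hproj.nsq, hθ', LinearMap.smul_apply, inner_smul_left, Complex.conj_ofReal,
        Complex.re_ofReal_mul, ← mul_assoc, mul_inv_cancel₀ hcpos.ne', one_mul, ← e1, hθ.nsq]
      simp only [Module.End.mul_apply]
      rw [hp.symm]
    have e4 : ‖(1 - θ) (θ' b)‖ ^ 2 = ν * ‖θ' b‖ ^ 2 :=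
      pair_nsq_compl hθ hproj hcross (θ' b) (hproj.app b)
    have e5 : (1 - θ) b = (1 - θ) ((1 - θ') b) + (1 - θ) (θ' b) := by
      rw [← map_add]
      congr 1
      simp
    have e6 : ‖(1 - θ) b‖ ^ 2 ≤ 2 * ‖(1 - θ) ((1 - θ') b)‖ ^ 2 + 2 * ‖(1 - θ) (θ' b)‖ ^ 2 := by
      rw [e5]
      exact nsq_add_le _ _
    have e7 := hθ.compl.nsq_le ((1 - θ') b)
    have e8 := hproj.pyth b
    -- ε‖b‖² ≤ 2(‖b‖² - ‖θ'b‖²) + 2ν‖θ'b‖² = 2‖b‖² - 2c‖θ'b‖²
    have e9 : ε * ‖b‖ ^ 2 ≤ 2 * ‖b‖ ^ 2 - 2 * (s * ‖b‖ ^ 2) := by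
      rw [← e3, ← e2, hc]
      nlinarith
    have e10 : 0 ≤ (1 - ε / 2 - s) * ‖b‖ ^ 2 := by nlinarith
    by_contra hcon
    push Not at hcon
    have : (1 - ε / 2 - s) * ‖b‖ ^ 2 < 0 := mul_neg_of_neg_of_pos (by linarith) hbn
    linarith

/-- product formula -/
theorem badCol_prod {L : Type*} [DecidableEq L] {A χ : L → Module.End ℂ H}
    {AF : Finset L → Module.End ℂ H} (hA : ProdFam A AF) (hχ : ∀ l, IsProj (χ l)) {a : L → ℝ}
    (h1 : ∀ l, χ l * A l * χ l = ((a l : ℝ) : ℂ) • χ l)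
    (h2 : ∀ l r, l ≠ r → Commute (χ l) (A r)) (b : H) (hb : ∀ l, χ l b = b) (s : Finset L) :
    ⟪AF s b, b⟫_ℂ = ((∏ l ∈ s, a l : ℝ) : ℂ) * ⟪b, b⟫_ℂ := by
  induction s using Finset.induction_on with
  | empty => rw [hA.empty]; simp
  | insert j s hj ih =>
    rw [hA.insert j s hj, prod_insert hj, Module.End.mul_apply]
    have hc : Commute (χ j) (AF s) := hA.commute _ s fun r hr => h2 j r (by
      rintro rfl; exact hj hr)
    have h3 : χ j (AF s b) = AF s b := by
      have := congrArg (fun X : Module.End ℂ H => X b) hc.eq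
      simp only [Module.End.mul_apply, hb] at this
      exact this
    have h4 : ⟪A j (AF s b), b⟫_ℂ = ⟪(χ j * A j * χ j) (AF s b), b⟫_ℂ := by
      simp only [Module.End.mul_apply]
      rw [h3, (hχ j).symm, hb]
    rw [h4, h1, LinearMap.smul_apply, h3, inner_smul_left, Complex.conj_ofReal, ih]
    push_cast
    ring

theorem badCol_split {Θ P : Module.End ℂ H} (z : H) :
    (refl Θ * P * refl Θ - P) z = -((2 : ℂ) • Θ (P z)) - (2 : ℂ) • refl Θ (P (Θ z)) := by
  unfold refl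
  simp only [LinearMap.sub_apply, Module.End.mul_apply, Module.End.one_apply,
    LinearMap.smul_apply, map_sub, map_smul]
  module

theorem badCol_split_norm {Θ P : Module.End ℂ H} (hΘ : IsProj Θ) (z : H) :
    ‖(refl Θ * P * refl Θ - P) z‖ ≤ 2 * ‖Θ (P z)‖ + 2 * ‖P (Θ z)‖ := by
  rw [badCol_split]
  calc ‖-((2 : ℂ) • Θ (P z)) - (2 : ℂ) • refl Θ (P (Θ z))‖
      ≤ ‖-((2 : ℂ) • Θ (P z))‖ + ‖(2 : ℂ) • refl Θ (P (Θ z))‖ := norm_sub_le _ _
    _ = 2 * ‖Θ (P z)‖ + 2 * ‖P (Θ z)‖ := by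
      rw [norm_neg, norm_smul, norm_smul, refl_norm hΘ, Complex.norm_ofNat]

theorem badCol_exp_prod {L : Type*} [Fintype L] (a ε : L → ℝ) (c : ℝ)
    (h0 : ∀ l, 0 ≤ a l) (h1 : ∀ l, a l ≤ 1 - c * ε l) :
    ∏ l, a l ≤ Real.exp (-(c * ∑ l, ε l)) := by
  rw [mul_sum, ← sum_neg_distrib, Real.exp_sum]
  apply prod_le_prod (fun l _ => h0 l)
  intro l _
  have := Real.add_one_le_exp (-(c * ε l))
  linarith [h1 l]

section TL

variable {L J : Type*} [Fintype L] [DecidableEq L] [Fintype J] [DecidableEq J]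
    {ops : Kind → L → J → Module.End ℂ H}
    {F T : L → Finset J → Module.End ℂ H}
    {Th P : J → Finset L → Module.End ℂ H}
    {η ε ν : L → J → ℝ} {g : J → Prop} [DecidablePred g]

theorem badCol_cell_comm (D : TwoLayer ops F T Th P η ε ν g) (j : J) (k k' : Kind) (l r : L)
    (h : l ≠ r) : Commute (ops k l j) (ops k' r j) :=
  D.comm _ _ _ _ _ _ (fun e => h (congrArg Prod.fst e))

/-- `χ_l` commutes with the cell operators of the other rows -/
theorem badCol_chi_comm (D : TwoLayer ops F T Th P η ε ν g) (j : J) (k : Kind) (l r : L)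
    (h : l ≠ r) : Commute (chi (F l univ) (T l univ)) (ops k r j) := by
  have c1 : Commute (F l univ) (ops k r j) :=
    ((D.rows l).hF.commute _ univ fun i _ => D.comm _ _ _ _ _ _
      (fun e => h (congrArg Prod.fst e).symm)).symm
  have c2 : Commute (T l univ) (ops k r j) :=
    ((D.rows l).hT.commute _ univ fun i _ => D.comm _ _ _ _ _ _
      (fun e => h (congrArg Prod.fst e).symm)).symm
  have c3 := (coreE_refl_commute c2.symm).symm
  unfold chi
  exact (c3.mul_left c1).mul_left c3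

/-- M5a (file BadCol.lean) -/
theorem badCol_mu (D : TwoLayer ops F T Th P η ε ν g) (j : J)
    (φ : H) (hφ : ∀ l, chi (F l univ) (T l univ) φ = φ) (hφn : ‖φ‖ ≤ 1) :
    ‖(refl (Th j univ) * P j univ * refl (Th j univ) - P j univ) φ‖
      ≤ 4 * Real.exp (-(∑ l, ε l j) / 4) := by
  by_cases hφ0 : φ = 0
  · rw [hφ0]; simp only [map_zero, norm_zero]; positivity
  have hΘ := coreE_Th_proj D j univ
  have hP := coreE_P_proj D j univ
  have hχ : ∀ l, IsProj (chi (F l univ) (T l univ)) := fun l => chi_isProj (D.rows l) univ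
  set μ := ∑ l, ε l j with hμ
  have hμ0 : 0 ≤ μ := sum_nonneg fun l _ => D.ε_nonneg l j
  have hφ1 : ‖φ‖ ^ 2 ≤ 1 := pow_le_one₀ (norm_nonneg _) hφn
  -- ‖Θφ‖²
  have n1 : ‖Th j univ φ‖ ^ 2 ≤ Real.exp (-μ) := by
    have h1 := badCol_prod (D.hTh j) hχ (a := fun l => 1 - ε l j) (fun l => D.ctc l j)
      (fun l r h => badCol_chi_comm D j _ l r h) φ hφ univ
    rw [hΘ.nsq, h1, Complex.re_ofReal_mul, re_inner_self]
    have h2 := badCol_exp_prod (fun l => 1 - ε l j) (fun l => ε l j) 1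
      (fun l => by linarith [D.ε_le l j]) (fun l => by linarith)
    rw [one_mul] at h2
    calc (∏ l, (1 - ε l j)) * ‖φ‖ ^ 2 ≤ (∏ l, (1 - ε l j)) * 1 := by
          apply mul_le_mul_of_nonneg_left hφ1
          exact prod_nonneg fun l _ => by linarith [D.ε_le l j]
      _ ≤ _ := by rw [mul_one]; exact h2
  -- ‖ΘPφ‖²
  have n2 : ‖Th j univ (P j univ φ)‖ ^ 2 ≤ Real.exp (-(μ / 2)) := by
    choose s hs using fun l => D.cptpc l j
    have hfam : ProdFam (fun l => ops Kind.p l j * ops Kind.th l j * ops Kind.p l j)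
        (fun S => P j S * Th j S * P j S) := by
      refine ⟨by simp [(D.hP j).empty, (D.hTh j).empty], ?_⟩
      intro l S hl
      have hne : ∀ r ∈ S, l ≠ r := fun r hr h => hl (h ▸ hr)
      have c1 : Commute (ops Kind.th l j) (P j S) :=
        (D.hP j).commute _ S fun r hr => badCol_cell_comm D j _ _ l r (hne r hr)
      have c2 : Commute (ops Kind.p l j) (Th j S) :=
        (D.hTh j).commute _ S fun r hr => badCol_cell_comm D j _ _ l r (hne r hr)
      have c3 : Commute (ops Kind.p l j) (P j S) :=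
        (D.hP j).commute _ S fun r hr => badCol_cell_comm D j _ _ l r (hne r hr)
      rw [(D.hP j).insert l S hl, (D.hTh j).insert l S hl]
      set p := ops Kind.p l j
      set θ := ops Kind.th l j
      set PS := P j S
      set TS := Th j S
      calc p * PS * (θ * TS) * (p * PS) = p * (PS * θ) * (TS * p) * PS := by noncomm_ring
        _ = p * (θ * PS) * (p * TS) * PS := by rw [c1.eq, c2.eq]
        _ = p * θ * (PS * p) * TS * PS := by noncomm_ring
        _ = p * θ * (p * PS) * TS * PS := by rw [c3.eq]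
        _ = p * θ * p * (PS * TS * PS) := by noncomm_ring
    have hcell : ∀ l, 0 ≤ s l ∧ s l ≤ 1 - ε l j / 2 := fun l =>
      badCol_cell (D.proj _ l j) (D.proj _ l j) (hχ l) (D.ν_le l j) (D.ε_le l j) (D.tpt l j)
        (D.ctc l j) (hs l) φ (hφ l) hφ0
    have h1 := badCol_prod hfam hχ (a := s) (fun l => hs l)
      (fun l r h => ((badCol_chi_comm D j _ l r h).mul_right
        (badCol_chi_comm D j _ l r h)).mul_right (badCol_chi_comm D j _ l r h)) φ hφ univ
    have h2 : ⟪Th j univ (P j univ φ), P j univ φ⟫_ℂ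
        = ⟪(P j univ * Th j univ * P j univ) φ, φ⟫_ℂ := by
      simp only [Module.End.mul_apply]
      rw [hP.symm]
    rw [hΘ.nsq, h2, h1, Complex.re_ofReal_mul, re_inner_self]
    have h3 := badCol_exp_prod s (fun l => ε l j) (1 / 2) (fun l => (hcell l).1)
      (fun l => by linarith [(hcell l).2])
    calc (∏ l, s l) * ‖φ‖ ^ 2 ≤ (∏ l, s l) * 1 := by
          apply mul_le_mul_of_nonneg_left hφ1
          exact prod_nonneg fun l _ => (hcell l).1
      _ ≤ _ := by
        rw [mul_one]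
        refine h3.trans (le_of_eq ?_)
        congr 1
        rw [hμ]; ring
  have n3 : ‖Th j univ φ‖ ≤ Real.exp (-μ / 4) := by
    apply le_of_sq_le_sq _ (Real.exp_pos _).le
    refine n1.trans ?_
    rw [← Real.exp_nat_mul]
    apply Real.exp_le_exp.2
    push_cast
    linarith
  have n4 : ‖Th j univ (P j univ φ)‖ ≤ Real.exp (-μ / 4) := by
    apply le_of_sq_le_sq _ (Real.exp_pos _).le
    refine n2.trans ?_
    rw [← Real.exp_nat_mul]
    apply Real.exp_le_exp.2
    push_cast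
    linarith
  have n5 : ‖P j univ (Th j univ φ)‖ ≤ Real.exp (-μ / 4) := (hP.norm_le _).trans n3
  have := badCol_split_norm (P := P j univ) hΘ φ
  linarith

/-- M5b (file BadCol.lean) -/
theorem badCol_nu (D : TwoLayer ops F T Th P η ε ν g) (j : J) (z : H) :
    ‖(refl (Th j univ) * P j univ * refl (Th j univ) - P j univ) z‖
      ≤ 8 * Real.exp (-(∑ l, ν l j) / 2) * ‖z‖ := by
  have hΘ := coreE_Th_proj D j univ
  have hP := coreE_P_proj D j univ
  set N := ∑ l, ν l j with hN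
  have hsand : Th j univ * P j univ * Th j univ
      = ((∏ l, (1 - ν l j) : ℝ) : ℂ) • Th j univ :=
    ColI.fam_sandwich (D.hTh j) (D.hP j) (fun l => 1 - ν l j) (fun l => D.tpt l j)
      (fun l r h => badCol_cell_comm D j _ _ l r h)
      (fun l r h => badCol_cell_comm D j _ _ l r h) univ
  have hprod0 : 0 ≤ ∏ l, (1 - ν l j) := prod_nonneg fun l _ => by linarith [D.ν_le l j]
  have hprod : ∏ l, (1 - ν l j) ≤ Real.exp (-N) := by
    have h2 := badCol_exp_prod (fun l => 1 - ν l j) (fun l => ν l j) 1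
      (fun l => by linarith [D.ν_le l j]) (fun l => by linarith)
    rw [one_mul] at h2
    exact h2
  -- `‖P Θ y‖ ≤ e^{-N/2} ‖y‖`
  have n1 : ∀ y : H, ‖P j univ (Th j univ y)‖ ≤ Real.exp (-N / 2) * ‖y‖ := by
    intro y
    apply le_of_sq_le_sq _ (by positivity)
    have h1 := pair_nsq hP hΘ hsand (Th j univ y) (hΘ.app y)
    rw [h1, mul_pow, ← Real.exp_nat_mul]
    have h2 : ((2 : ℕ) : ℝ) * (-N / 2) = -N := by push_cast; ring
    rw [h2]
    exact mul_le_mul hprod (hΘ.nsq_le y) (sq_nonneg _) (Real.exp_pos _).le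
  have n2 : ‖Th j univ (P j univ z)‖ ≤ Real.exp (-N / 2) * ‖z‖ := by
    set y := Th j univ (P j univ z) with hy
    have h1 : ‖y‖ ^ 2 ≤ ‖P j univ (Th j univ y)‖ * ‖z‖ := by
      have h2 : ⟪y, y⟫_ℂ = ⟪P j univ (Th j univ y), z⟫_ℂ := by
        conv_lhs => rw [hy, ← hΘ.symm, ← hP.symm]
      rw [← re_inner_self, h2]
      exact (Complex.re_le_norm _).trans (norm_inner_le_norm _ _)
    have h3 := n1 y
    have h4 : ‖y‖ ^ 2 ≤ (Real.exp (-N / 2) * ‖y‖) * ‖z‖ :=
      h1.trans (mul_le_mul_of_nonneg_right h3 (norm_nonneg _))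
    have h5 : ‖y‖ ^ 2 ≤ ‖y‖ * (Real.exp (-N / 2) * ‖z‖) := by linarith
    exact le_of_sq_le_mul (norm_nonneg _) (by positivity) h5
  have n3 := n1 z
  have := badCol_split_norm (P := P j univ) hΘ z
  have hpos : 0 ≤ Real.exp (-N / 2) * ‖z‖ := by positivity
  linarith

end TL

end

end Vale.Agent.P368
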