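import Vale.Agent.Lib.P368.Abs

/-! P368, module M3: the column inequality. -/

namespace Vale.Agent.P368

open scoped InnerProductSpace
open Finset

noncomputable section

variable {H : Type*} [NormedAddCommGroup H] [InnerProductSpace ℂ H]

namespace ColI

lemma one_sub {A : Module.End ℂ H} (hA : IsProj A) : IsProj (1 - A) where
  idem := by
    have h := hA.idem
    rw [sub_mul, mul_sub, mul_sub, h]; simp
  symm := by
    intro x y
    simp only [LinearMap.sub_apply, Module.End.one_apply, inner_sub_left, inner_sub_right,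
      hA.symm]

lemma apply_apply {A : Module.End ℂ H} (hA : IsProj A) (x : H) : A (A x) = A x := by
  have := congrArg (fun B : Module.End ℂ H => B x) hA.idem
  simpa using this

lemma inner_eq {A : Module.End ℂ H} (hA : IsProj A) (x y : H) : ⟪A x, A y⟫_ℂ = ⟪x, A y⟫_ℂ := by
  rw [hA.symm, apply_apply hA]

lemma normsq_eq_re (x : H) : ‖x‖ ^ 2 = (⟪x, x⟫_ℂ).re := by
  rw [inner_self_eq_norm_sq_to_K]; norm_cast

lemma normsq {A : Module.End ℂ H} (hA : IsProj A) (x : H) : ‖A x‖ ^ 2 = (⟪x, A x⟫_ℂ).re := by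
  rw [normsq_eq_re, inner_eq hA]

lemma normsq_add {A : Module.End ℂ H} (hA : IsProj A) (x : H) :
    ‖x‖ ^ 2 = ‖A x‖ ^ 2 + ‖(1 - A) x‖ ^ 2 := by
  rw [normsq hA, normsq (one_sub hA), normsq_eq_re, ← Complex.add_re, ← inner_add_right]
  congr 2
  simp

lemma norm_le {A : Module.End ℂ H} (hA : IsProj A) (x : H) : ‖A x‖ ≤ ‖x‖ := by
  have := normsq_add hA x
  have h2 : ‖A x‖ ^ 2 ≤ ‖x‖ ^ 2 := by nlinarith [sq_nonneg ‖(1 - A) x‖]
  exact (sq_le_sq₀ (norm_nonneg _) (norm_nonneg _)).1 h2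

lemma mul_proj {A B : Module.End ℂ H} (hA : IsProj A) (hB : IsProj B) (h : Commute A B) :
    IsProj (A * B) where
  idem := by
    calc A * B * (A * B) = A * (B * A) * B := by noncomm_ring
      _ = A * (A * B) * B := by rw [h.eq]
      _ = (A * A) * (B * B) := by noncomm_ring
      _ = A * B := by rw [hA.idem, hB.idem]
  symm := by
    intro x y
    have : (A * B) y = B (A y) := by rw [h.eq]; rfl
    rw [this]
    change ⟪A (B x), y⟫_ℂ = _
    rw [hA.symm, hB.symm]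

lemma sandwich {X A : Module.End ℂ H} (hX : IsProj X) {c : ℝ}
    (h : X * A * X = (c : ℂ) • X) {y z : H} (hy : X y = y) (hz : X z = z) :
    ⟪y, A z⟫_ℂ = (c : ℂ) * ⟪y, z⟫_ℂ := by
  have e : X (A z) = (c : ℂ) • z := by
    have := congrArg (fun B : Module.End ℂ H => B z) h
    simp only [Module.End.mul_apply, LinearMap.smul_apply, hz] at this
    exact this
  calc ⟪y, A z⟫_ℂ = ⟪X y, A z⟫_ℂ := by rw [hy]
    _ = ⟪y, X (A z)⟫_ℂ := hX.symm _ _
    _ = _ := by rw [e, inner_smul_right]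

lemma sandwich_normsq {X A : Module.End ℂ H} (hX : IsProj X) (hA : IsProj A) {c : ℝ}
    (h : X * A * X = (c : ℂ) • X) {y : H} (hy : X y = y) :
    ‖A y‖ ^ 2 = c * ‖y‖ ^ 2 := by
  rw [normsq hA, sandwich hX h hy hy, normsq_eq_re]
  simp

lemma refl_mul_refl {T : Module.End ℂ H} (hT : IsProj T) : refl T * refl T = 1 := by
  unfold refl
  have h := hT.idem
  rw [sub_mul, mul_sub, mul_sub, smul_mul_smul_comm, h]
  simp only [one_mul, mul_one]
  module

lemma refl_symm {T : Module.End ℂ H} (hT : IsProj T) (x y : H) :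
    ⟪refl T x, y⟫_ℂ = ⟪x, refl T y⟫_ℂ := by
  unfold refl
  simp only [LinearMap.sub_apply, Module.End.one_apply, LinearMap.smul_apply, inner_sub_left,
    inner_sub_right, inner_smul_left, inner_smul_right, hT.symm, map_ofNat]

lemma refl_refl {T : Module.End ℂ H} (hT : IsProj T) (x : H) : refl T (refl T x) = x := by
  have := congrArg (fun B : Module.End ℂ H => B x) (refl_mul_refl hT)
  simpa using this

lemma norm_refl {T : Module.End ℂ H} (hT : IsProj T) (x : H) : ‖refl T x‖ = ‖x‖ := by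
  have : ‖refl T x‖ ^ 2 = ‖x‖ ^ 2 := by
    rw [normsq_eq_re, refl_symm hT, refl_refl hT, ← normsq_eq_re]
  exact (sq_eq_sq₀ (norm_nonneg _) (norm_nonneg _)).1 this

lemma conj_proj {T F : Module.End ℂ H} (hT : IsProj T) (hF : IsProj F) :
    IsProj (refl T * F * refl T) where
  idem := by
    calc refl T * F * refl T * (refl T * F * refl T)
        = refl T * F * (refl T * refl T) * F * refl T := by noncomm_ring
      _ = refl T * (F * F) * refl T := by rw [refl_mul_refl hT]; noncomm_ring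
      _ = _ := by rw [hF.idem]
  symm := by
    intro x y
    simp only [Module.End.mul_apply]
    rw [refl_symm hT, hF.symm, refl_symm hT]

lemma refl_commute {T A : Module.End ℂ H} (h : Commute T A) : Commute (refl T) A := by
  unfold refl
  exact (Commute.one_left _).sub_left (h.smul_left _)

lemma chi_commute {F T A : Module.End ℂ H} (hF : Commute F A) (hT : Commute T A) :
    Commute (chi F T) A := by
  unfold chi
  exact ((refl_commute hT).mul_left hF).mul_left (refl_commute hT)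

section Fam

variable {J : Type*} [DecidableEq J] {f : J → Module.End ℂ H}
    {F : Finset J → Module.End ℂ H}

lemma fam_commute (hF : ProdFam f F) {A : Module.End ℂ H} (s : Finset J)
    (h : ∀ j ∈ s, Commute (f j) A) : Commute (F s) A := by
  induction s using Finset.induction_on with
  | empty => rw [hF.empty]; exact Commute.one_left _
  | insert a s ha ih =>
    rw [hF.insert a s ha]
    exact (h a (mem_insert_self _ _)).mul_left (ih fun j hj => h j (mem_insert_of_mem hj))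

lemma fam_proj (hF : ProdFam f F) (hp : ∀ j, IsProj (f j)) (hc : ∀ i j, Commute (f i) (f j))
    (s : Finset J) : IsProj (F s) := by
  induction s using Finset.induction_on with
  | empty => rw [hF.empty]; exact ⟨by simp, by simp⟩
  | insert a s ha ih =>
    rw [hF.insert a s ha]
    exact mul_proj (hp a) ih (fam_commute hF s fun j _ => hc j a).symm

lemma fam_univ [Fintype J] (hF : ProdFam f F) (j : J) :
    F univ = f j * F (univ.erase j) := by
  rw [← hF.insert j _ (notMem_erase _ _), insert_erase (mem_univ _)]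

/-- union bound for commuting projections -/
lemma fam_union (hF : ProdFam f F) (hp : ∀ j, IsProj (f j)) (hc : ∀ i j, Commute (f i) (f j))
    (s : Finset J) (x : H) : ‖(1 - F s) x‖ ^ 2 ≤ ∑ j ∈ s, ‖(1 - f j) x‖ ^ 2 := by
  induction s using Finset.induction_on with
  | empty => rw [hF.empty]; simp
  | insert a s ha ih =>
    rw [hF.insert a s ha, sum_insert ha]
    have hPa := hp a
    have hPs := fam_proj hF hp hc s
    have hcom : Commute (f a) (F s) := (fam_commute hF s fun j _ => hc j a).symm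
    have e : (1 - f a * F s) = (1 - f a) + f a * (1 - F s) := by noncomm_ring
    have h1 : ‖(1 - f a * F s) x‖ ^ 2 = ‖(1 - f a) x‖ ^ 2 + ‖f a ((1 - F s) x)‖ ^ 2 := by
      have hq : IsProj (1 - f a * F s) := one_sub (mul_proj hPa hPs hcom)
      rw [normsq_add (one_sub hPa) ((1 - f a * F s) x)]
      congr 2
      · congr 1
        have : (1 - f a) * (1 - f a * F s) = (1 - f a) := by
          have h := hPa.idem
          have : (1 - f a) * (1 - f a * F s) = 1 - f a - (f a - f a * f a) * F s := by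
            noncomm_ring
          rw [this, h]; simp
        have := congrArg (fun B : Module.End ℂ H => B x) this
        simpa using this
      · congr 1
        have : (1 - (1 - f a)) * (1 - f a * F s) = f a * (1 - F s) := by
          have h := hPa.idem
          have : (1 - (1 - f a)) * (1 - f a * F s) = f a - (f a * f a) * F s := by
            noncomm_ring
          rw [this, h]; noncomm_ring
        have := congrArg (fun B : Module.End ℂ H => B x) this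
        simpa using this
    rw [h1]
    have h2 : ‖f a ((1 - F s) x)‖ ^ 2 ≤ ‖(1 - F s) x‖ ^ 2 := by
      have := norm_le hPa ((1 - F s) x)
      gcongr
    linarith

end Fam

/-- two families, `n p n = ∏ (1-ν) n` -/
lemma fam_sandwich {L : Type*} [DecidableEq L] {θ p : L → Module.End ℂ H}
    {Th P : Finset L → Module.End ℂ H} (hTh : ProdFam θ Th) (hP : ProdFam p P)
    (c : L → ℝ) (h : ∀ l, θ l * p l * θ l = ((c l : ℝ) : ℂ) • θ l)
    (hc1 : ∀ l r, l ≠ r → Commute (θ l) (θ r)) (hc2 : ∀ l r, l ≠ r → Commute (θ l) (p r))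
    (s : Finset L) : Th s * P s * Th s = ((∏ l ∈ s, c l : ℝ) : ℂ) • Th s := by
  induction s using Finset.induction_on with
  | empty => rw [hTh.empty, hP.empty]; simp
  | insert a s ha ih =>
    rw [hTh.insert a s ha, hP.insert a s ha, prod_insert ha]
    have k1 : Commute (Th s) (p a) := fam_commute hTh s fun j hj =>
      hc2 j a (fun e => ha (e ▸ hj))
    have k2 : Commute (Th s) (θ a) := fam_commute hTh s fun j hj =>
      hc1 j a (fun e => ha (e ▸ hj))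
    have k3 : Commute (P s) (θ a) := fam_commute hP s fun j hj =>
      (hc2 a j (fun e => ha (e ▸ hj))).symm
    calc θ a * Th s * (p a * P s) * (θ a * Th s)
        = θ a * (Th s * p a) * (P s * θ a) * Th s := by noncomm_ring
      _ = θ a * (p a * Th s) * (θ a * P s) * Th s := by rw [k1.eq, k3.eq]
      _ = θ a * p a * (Th s * θ a) * P s * Th s := by noncomm_ring
      _ = θ a * p a * (θ a * Th s) * P s * Th s := by rw [k2.eq]
      _ = (θ a * p a * θ a) * (Th s * P s * Th s) := by noncomm_ring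
      _ = _ := by
        rw [h, ih, smul_mul_smul_comm]
        push_cast
        rfl

/-- all facts needed about one column with a gate -/
structure Facts {L : Type*} [Fintype L] [DecidableEq L] (θ p χ n pn : L → Module.End ℂ H)
    (Θ P : Module.End ℂ H) (ε ν : L → ℝ) : Prop where
  hθ : ∀ l, IsProj (θ l)
  hp : ∀ l, IsProj (p l)
  hχ : ∀ l, IsProj (χ l)
  hn : ∀ l, IsProj (n l)
  hpn : ∀ l, IsProj (pn l)
  hΘ : IsProj Θ
  hP : IsProj P
  Θ_eq : ∀ l, Θ = θ l * n l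
  P_eq : ∀ l, P = p l * pn l
  cθn : ∀ l, Commute (θ l) (n l)
  cθpn : ∀ l, Commute (θ l) (pn l)
  cppn : ∀ l, Commute (p l) (pn l)
  cθχ : ∀ l r, l ≠ r → Commute (θ r) (χ l)
  cpχ : ∀ l r, l ≠ r → Commute (p r) (χ l)
  cnχ : ∀ l, Commute (n l) (χ l)
  cpnχ : ∀ l, Commute (pn l) (χ l)
  tpt : ∀ l, θ l * p l * θ l = ((1 - ν l : ℝ) : ℂ) • θ l
  ctc : ∀ l, χ l * θ l * χ l = ((1 - ε l : ℝ) : ℂ) • χ l
  npn : ∀ l, n l * pn l * n l = ((∏ r ∈ univ.erase l, (1 - ν r) : ℝ) : ℂ) • n l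
  union : ∀ x : H, ‖(1 - P) x‖ ^ 2 ≤ ∑ r, ‖(1 - p r) x‖ ^ 2

namespace Facts

variable {L : Type*} [Fintype L] [DecidableEq L] {θ p χ n pn : L → Module.End ℂ H}
    {Θ P : Module.End ℂ H} {ε ν : L → ℝ}

lemma comm_apply {A B : Module.End ℂ H} (h : Commute A B) (x : H) : A (B x) = B (A x) := by
  have := congrArg (fun C : Module.End ℂ H => C x) h.eq
  simpa using this

lemma Θ_apply (D : Facts θ p χ n pn Θ P ε ν) (l : L) (x : H) : Θ x = θ l (n l x) := by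
  rw [D.Θ_eq l]; rfl

lemma P_apply (D : Facts θ p χ n pn Θ P ε ν) (l : L) (x : H) : P x = p l (pn l x) := by
  rw [D.P_eq l]; rfl

lemma θΘ (D : Facts θ p χ n pn Θ P ε ν) (l : L) (x : H) : θ l (Θ x) = Θ x := by
  rw [D.Θ_apply l, apply_apply (D.hθ l)]

lemma nΘ (D : Facts θ p χ n pn Θ P ε ν) (l : L) (x : H) : n l (Θ x) = Θ x := by
  rw [D.Θ_apply l, comm_apply (D.cθn l), apply_apply (D.hn l)]

lemma Θθ (D : Facts θ p χ n pn Θ P ε ν) (l : L) (x : H) : Θ (θ l x) = Θ x := by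
  rw [D.Θ_apply l, D.Θ_apply l x, comm_apply (D.cθn l) (θ l x), apply_apply (D.hθ l),
    comm_apply (D.cθn l) x]

lemma vP (D : Facts θ p χ n pn Θ P ε ν) (l : L) (x : H) : (1 - p l) (P x) = 0 := by
  rw [D.P_apply l]
  simp only [LinearMap.sub_apply, Module.End.one_apply, apply_apply (D.hp l), sub_self]

lemma pnP (D : Facts θ p χ n pn Θ P ε ν) (l : L) (x : H) : (1 - pn l) (P x) = 0 := by
  rw [D.P_apply l, comm_apply (D.cppn l)]
  simp only [LinearMap.sub_apply, Module.End.one_apply, apply_apply (D.hpn l), sub_self]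

/-- the vectors `A_l`, `C_l` -/
def vA (n χ : L → Module.End ℂ H) (w : H) (l : L) : H := n l (χ l w)
def vC (χ : L → Module.End ℂ H) (Θ : Module.End ℂ H) (w : H) (l : L) : H := χ l (Θ (w - χ l w))

lemma χA (D : Facts θ p χ n pn Θ P ε ν) (w : H) (l : L) : χ l (vA n χ w l) = vA n χ w l := by
  unfold vA
  rw [← comm_apply (D.cnχ l), apply_apply (D.hχ l)]

lemma nA (D : Facts θ p χ n pn Θ P ε ν) (w : H) (l : L) : n l (vA n χ w l) = vA n χ w l := by
  unfold vA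
  rw [apply_apply (D.hn l)]

lemma χC (D : Facts θ p χ n pn Θ P ε ν) (w : H) (l : L) : χ l (vC χ Θ w l) = vC χ Θ w l := by
  unfold vC
  rw [apply_apply (D.hχ l)]

lemma χθ_of (D : Facts θ p χ n pn Θ P ε ν) (l : L) {y : H} (hy : χ l y = y) :
    χ l (θ l y) = ((1 - ε l : ℝ) : ℂ) • y := by
  have := congrArg (fun C : Module.End ℂ H => C y) (D.ctc l)
  simp only [Module.End.mul_apply, LinearMap.smul_apply, hy] at this
  exact this

lemma g_eq (D : Facts θ p χ n pn Θ P ε ν) (w : H) (l : L) :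
    χ l (Θ w) = ((1 - ε l : ℝ) : ℂ) • vA n χ w l + vC χ Θ w l := by
  have h1 : χ l (Θ (χ l w)) = ((1 - ε l : ℝ) : ℂ) • vA n χ w l := by
    rw [D.Θ_apply l]
    exact D.χθ_of l (D.χA w l)
  have h2 : vC χ Θ w l = χ l (Θ w) - χ l (Θ (χ l w)) := by
    unfold vC; rw [map_sub, map_sub]
  rw [h2, h1]; abel

lemma a_eq (D : Facts θ p χ n pn Θ P ε ν) (w : H) (l : L) :
    Θ (χ l ((1 - Θ) w)) = θ l ((ε l : ℂ) • vA n χ w l - vC χ Θ w l) := by
  have h0 : n l (χ l ((1 - Θ) w)) = χ l (n l w) - χ l (Θ w) := by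
    rw [comm_apply (D.cnχ l)]
    simp only [LinearMap.sub_apply, Module.End.one_apply, map_sub, D.nΘ l]
  rw [D.Θ_apply l, h0, D.g_eq w l]
  congr 1
  have : χ l (n l w) = vA n χ w l := by
    unfold vA; rw [comm_apply (D.cnχ l)]
  rw [this]
  push_cast
  module

lemma e_eq (D : Facts θ p χ n pn Θ P ε ν) (w : H) (l : L) :
    (1 - Θ) (χ l (Θ w)) = (1 - θ l) (((1 - ε l : ℝ) : ℂ) • vA n χ w l + vC χ Θ w l) := by
  rw [← D.g_eq w l]
  simp only [LinearMap.sub_apply, Module.End.one_apply]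
  rw [D.Θ_apply l (χ l (Θ w)), comm_apply (D.cnχ l), D.nΘ l]

lemma ctc' (D : Facts θ p χ n pn Θ P ε ν) (l : L) :
    χ l * (1 - θ l) * χ l = ((ε l : ℝ) : ℂ) • χ l := by
  have h1 := D.ctc l
  have h2 := (D.hχ l).idem
  calc χ l * (1 - θ l) * χ l = χ l * χ l - χ l * θ l * χ l := by noncomm_ring
    _ = _ := by rw [h1, h2]; push_cast; module

lemma tvt (D : Facts θ p χ n pn Θ P ε ν) (l : L) :
    θ l * (1 - p l) * θ l = ((ν l : ℝ) : ℂ) • θ l := by
  have h1 := D.tpt l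
  have h2 := (D.hθ l).idem
  calc θ l * (1 - p l) * θ l = θ l * θ l - θ l * p l * θ l := by noncomm_ring
    _ = _ := by rw [h1, h2]; push_cast; module

lemma norm_a (D : Facts θ p χ n pn Θ P ε ν) (w : H) (l : L) :
    ‖Θ (χ l ((1 - Θ) w))‖ ^ 2
      = (1 - ε l) * ‖(ε l : ℂ) • vA n χ w l - vC χ Θ w l‖ ^ 2 := by
  rw [D.a_eq w l]
  refine sandwich_normsq (D.hχ l) (D.hθ l) (D.ctc l) ?_
  rw [map_sub, map_smul, D.χA, D.χC]

lemma norm_e (D : Facts θ p χ n pn Θ P ε ν) (w : H) (l : L) :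
    ‖(1 - Θ) (χ l (Θ w))‖ ^ 2
      = ε l * ‖((1 - ε l : ℝ) : ℂ) • vA n χ w l + vC χ Θ w l‖ ^ 2 := by
  rw [D.e_eq w l]
  refine sandwich_normsq (D.hχ l) (one_sub (D.hθ l)) (D.ctc' l) ?_
  rw [map_add, map_smul, D.χA, D.χC]

lemma C_zero (D : Facts θ p χ n pn Θ P ε ν) (w : H) (l : L) (h : ε l = 0) :
    vC χ Θ w l = 0 := by
  have hC := D.χC w l
  have h1 : (1 - θ l) (vC χ Θ w l) = 0 := by
    have := sandwich_normsq (D.hχ l) (one_sub (D.hθ l)) (D.ctc' l) hC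
    rw [h, zero_mul] at this
    exact norm_eq_zero.1 (pow_eq_zero_iff (two_ne_zero)|>.1 this)
  have h2 : θ l (vC χ Θ w l) = vC χ Θ w l := by
    simp only [LinearMap.sub_apply, Module.End.one_apply] at h1
    exact (sub_eq_zero.1 h1).symm
  have h3 : ⟪vC χ Θ w l, vC χ Θ w l⟫_ℂ = 0 := by
    have e1 : vC χ Θ w l = χ l (θ l (n l (w - χ l w))) := by
      unfold vC; rw [D.Θ_apply l]
    calc ⟪vC χ Θ w l, vC χ Θ w l⟫_ℂ = ⟪χ l (θ l (n l (w - χ l w))), vC χ Θ w l⟫_ℂ := by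
          rw [← e1]
      _ = ⟪n l (w - χ l w), θ l (χ l (vC χ Θ w l))⟫_ℂ := by
          rw [(D.hχ l).symm, (D.hθ l).symm]
      _ = ⟪n l (w - χ l w), χ l (vC χ Θ w l)⟫_ℂ := by rw [hC, h2]
      _ = ⟪χ l (n l (w - χ l w)), vC χ Θ w l⟫_ℂ := by rw [(D.hχ l).symm]
      _ = 0 := by
          rw [← comm_apply (D.cnχ l), map_sub (χ l), apply_apply (D.hχ l), sub_self, map_zero,
            inner_zero_left]
  exact inner_self_eq_zero.1 h3

lemma θ_e (D : Facts θ p χ n pn Θ P ε ν) (w : H) {l r : L} (h : l ≠ r) :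
    θ r ((1 - Θ) (χ l (Θ w))) = (1 - Θ) (χ l (Θ w)) := by
  have h1 : θ r (χ l (Θ w)) = χ l (Θ w) := by
    rw [comm_apply (D.cθχ l r h), D.θΘ]
  simp only [LinearMap.sub_apply, Module.End.one_apply, map_sub, D.θΘ, h1]

/-- (A)_r -/
lemma stepA (D : Facts θ p χ n pn Θ P ε ν) (w : H) (r : L) (s : Finset L) :
    ‖(1 - p r) (∑ l ∈ s, Θ (χ l ((1 - Θ) w)))‖ ^ 2
      = ν r * ‖∑ l ∈ s, Θ (χ l ((1 - Θ) w))‖ ^ 2 := by
  refine sandwich_normsq (D.hθ r) (one_sub (D.hp r)) (D.tvt r) ?_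
  rw [map_sum]
  exact sum_congr rfl fun l _ => D.θΘ r _

/-- (Bt)_r -/
lemma stepB (D : Facts θ p χ n pn Θ P ε ν) (w : H) (r : L) :
    ‖(1 - p r) (∑ l ∈ univ.erase r, (1 - Θ) (χ l (Θ w)))‖ ^ 2
      = ν r * ‖∑ l ∈ univ.erase r, (1 - Θ) (χ l (Θ w))‖ ^ 2 := by
  refine sandwich_normsq (D.hθ r) (one_sub (D.hp r)) (D.tvt r) ?_
  rw [map_sum]
  exact sum_congr rfl fun l hl => D.θ_e w (ne_of_mem_erase hl)

lemma orth_e (D : Facts θ p χ n pn Θ P ε ν) (w : H) {l m : L} (h : l ≠ m) :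
    ⟪(1 - Θ) (χ l (Θ w)), (1 - Θ) (χ m (Θ w))⟫_ℂ = 0 := by
  have e1 : (1 - Θ) (χ l (Θ w)) = (1 - θ l) (χ l (Θ w)) := by
    simp only [LinearMap.sub_apply, Module.End.one_apply]
    rw [D.Θ_apply l (χ l (Θ w)), comm_apply (D.cnχ l), D.nΘ l]
  rw [e1, (one_sub (D.hθ l)).symm]
  have : (1 - θ l) ((1 - Θ) (χ m (Θ w))) = 0 := by
    rw [LinearMap.sub_apply, Module.End.one_apply, D.θ_e w h.symm, sub_self]
  rw [this, inner_zero_right]

lemma sum_e (D : Facts θ p χ n pn Θ P ε ν) (w : H) (s : Finset L) :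
    ‖∑ l ∈ s, (1 - Θ) (χ l (Θ w))‖ ^ 2 = ∑ l ∈ s, ‖(1 - Θ) (χ l (Θ w))‖ ^ 2 := by
  induction s using Finset.induction_on with
  | empty => simp
  | insert a s ha ih =>
    rw [sum_insert ha, sum_insert ha, ← ih]
    have h0 : ⟪(1 - Θ) (χ a (Θ w)), ∑ l ∈ s, (1 - Θ) (χ l (Θ w))⟫_ℂ = 0 := by
      rw [inner_sum]
      exact sum_eq_zero fun l hl => D.orth_e w (fun e => ha (e ▸ hl))
    have := norm_add_sq_eq_norm_sq_add_norm_sq_of_inner_eq_zero _ _ h0
    nlinarith [this]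

omit [InnerProductSpace ℂ H] in
lemma normsq_sub_le (x y : H) : ‖x - y‖ ^ 2 ≤ 2 * ‖x‖ ^ 2 + 2 * ‖y‖ ^ 2 := by
  have h1 := norm_sub_le x y
  have h2 : ‖x - y‖ ^ 2 ≤ (‖x‖ + ‖y‖) ^ 2 := by gcongr
  nlinarith [sq_nonneg (‖x‖ - ‖y‖)]

omit [InnerProductSpace ℂ H] in
lemma normsq_add_le (x y : H) : ‖x + y‖ ^ 2 ≤ 2 * ‖x‖ ^ 2 + 2 * ‖y‖ ^ 2 := by
  have h1 := norm_add_le x y
  have h2 : ‖x + y‖ ^ 2 ≤ (‖x‖ + ‖y‖) ^ 2 := by gcongr
  nlinarith [sq_nonneg (‖x‖ - ‖y‖)]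

lemma norm_rsmul (c : ℝ) (x : H) : ‖((c : ℝ) : ℂ) • x‖ ^ 2 = c ^ 2 * ‖x‖ ^ 2 := by
  rw [norm_smul, mul_pow, Complex.norm_real, Real.norm_eq_abs, sq_abs]

lemma a_le (D : Facts θ p χ n pn Θ P ε ν) (hε0 : ∀ l, 0 ≤ ε l) (hε1 : ∀ l, ε l ≤ 1)
    (w : H) (l : L) :
    (ε l)⁻¹ * ‖Θ (χ l ((1 - Θ) w))‖ ^ 2
      ≤ 2 * (ε l * (1 - ε l)) * ‖vA n χ w l‖ ^ 2 + 2 * ((ε l)⁻¹ * ‖vC χ Θ w l‖ ^ 2) := by
  have h1 := hε1 l
  rcases (hε0 l).eq_or_lt with h | h
  · rw [← h]; simp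
  · rw [D.norm_a w l]
    have k := normsq_sub_le ((ε l : ℂ) • vA n χ w l) (vC χ Θ w l)
    rw [norm_rsmul] at k
    have hC : 0 ≤ ‖vC χ Θ w l‖ ^ 2 := by positivity
    have hi : 0 ≤ (ε l)⁻¹ := by positivity
    calc (ε l)⁻¹ * ((1 - ε l) * ‖(ε l : ℂ) • vA n χ w l - vC χ Θ w l‖ ^ 2)
        ≤ (ε l)⁻¹ * ((1 - ε l) * (2 * (ε l ^ 2 * ‖vA n χ w l‖ ^ 2) + 2 * ‖vC χ Θ w l‖ ^ 2)) := by
          gcongr
      _ = 2 * (ε l * (1 - ε l)) * ‖vA n χ w l‖ ^ 2
            + 2 * ((ε l)⁻¹ * ‖vC χ Θ w l‖ ^ 2) - 2 * ‖vC χ Θ w l‖ ^ 2 := by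
          field_simp
          ring
      _ ≤ _ := by linarith

lemma e_le (D : Facts θ p χ n pn Θ P ε ν) (hε0 : ∀ l, 0 ≤ ε l) (hε1 : ∀ l, ε l ≤ 1)
    (w : H) (l : L) :
    ‖(1 - Θ) (χ l (Θ w))‖ ^ 2
      ≤ 2 * (ε l * (1 - ε l)) * ‖vA n χ w l‖ ^ 2 + 2 * ((ε l)⁻¹ * ‖vC χ Θ w l‖ ^ 2) := by
  have h0 := hε0 l
  have h1 := hε1 l
  rw [D.norm_e w l]
  have k := normsq_add_le (((1 - ε l : ℝ) : ℂ) • vA n χ w l) (vC χ Θ w l)
  rw [norm_rsmul] at k
  have hC : 0 ≤ ‖vC χ Θ w l‖ ^ 2 := by positivity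
  have hA : 0 ≤ ‖vA n χ w l‖ ^ 2 := by positivity
  have h2 : ε l * ‖vC χ Θ w l‖ ^ 2 ≤ (ε l)⁻¹ * ‖vC χ Θ w l‖ ^ 2 := by
    rcases h0.eq_or_lt with h | h
    · rw [← h]; simp
    · gcongr
      have : 1 ≤ (ε l)⁻¹ := (one_le_inv₀ h).2 h1
      linarith
  have h3 : ε l * (2 * ((1 - ε l) ^ 2 * ‖vA n χ w l‖ ^ 2))
      ≤ 2 * (ε l * (1 - ε l)) * ‖vA n χ w l‖ ^ 2 := by
    have : (1 - ε l) ^ 2 ≤ (1 - ε l) := by nlinarith
    have h4 : ε l * (1 - ε l) ^ 2 ≤ ε l * (1 - ε l) := by gcongr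
    nlinarith
  nlinarith

/-- Cauchy-Schwarz with weights -/
lemma sum_a (D : Facts θ p χ n pn Θ P ε ν) (hε0 : ∀ l, 0 ≤ ε l)
    (w : H) (s : Finset L) :
    ‖∑ l ∈ s, Θ (χ l ((1 - Θ) w))‖ ^ 2
      ≤ (∑ l ∈ s, ε l) * ∑ l ∈ s, (ε l)⁻¹ * ‖Θ (χ l ((1 - Θ) w))‖ ^ 2 := by
  have h1 : ‖∑ l ∈ s, Θ (χ l ((1 - Θ) w))‖
      ≤ ∑ l ∈ s, Real.sqrt (ε l) * (Real.sqrt (ε l)⁻¹ * ‖Θ (χ l ((1 - Θ) w))‖) := by
    refine (norm_sum_le _ _).trans (le_of_eq (sum_congr rfl fun l _ => ?_))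
    rcases (hε0 l).eq_or_lt with h | h
    · have : ‖Θ (χ l ((1 - Θ) w))‖ ^ 2 = 0 := by
        rw [D.norm_a w l, ← h, D.C_zero w l h.symm]; simp
      have h0 : ‖Θ (χ l ((1 - Θ) w))‖ = 0 := by
        exact (pow_eq_zero_iff two_ne_zero).1 this
      rw [h0]; simp
    · rw [← mul_assoc, ← Real.sqrt_mul (hε0 l), mul_inv_cancel₀ h.ne', Real.sqrt_one, one_mul]
  calc ‖∑ l ∈ s, Θ (χ l ((1 - Θ) w))‖ ^ 2
      ≤ (∑ l ∈ s, Real.sqrt (ε l) * (Real.sqrt (ε l)⁻¹ * ‖Θ (χ l ((1 - Θ) w))‖)) ^ 2 := by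
        gcongr
    _ ≤ (∑ l ∈ s, Real.sqrt (ε l) ^ 2)
          * ∑ l ∈ s, (Real.sqrt (ε l)⁻¹ * ‖Θ (χ l ((1 - Θ) w))‖) ^ 2 :=
        sum_mul_sq_le_sq_mul_sq _ _ _
    _ = _ := by
        congr 1
        · exact sum_congr rfl fun l _ => Real.sq_sqrt (hε0 l)
        · refine sum_congr rfl fun l _ => ?_
          rw [mul_pow, Real.sq_sqrt (inv_nonneg.2 (hε0 l))]

lemma conv_ineq (e x y c : ℝ) (h0 : 0 ≤ e) (h1 : e ≤ 1) (hc0 : 0 ≤ c) (hc : 2 * c ≤ x + y) :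
    4 * (e * (1 - e)) * c ^ 2 ≤ e * x ^ 2 + (1 - e) * y ^ 2 := by
  have h2 : 4 * c ^ 2 ≤ (x + y) ^ 2 := by nlinarith
  have h3 : e * (1 - e) * (x + y) ^ 2 ≤ e * x ^ 2 + (1 - e) * y ^ 2 := by
    nlinarith [sq_nonneg (e * x - (1 - e) * y)]
  have h4 : 0 ≤ e * (1 - e) := mul_nonneg h0 (by linarith)
  nlinarith

/-- (G') -/
lemma stepG (D : Facts θ p χ n pn Θ P ε ν) (hε0 : ∀ l, 0 ≤ ε l) (hε1 : ∀ l, ε l ≤ 1)
    (w : H) (l : L) :
    4 * (ε l * (1 - ε l)) * ((1 - ∏ r ∈ univ.erase l, (1 - ν r)) * ‖vA n χ w l‖ ^ 2)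
      ≤ ‖(1 - P) (refl Θ (χ l w))‖ ^ 2 := by
  set a : H := (1 - pn l) (χ l w) with ha
  set c : H := (1 - pn l) (vA n χ w l) with hc
  have hχa : χ l a = a := by
    rw [ha]
    simp only [LinearMap.sub_apply, Module.End.one_apply, map_sub]
    rw [← comm_apply (D.cpnχ l), apply_apply (D.hχ l)]
  have hχc : χ l c = c := by
    rw [hc]
    simp only [LinearMap.sub_apply, Module.End.one_apply, map_sub]
    rw [← comm_apply (D.cpnχ l), D.χA w l]
  have e1 : (1 - pn l) ((1 - P) (refl Θ (χ l w))) = a - (2 : ℂ) • θ l c := by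
    have : (1 - pn l) ((1 - P) (refl Θ (χ l w))) = (1 - pn l) (refl Θ (χ l w)) := by
      have := D.pnP l (refl Θ (χ l w))
      have h2 : (1 - P) (refl Θ (χ l w)) = refl Θ (χ l w) - P (refl Θ (χ l w)) := rfl
      rw [h2, map_sub, this, sub_zero]
    rw [this]
    have h3 : refl Θ (χ l w) = χ l w - (2 : ℂ) • θ l (vA n χ w l) := by
      unfold refl vA
      rw [← D.Θ_apply l]; rfl
    rw [h3, map_sub, map_smul]
    congr 2
    rw [hc]
    simp only [LinearMap.sub_apply, Module.End.one_apply, map_sub]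
    rw [comm_apply (D.cθpn l)]
  have h1 : ‖a - (2 : ℂ) • θ l c‖ ^ 2 ≤ ‖(1 - P) (refl Θ (χ l w))‖ ^ 2 := by
    rw [← e1]
    have := norm_le (one_sub (D.hpn l)) ((1 - P) (refl Θ (χ l w)))
    gcongr
  -- expansion
  have h2 : ‖a - (2 : ℂ) • θ l c‖ ^ 2
      = ε l * ‖a‖ ^ 2 + (1 - ε l) * ‖a - (2 : ℂ) • c‖ ^ 2 := by
    have i1 : (⟪a, θ l c⟫_ℂ).re = (1 - ε l) * (⟪a, c⟫_ℂ).re := by
      rw [sandwich (D.hχ l) (D.ctc l) hχa hχc, Complex.re_ofReal_mul]
    have i2 : ‖θ l c‖ ^ 2 = (1 - ε l) * ‖c‖ ^ 2 :=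
      sandwich_normsq (D.hχ l) (D.hθ l) (D.ctc l) hχc
    have j1 : ‖a - (2 : ℂ) • θ l c‖ ^ 2
        = ‖a‖ ^ 2 - 2 * (2 * (⟪a, θ l c⟫_ℂ).re) + 4 * ‖θ l c‖ ^ 2 := by
      have := @norm_sub_sq ℂ H _ _ _ a ((2 : ℂ) • θ l c)
      rw [this, inner_smul_right, norm_smul, mul_pow]
      have t1 : RCLike.re ((2 : ℂ) * ⟪a, θ l c⟫_ℂ) = 2 * (⟪a, θ l c⟫_ℂ).re := by
        simp
      rw [t1]
      have t2 : ‖(2 : ℂ)‖ ^ 2 = 4 := by norm_num
      rw [t2]
    have j2 : ‖a - (2 : ℂ) • c‖ ^ 2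
        = ‖a‖ ^ 2 - 2 * (2 * (⟪a, c⟫_ℂ).re) + 4 * ‖c‖ ^ 2 := by
      have := @norm_sub_sq ℂ H _ _ _ a ((2 : ℂ) • c)
      rw [this, inner_smul_right, norm_smul, mul_pow]
      have t1 : RCLike.re ((2 : ℂ) * ⟪a, c⟫_ℂ) = 2 * (⟪a, c⟫_ℂ).re := by
        simp
      rw [t1]
      have t2 : ‖(2 : ℂ)‖ ^ 2 = 4 := by norm_num
      rw [t2]
    rw [j1, j2, i1, i2]; ring
  have h3 : 2 * ‖c‖ ≤ ‖a‖ + ‖a - (2 : ℂ) • c‖ := by
    have := norm_sub_le a (a - (2 : ℂ) • c)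
    rw [sub_sub_cancel, norm_smul] at this
    have t2 : ‖(2 : ℂ)‖ = 2 := by norm_num
    rw [t2] at this
    exact this
  have h4 := conv_ineq (ε l) ‖a‖ ‖a - (2 : ℂ) • c‖ ‖c‖ (hε0 l) (hε1 l) (norm_nonneg _) h3
  have h5 : ‖c‖ ^ 2 = (1 - ∏ r ∈ univ.erase l, (1 - ν r)) * ‖vA n χ w l‖ ^ 2 := by
    have k : n l * (1 - pn l) * n l
        = (((1 - ∏ r ∈ univ.erase l, (1 - ν r)) : ℝ) : ℂ) • n l := by
      have g1 := D.npn l
      have g2 := (D.hn l).idem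
      calc n l * (1 - pn l) * n l = n l * n l - n l * pn l * n l := by noncomm_ring
        _ = _ := by rw [g1, g2]; push_cast; module
    exact sandwich_normsq (D.hn l) (one_sub (D.hpn l)) k (D.nA w l)
  rw [← h5]
  linarith

lemma prod_le_exp (hν0 : ∀ l, 0 ≤ ν l) (hν1 : ∀ l, ν l ≤ 1)
    (l : L) (M2 : ℝ) (h : ∑ r, ν r ≤ M2) :
    ∑ r ∈ univ.erase l, ν r ≤ (1 + M2) * (1 - ∏ r ∈ univ.erase l, (1 - ν r)) := by
  set s := ∑ r ∈ univ.erase l, ν r with hs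
  have hs0 : 0 ≤ s := sum_nonneg fun r _ => hν0 r
  have hsM : s ≤ M2 := by
    refine le_trans ?_ h
    exact sum_le_sum_of_subset_of_nonneg (erase_subset _ _) fun r _ _ => hν0 r
  have h1 : ∏ r ∈ univ.erase l, (1 - ν r) ≤ Real.exp (-s) := by
    rw [hs, ← sum_neg_distrib, Real.exp_sum]
    refine prod_le_prod (fun r _ => by linarith [hν1 r]) fun r _ => ?_
    have := Real.add_one_le_exp (-ν r)
    linarith
  have h2 : Real.exp (-s) ≤ 1 / (1 + s) := by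
    rw [Real.exp_neg, ← one_div]
    apply one_div_le_one_div_of_le (by linarith)
    have := Real.add_one_le_exp s
    linarith
  have h3 : s ≤ (1 + s) * (1 - ∏ r ∈ univ.erase l, (1 - ν r)) := by
    have h4 : (1 + s) * (∏ r ∈ univ.erase l, (1 - ν r)) ≤ 1 := by
      calc (1 + s) * (∏ r ∈ univ.erase l, (1 - ν r)) ≤ (1 + s) * (1 / (1 + s)) := by
            have := h1.trans h2
            gcongr
        _ = 1 := by field_simp
    nlinarith
  have h5 : 0 ≤ 1 - ∏ r ∈ univ.erase l, (1 - ν r) := by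
    have : ∏ r ∈ univ.erase l, (1 - ν r) ≤ 1 :=
      prod_le_one (fun r _ => by linarith [hν1 r]) fun r _ => by linarith [hν0 r]
    linarith
  nlinarith

lemma norm_B (D : Facts θ p χ n pn Θ P ε ν) (x : H) :
    ‖(1 - refl Θ * P * refl Θ) x‖ = ‖(1 - P) (refl Θ x)‖ := by
  rw [← norm_refl D.hΘ ((1 - P) (refl Θ x))]
  congr 1
  simp only [LinearMap.sub_apply, Module.End.one_apply, Module.End.mul_apply, map_sub,
    refl_refl D.hΘ]

lemma step1 (D : Facts θ p χ n pn Θ P ε ν) (w : H) (hw : refl Θ (P (refl Θ w)) = w)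
    {l r : L} (h : l ≠ r) :
    (1 - p r) (refl Θ ((1 - χ l) w))
      = (2 : ℂ) • (1 - p r) (Θ (χ l ((1 - Θ) w))) - (2 : ℂ) • (1 - p r) ((1 - Θ) (χ l (Θ w))) := by
  have h0 : (1 - p r) (refl Θ w) = 0 := by
    have : refl Θ w = P (refl Θ w) := by
      conv_lhs => rw [← hw, refl_refl D.hΘ]
    rw [this, D.vP]
  have h1 : (1 - p r) (χ l (refl Θ w)) = 0 := by
    have c : Commute (1 - p r) (χ l) := (Commute.one_left _).sub_left (D.cpχ l r h)
    rw [comm_apply c, h0, map_zero]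
  have h2 : refl Θ w = w - (2 : ℂ) • Θ w := rfl
  have h3 : (1 - p r) (χ l w) = (2 : ℂ) • (1 - p r) (χ l (Θ w)) := by
    rw [h2, map_sub, map_smul, map_sub, map_smul] at h1
    exact sub_eq_zero.1 h1
  have h4 : refl Θ ((1 - χ l) w) = refl Θ w - (χ l w - (2 : ℂ) • Θ (χ l w)) := by
    have : (1 - χ l) w = w - χ l w := rfl
    rw [this, map_sub]; rfl
  rw [h4, map_sub, h0, map_sub, map_smul, h3]
  have h5 : (1 - Θ) w = w - Θ w := rfl
  have h6 : (1 - Θ) (χ l (Θ w)) = χ l (Θ w) - Θ (χ l (Θ w)) := rfl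
  rw [h5, h6]
  simp only [map_sub, smul_sub]
  abel

lemma step2 (D : Facts θ p χ n pn Θ P ε ν) (w : H) (hw : refl Θ (P (refl Θ w)) = w) (r : L) :
    (1 - p r) (refl Θ (∑ l, (1 - χ l) w))
      = -((1 - p r) (refl Θ (χ r w)))
        + (2 : ℂ) • (1 - p r) (∑ l ∈ univ.erase r, Θ (χ l ((1 - Θ) w)))
        - (2 : ℂ) • (1 - p r) (∑ l ∈ univ.erase r, (1 - Θ) (χ l (Θ w))) := by
  have h0 : (1 - p r) (refl Θ w) = 0 := by
    have : refl Θ w = P (refl Θ w) := by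
      conv_lhs => rw [← hw, refl_refl D.hΘ]
    rw [this, D.vP]
  have h1 : (1 - p r) (refl Θ ((1 - χ r) w)) = -((1 - p r) (refl Θ (χ r w))) := by
    have : (1 - χ r) w = w - χ r w := rfl
    rw [this, map_sub, map_sub, h0, zero_sub]
  rw [← add_sum_erase univ _ (mem_univ r), map_add, map_add, h1, map_sum, map_sum,
    sum_congr rfl fun l hl => D.step1 w hw (ne_of_mem_erase hl), sum_sub_distrib,
    map_sum, map_sum, smul_sum, smul_sum]
  abel

omit [InnerProductSpace ℂ H] in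
lemma three (x y z : H) : ‖-x + y - z‖ ^ 2 ≤ 3 * ‖x‖ ^ 2 + 3 * ‖y‖ ^ 2 + 3 * ‖z‖ ^ 2 := by
  have h1 : ‖-x + y - z‖ ≤ ‖x‖ + ‖y‖ + ‖z‖ := by
    refine (norm_sub_le _ _).trans ?_
    have := norm_add_le (-x) y
    rw [norm_neg] at this
    linarith
  have h2 : ‖-x + y - z‖ ^ 2 ≤ (‖x‖ + ‖y‖ + ‖z‖) ^ 2 := by gcongr
  nlinarith [sq_nonneg (‖x‖ - ‖y‖), sq_nonneg (‖y‖ - ‖z‖), sq_nonneg (‖x‖ - ‖z‖)]

lemma two_smul_sq (x : H) : ‖(2 : ℂ) • x‖ ^ 2 = 4 * ‖x‖ ^ 2 := by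
  rw [norm_smul, mul_pow]
  norm_num

theorem main (D : Facts θ p χ n pn Θ P ε ν) (hε0 : ∀ l, 0 ≤ ε l) (hε1 : ∀ l, ε l ≤ 1)
    (hν0 : ∀ l, 0 ≤ ν l) (hν1 : ∀ l, ν l ≤ 1)
    (w : H) (hw : refl Θ (P (refl Θ w)) = w) (M1 M2 : ℝ) (hM1 : 0 ≤ M1) (hM2 : 0 ≤ M2)
    (h1 : ∑ l, ε l ≤ M1) (h2 : ∑ l, ν l ≤ M2) :
    ‖(1 - refl Θ * P * refl Θ) (∑ l, (1 - χ l) w)‖ ^ 2
      ≤ ∑ l, ((3 + 6 * (1 + M1) * (1 + M2)) * ‖(1 - refl Θ * P * refl Θ) (χ l w)‖ ^ 2
          + 24 * (1 + M1) * M2 * ((ε l)⁻¹ * ‖χ l (Θ ((1 - χ l) w))‖ ^ 2)) := by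
  set al : L → ℝ := fun l =>
    2 * (ε l * (1 - ε l)) * ‖vA n χ w l‖ ^ 2 + 2 * ((ε l)⁻¹ * ‖vC χ Θ w l‖ ^ 2) with hal
  have hal0 : ∀ l, 0 ≤ al l := by
    intro l
    have := hε0 l
    have := hε1 l
    simp only [hal]
    have t1 : 0 ≤ ε l * (1 - ε l) := mul_nonneg (hε0 l) (by linarith)
    have t2 : 0 ≤ (ε l)⁻¹ := inv_nonneg.2 (hε0 l)
    positivity
  -- pointwise bound for fixed r
  have hr : ∀ r, ‖(1 - p r) (refl Θ (∑ l, (1 - χ l) w))‖ ^ 2
      ≤ 3 * ‖(1 - P) (refl Θ (χ r w))‖ ^ 2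
        + 12 * (1 + M1) * (ν r * ∑ l ∈ univ.erase r, al l) := by
    intro r
    rw [D.step2 w hw r]
    refine (three _ _ _).trans ?_
    rw [two_smul_sq, two_smul_sq, D.stepA, D.stepB, D.sum_e]
    have k1 : ‖(1 - p r) (refl Θ (χ r w))‖ ^ 2 ≤ ‖(1 - P) (refl Θ (χ r w))‖ ^ 2 := by
      have e : (1 - p r) (refl Θ (χ r w)) = (1 - p r) ((1 - P) (refl Θ (χ r w))) := by
        have h2 : (1 - P) (refl Θ (χ r w)) = refl Θ (χ r w) - P (refl Θ (χ r w)) := rfl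
        rw [h2, map_sub, D.vP, sub_zero]
      rw [e]
      have := norm_le (one_sub (D.hp r)) ((1 - P) (refl Θ (χ r w)))
      gcongr
    have k2 : ‖∑ l ∈ univ.erase r, Θ (χ l ((1 - Θ) w))‖ ^ 2
        ≤ M1 * ∑ l ∈ univ.erase r, al l := by
      refine (D.sum_a hε0 w _).trans ?_
      have q1 : ∑ l ∈ univ.erase r, ε l ≤ M1 :=
        (sum_le_sum_of_subset_of_nonneg (erase_subset _ _) fun l _ _ => hε0 l).trans h1
      have q2 : ∑ l ∈ univ.erase r, (ε l)⁻¹ * ‖Θ (χ l ((1 - Θ) w))‖ ^ 2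
          ≤ ∑ l ∈ univ.erase r, al l := sum_le_sum fun l _ => D.a_le hε0 hε1 w l
      have q3 : 0 ≤ ∑ l ∈ univ.erase r, (ε l)⁻¹ * ‖Θ (χ l ((1 - Θ) w))‖ ^ 2 :=
        sum_nonneg fun l _ => mul_nonneg (inv_nonneg.2 (hε0 l)) (by positivity)
      exact mul_le_mul q1 q2 q3 hM1
    have k3 : ∑ l ∈ univ.erase r, ‖(1 - Θ) (χ l (Θ w))‖ ^ 2 ≤ ∑ l ∈ univ.erase r, al l :=
      sum_le_sum fun l _ => D.e_le hε0 hε1 w l
    have k4 : ν r * ‖∑ l ∈ univ.erase r, Θ (χ l ((1 - Θ) w))‖ ^ 2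
        ≤ ν r * (M1 * ∑ l ∈ univ.erase r, al l) := mul_le_mul_of_nonneg_left k2 (hν0 r)
    have k5 : ν r * ∑ l ∈ univ.erase r, ‖(1 - Θ) (χ l (Θ w))‖ ^ 2
        ≤ ν r * ∑ l ∈ univ.erase r, al l := mul_le_mul_of_nonneg_left k3 (hν0 r)
    nlinarith
  -- summation
  have hsum : ∑ r, ν r * ∑ l ∈ univ.erase r, al l = ∑ l, (∑ r ∈ univ.erase l, ν r) * al l := by
    simp_rw [mul_sum, sum_mul]
    refine sum_comm' ?_
    intro x y
    simp only [mem_univ, true_and, mem_erase, and_true, ne_eq]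
    exact ne_comm
  have hl : ∀ l, 12 * (1 + M1) * ((∑ r ∈ univ.erase l, ν r) * al l)
      ≤ 6 * (1 + M1) * (1 + M2) * ‖(1 - P) (refl Θ (χ l w))‖ ^ 2
        + 24 * (1 + M1) * M2 * ((ε l)⁻¹ * ‖χ l (Θ ((1 - χ l) w))‖ ^ 2) := by
    intro l
    have g := D.stepG hε0 hε1 w l
    have s1 := prod_le_exp (ν := ν) hν0 hν1 l M2 h2
    have s2 : ∑ r ∈ univ.erase l, ν r ≤ M2 :=
      (sum_le_sum_of_subset_of_nonneg (erase_subset _ _) fun r _ _ => hν0 r).trans h2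
    have hC : ‖χ l (Θ ((1 - χ l) w))‖ ^ 2 = ‖vC χ Θ w l‖ ^ 2 := rfl
    rw [hC]
    simp only [hal]
    set s := ∑ r ∈ univ.erase l, ν r
    set π := ∏ r ∈ univ.erase l, (1 - ν r)
    set A := ‖vA n χ w l‖ ^ 2
    set G := ‖(1 - P) (refl Θ (χ l w))‖ ^ 2
    set Kc := (ε l)⁻¹ * ‖vC χ Θ w l‖ ^ 2
    have hA0 : 0 ≤ A := by positivity
    have hK0 : 0 ≤ Kc := mul_nonneg (inv_nonneg.2 (hε0 l)) (by positivity)
    have t1 : 0 ≤ ε l * (1 - ε l) := mul_nonneg (hε0 l) (by linarith [hε1 l])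
    have a1 : s * (ε l * (1 - ε l) * A) ≤ (1 + M2) * (1 - π) * (ε l * (1 - ε l) * A) :=
      mul_le_mul_of_nonneg_right s1 (mul_nonneg t1 hA0)
    have a2 : (1 + M2) * (1 - π) * (ε l * (1 - ε l) * A) ≤ (1 + M2) * (G / 4) := by
      have : (1 - π) * (ε l * (1 - ε l) * A) ≤ G / 4 := by nlinarith
      calc (1 + M2) * (1 - π) * (ε l * (1 - ε l) * A)
          = (1 + M2) * ((1 - π) * (ε l * (1 - ε l) * A)) := by ring
        _ ≤ _ := by gcongr
    have a3 : s * Kc ≤ M2 * Kc := mul_le_mul_of_nonneg_right s2 hK0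
    have b1 : 24 * (1 + M1) * (s * (ε l * (1 - ε l) * A)) ≤ 24 * (1 + M1) * ((1 + M2) * (G / 4)) := by
      have := a1.trans a2
      gcongr
    have b2 : 24 * (1 + M1) * (s * Kc) ≤ 24 * (1 + M1) * (M2 * Kc) := by
      gcongr
    calc 12 * (1 + M1) * (s * (2 * (ε l * (1 - ε l)) * A + 2 * Kc))
        = 24 * (1 + M1) * (s * (ε l * (1 - ε l) * A)) + 24 * (1 + M1) * (s * Kc) := by ring
      _ ≤ 24 * (1 + M1) * ((1 + M2) * (G / 4)) + 24 * (1 + M1) * (M2 * Kc) := add_le_add b1 b2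
      _ = _ := by ring
  simp_rw [D.norm_B]
  calc ‖(1 - P) (refl Θ (∑ l, (1 - χ l) w))‖ ^ 2
      ≤ ∑ r, ‖(1 - p r) (refl Θ (∑ l, (1 - χ l) w))‖ ^ 2 := D.union _
    _ ≤ ∑ r, (3 * ‖(1 - P) (refl Θ (χ r w))‖ ^ 2
        + 12 * (1 + M1) * (ν r * ∑ l ∈ univ.erase r, al l)) := sum_le_sum fun r _ => hr r
    _ = ∑ l, (3 * ‖(1 - P) (refl Θ (χ l w))‖ ^ 2
        + 12 * (1 + M1) * ((∑ r ∈ univ.erase l, ν r) * al l)) := by
        rw [sum_add_distrib, sum_add_distrib, ← mul_sum univ _ (12 * (1 + M1)), hsum, ← mul_sum,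
          ← mul_sum]
    _ ≤ _ := sum_le_sum fun l _ => by
        have := hl l
        nlinarith

end Facts

section TL

variable {L J : Type*} [Fintype L] [DecidableEq L] [Fintype J] [DecidableEq J]
    {ops : Kind → L → J → Module.End ℂ H}
    {F T : L → Finset J → Module.End ℂ H}
    {Th P : J → Finset L → Module.End ℂ H}
    {η ε ν : L → J → ℝ} {g : J → Prop} [DecidablePred g]

lemma tl_chi_commute (D : TwoLayer ops F T Th P η ε ν g) (k : Kind) {l r : L} (h : l ≠ r)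
    (j : J) : Commute (ops k r j) (chi (F l univ) (T l univ)) := by
  refine (chi_commute ?_ ?_).symm
  · exact fam_commute (D.rows l).hF univ fun i _ =>
      D.comm Kind.f k l i r j (fun e => h (Prod.ext_iff.1 e).1)
  · exact fam_commute (D.rows l).hT univ fun i _ =>
      D.comm Kind.t k l i r j (fun e => h (Prod.ext_iff.1 e).1)

lemma tl_comm_col (D : TwoLayer ops F T Th P η ε ν g) (k k' : Kind) {l r : L} (h : l ≠ r)
    (j : J) : Commute (ops k l j) (ops k' r j) :=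
  D.comm k k' l j r j (fun e => h (Prod.ext_iff.1 e).1)

lemma tl_comm_col_self (D : TwoLayer ops F T Th P η ε ν g) (k : Kind) (l r : L)
    (j : J) : Commute (ops k l j) (ops k r j) := by
  by_cases h : l = r
  · subst h; exact Commute.refl _
  · exact tl_comm_col D k k h j

lemma tl_chi_proj (D : TwoLayer ops F T Th P η ε ν g) (l : L) :
    IsProj (chi (F l univ) (T l univ)) :=
  conj_proj (fam_proj (D.rows l).hT (D.rows l).ht (D.rows l).htt univ)
    (fam_proj (D.rows l).hF (D.rows l).hf (D.rows l).hff univ)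

lemma tl_facts (D : TwoLayer ops F T Th P η ε ν g) (j : J) :
    Facts (fun l => ops Kind.th l j) (fun l => ops Kind.p l j)
      (fun l => chi (F l univ) (T l univ)) (fun l => Th j (univ.erase l))
      (fun l => P j (univ.erase l)) (Th j univ) (P j univ) (fun l => ε l j) (fun l => ν l j) where
  hθ := fun l => D.proj _ _ _
  hp := fun l => D.proj _ _ _
  hχ := fun l => tl_chi_proj D l
  hn := fun l => fam_proj (D.hTh j) (fun r => D.proj _ _ _)
    (fun a b => tl_comm_col_self D _ a b j) _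
  hpn := fun l => fam_proj (D.hP j) (fun r => D.proj _ _ _)
    (fun a b => tl_comm_col_self D _ a b j) _
  hΘ := fam_proj (D.hTh j) (fun r => D.proj _ _ _)
    (fun a b => tl_comm_col_self D _ a b j) _
  hP := fam_proj (D.hP j) (fun r => D.proj _ _ _)
    (fun a b => tl_comm_col_self D _ a b j) _
  Θ_eq := fun l => fam_univ (D.hTh j) l
  P_eq := fun l => fam_univ (D.hP j) l
  cθn := fun l => (fam_commute (D.hTh j) _ fun r _ => tl_comm_col_self D _ r l j).symm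
  cθpn := fun l => (fam_commute (D.hP j) _ fun r hr =>
    tl_comm_col D _ _ (ne_of_mem_erase hr) j).symm
  cppn := fun l => (fam_commute (D.hP j) _ fun r _ => tl_comm_col_self D _ r l j).symm
  cθχ := fun l r h => tl_chi_commute D _ h j
  cpχ := fun l r h => tl_chi_commute D _ h j
  cnχ := fun l => fam_commute (D.hTh j) _ fun r hr =>
    tl_chi_commute D _ (ne_of_mem_erase hr).symm j
  cpnχ := fun l => fam_commute (D.hP j) _ fun r hr =>
    tl_chi_commute D _ (ne_of_mem_erase hr).symm j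
  tpt := fun l => D.tpt l j
  ctc := fun l => D.ctc l j
  npn := fun l => fam_sandwich (D.hTh j) (D.hP j) (fun r => 1 - ν r j) (fun r => D.tpt r j)
    (fun a b h => tl_comm_col D _ _ h j) (fun a b h => tl_comm_col D _ _ h j) _
  union := fun x => fam_union (D.hP j) (fun r => D.proj _ _ _)
    (fun a b => tl_comm_col_self D _ a b j) univ x

end TL

end ColI

section TL

variable {L J : Type*} [Fintype L] [DecidableEq L] [Fintype J] [DecidableEq J]
    {ops : Kind → L → J → Module.End ℂ H}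
    {F T : L → Finset J → Module.End ℂ H}
    {Th P : J → Finset L → Module.End ℂ H}
    {η ε ν : L → J → ℝ} {g : J → Prop} [DecidablePred g]

/-- M3a: a column with a gate -/
theorem colIneq_gate (D : TwoLayer ops F T Th P η ε ν g) (j : J) (hj : g j)
    (w : H) (hw : colB Th P g j w = w) (M1 M2 : ℝ) (hM1 : 0 ≤ M1) (hM2 : 0 ≤ M2)
    (h1 : ∑ l, ε l j ≤ M1) (h2 : ∑ l, ν l j ≤ M2) :
    ‖(1 - colB Th P g j) (∑ l, (1 - chi (F l univ) (T l univ)) w)‖ ^ 2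
      ≤ ∑ l, ((3 + 6 * (1 + M1) * (1 + M2)) *
            ‖(1 - colB Th P g j) (chi (F l univ) (T l univ) w)‖ ^ 2
          + 24 * (1 + M1) * M2 * ((ε l j)⁻¹ *
            ‖chi (F l univ) (T l univ) (Th j univ ((1 - chi (F l univ) (T l univ)) w))‖ ^ 2)) := by
  have e : colB Th P g j = refl (Th j univ) * P j univ * refl (Th j univ) := by
    unfold colB colR
    rw [if_pos hj]
  rw [e] at hw ⊢
  exact (ColI.tl_facts D j).main (fun l => D.ε_nonneg l j) (fun l => D.ε_le l j)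
    (fun l => D.ν_nonneg l j) (fun l => D.ν_le l j) w hw M1 M2 hM1 hM2 h1 h2

/-- M3b: a column without gate -/
theorem colIneq_free (D : TwoLayer ops F T Th P η ε ν g) (j : J) (hj : ¬ g j)
    (w : H) (hw : colB Th P g j w = w) :
    ‖(1 - colB Th P g j) (∑ l, (1 - chi (F l univ) (T l univ)) w)‖ ^ 2
      ≤ ∑ l, ‖(1 - colB Th P g j) (chi (F l univ) (T l univ) w)‖ ^ 2 := by
  have e : colB Th P g j = P j univ := by
    unfold colB colR
    rw [if_neg hj, one_mul, mul_one]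
  rw [e] at hw ⊢
  have K := ColI.tl_facts D j
  refine (K.union _).trans (sum_le_sum fun r _ => ?_)
  have h0 : (1 - ops Kind.p r j) w = 0 := by
    rw [← hw]; exact K.vP r w
  have h1 : (1 - ops Kind.p r j) (∑ l, (1 - chi (F l univ) (T l univ)) w)
      = -((1 - ops Kind.p r j) (chi (F r univ) (T r univ) w)) := by
    rw [← add_sum_erase univ _ (mem_univ r), map_add, map_sum, sum_eq_zero, add_zero]
    · have : (1 - chi (F r univ) (T r univ)) w = w - chi (F r univ) (T r univ) w := rfl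
      rw [this, map_sub, h0, zero_sub]
    · intro l hl
      have c : Commute (1 - ops Kind.p r j) (chi (F l univ) (T l univ)) :=
        (Commute.one_left _).sub_left (ColI.tl_chi_commute D _ (ne_of_mem_erase hl) j)
      have : (1 - chi (F l univ) (T l univ)) w = w - chi (F l univ) (T l univ) w := rfl
      rw [this, map_sub, ColI.Facts.comm_apply c, h0, map_zero, sub_zero]
  rw [h1, norm_neg]
  have e2 : (1 - ops Kind.p r j) (chi (F r univ) (T r univ) w)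
      = (1 - ops Kind.p r j) ((1 - P j univ) (chi (F r univ) (T r univ) w)) := by
    have h2 : (1 - P j univ) (chi (F r univ) (T r univ) w)
        = chi (F r univ) (T r univ) w - P j univ (chi (F r univ) (T r univ) w) := rfl
    have h3 : (1 - ops Kind.p r j) (P j univ (chi (F r univ) (T r univ) w)) = 0 := K.vP r _
    rw [h2, map_sub, h3, sub_zero]
  rw [e2]
  have := ColI.norm_le (ColI.one_sub (D.proj Kind.p r j))
    ((1 - P j univ) (chi (F r univ) (T r univ) w))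
  gcongr

end TL

end

end Vale.Agent.P368
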