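import Vale.Agent.Lib.P368.LemRP
import Vale.Agent.Lib.P368.ColIneq

/-!
P368, module M4: the total influence bound.
-/

namespace Vale.Agent.P368

open scoped InnerProductSpace
open Finset

noncomputable section

variable {H : Type*} [NormedAddCommGroup H] [InnerProductSpace ℂ H]

theorem coreE_refl_commute {X A : Module.End ℂ H} (h : Commute X A) : Commute X (refl A) := by
  unfold refl
  exact (Commute.one_right X).sub_right (h.smul_right _)

theorem lam_mono {s M : ℝ} (h0 : 0 ≤ s) (h : s ≤ M) : lam s ≤ lam M := by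
  unfold lam
  have h1 : (1 + 2 * s) * (1 + s) ≤ (1 + 2 * M) * (1 + M) := by
    apply mul_le_mul <;> linarith
  linarith

section TL

variable {L J : Type*} [Fintype L] [DecidableEq L] [Fintype J] [DecidableEq J]
    {ops : Kind → L → J → Module.End ℂ H}
    {F T : L → Finset J → Module.End ℂ H}
    {Th P : J → Finset L → Module.End ℂ H}
    {η ε ν : L → J → ℝ} {g : J → Prop} [DecidablePred g]

theorem coreE_comm_th (D : TwoLayer ops F T Th P η ε ν g) (j : J) (X : Module.End ℂ H)
    (s : Finset L) (h : ∀ l ∈ s, Commute X (ops Kind.th l j)) : Commute X (Th j s) :=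
  (D.hTh j).commute X s h

theorem coreE_comm_p (D : TwoLayer ops F T Th P η ε ν g) (j : J) (X : Module.End ℂ H)
    (s : Finset L) (h : ∀ l ∈ s, Commute X (ops Kind.p l j)) : Commute X (P j s) :=
  (D.hP j).commute X s h

/-- operators commuting with the cells of column `j` commute with `B_j` -/
theorem coreE_comm_colB (D : TwoLayer ops F T Th P η ε ν g) (j : J) (X : Module.End ℂ H)
    (h1 : ∀ l, Commute X (ops Kind.th l j)) (h2 : ∀ l, Commute X (ops Kind.p l j)) :
    Commute X (colB Th P g j) := by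
  have hT : Commute X (Th j univ) := coreE_comm_th D j X univ fun l _ => h1 l
  have hP : Commute X (P j univ) := coreE_comm_p D j X univ fun l _ => h2 l
  have hR : Commute X (colR Th g j) := by
    unfold colR
    split_ifs
    · exact coreE_refl_commute hT
    · exact Commute.one_right X
  unfold colB
  exact (hR.mul_right hP).mul_right hR

/-- cell operators of other columns commute with `B_j` -/
theorem coreE_cell_colB (D : TwoLayer ops F T Th P η ε ν g) (k : Kind) (l : L) (i j : J)
    (hij : i ≠ j) : Commute (ops k l i) (colB Th P g j) :=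
  coreE_comm_colB D j _ (fun _ => D.comm _ _ _ _ _ _ (fun h => hij (congrArg Prod.snd h)))
    (fun _ => D.comm _ _ _ _ _ _ (fun h => hij (congrArg Prod.snd h)))

theorem coreE_colB_comm (D : TwoLayer ops F T Th P η ε ν g) (i j : J) :
    Commute (colB Th P g i) (colB Th P g j) := by
  by_cases hij : i = j
  · rw [hij]
  · exact (coreE_comm_colB D i _ (fun l => (coreE_cell_colB D _ l i j hij).symm)
      (fun l => (coreE_cell_colB D _ l i j hij).symm)).symm

theorem coreE_Th_proj (D : TwoLayer ops F T Th P η ε ν g) (j : J) (s : Finset L) :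
    IsProj (Th j s) := by
  apply (D.hTh j).isProj (fun l => D.proj _ l j)
  intro l r
  by_cases h : l = r
  · rw [h]
  · exact D.comm _ _ _ _ _ _ (fun e => h (congrArg Prod.fst e))

theorem coreE_P_proj (D : TwoLayer ops F T Th P η ε ν g) (j : J) (s : Finset L) :
    IsProj (P j s) := by
  apply (D.hP j).isProj (fun l => D.proj _ l j)
  intro l r
  by_cases h : l = r
  · rw [h]
  · exact D.comm _ _ _ _ _ _ (fun e => h (congrArg Prod.fst e))

theorem coreE_conj_proj {T F : Module.End ℂ H} (hT : IsProj T) (hF : IsProj F) :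
    IsProj (refl T * F * refl T) := by
  have hR := refl_mul_self hT
  refine ⟨?_, ?_⟩
  · calc refl T * F * refl T * (refl T * F * refl T)
        = refl T * F * (refl T * refl T) * F * refl T := by noncomm_ring
      _ = refl T * (F * F) * refl T := by rw [hR]; noncomm_ring
      _ = _ := by rw [hF.idem]
  · intro x y
    simp only [Module.End.mul_apply]
    rw [refl_symm hT, hF.symm, refl_symm hT]

theorem coreE_colB_proj (D : TwoLayer ops F T Th P η ε ν g) (j : J) :
    IsProj (colB Th P g j) := by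
  unfold colB colR
  split_ifs
  · exact coreE_conj_proj (coreE_Th_proj D j univ) (coreE_P_proj D j univ)
  · simpa using coreE_P_proj D j univ

theorem coreE_compl_comm {A B : Module.End ℂ H} (h : Commute A B) : Commute (1 - A) B :=
  (Commute.one_left _).sub_left h

/-- Lemma R for the row `l` -/
theorem coreE_rowR (D : TwoLayer ops F T Th P η ε ν g) (l : L) (w : H)
    (hw : ∀ j, colB Th P g j w = w) :
    ∑ j, ‖(1 - colB Th P g j) (chi (F l univ) (T l univ) w)‖ ^ 2
      ≤ lam (∑ j, η l j) * ‖(1 - chi (F l univ) (T l univ)) w‖ ^ 2 := by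
  apply lemR (D.rows l) (fun j => 1 - colB Th P g j)
  · exact fun j => (coreE_colB_proj D j).compl
  · intro i j
    exact (Commute.one_right _).sub_right (coreE_compl_comm (coreE_colB_comm D i j))
  · intro i j hij
    exact coreE_compl_comm (coreE_cell_colB D _ l j i hij.symm).symm
  · intro i j hij
    exact coreE_compl_comm (coreE_cell_colB D _ l j i hij.symm).symm
  · intro j
    simp [hw j]

/-- Lemma P for the row `l` -/
theorem coreE_rowP [FiniteDimensional ℂ H] (D : TwoLayer ops F T Th P η ε ν g) (l : L) (w : H) :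
    ∑ j, (ε l j)⁻¹ * ‖chi (F l univ) (T l univ)
        (Th j univ ((1 - chi (F l univ) (T l univ)) w))‖ ^ 2
      ≤ lam (∑ j, η l j) * ‖(1 - chi (F l univ) (T l univ)) w‖ ^ 2 := by
  have hχ := chi_isProj (D.rows l) univ
  set χ := chi (F l univ) (T l univ) with hχd
  set κ := (1 - χ) w with hκd
  have hκ : χ κ = 0 := by
    rw [hκd]; simp [hχ.app]
  have hP := lemP (D.rows l) (fun j => 1 - ops Kind.th l j)
    (fun j => (D.proj _ l j).compl)
    (fun i j => by
      by_cases hij : i = j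
      · rw [hij]
      · exact (Commute.one_right _).sub_right
          (coreE_compl_comm (D.comm _ _ _ _ _ _ (fun e => hij (congrArg Prod.snd e)))))
    (fun i j hij => coreE_compl_comm (D.comm _ _ _ _ _ _ (fun e => hij (congrArg Prod.snd e))))
    (fun i j hij => coreE_compl_comm (D.comm _ _ _ _ _ _ (fun e => hij (congrArg Prod.snd e))))
    (fun j => ε l j)
    (fun j => by
      rw [← hχd]
      have h1 := D.ctc l j
      rw [← hχd] at h1
      calc χ * (1 - ops Kind.th l j) * χ = χ * χ - χ * ops Kind.th l j * χ := by noncomm_ring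
        _ = ((ε l j : ℝ) : ℂ) • χ := by
          rw [h1, hχ.idem]
          push_cast
          module)
    (fun j k => by
      rw [← hχd]
      obtain ⟨s, hs⟩ := D.cttc l j k
      have h1 := D.ctc l j
      have h2 := D.ctc l k
      rw [← hχd] at h1 h2 hs
      refine ⟨1 - ((1 - ε l j : ℝ) : ℂ) - ((1 - ε l k : ℝ) : ℂ) + s, ?_⟩
      calc χ * ((1 - ops Kind.th l j) * (1 - ops Kind.th l k)) * χ
          = χ * χ - χ * ops Kind.th l j * χ - χ * ops Kind.th l k * χ
            + χ * (ops Kind.th l j * ops Kind.th l k) * χ := by noncomm_ring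
        _ = _ := by
          rw [h1, h2, hs, hχ.idem]
          module)
    κ hκ (fun j => (ε l j)⁻¹) (fun j => inv_nonneg.2 (D.ε_nonneg l j))
    (fun j => by
      by_cases h : ε l j = 0
      · simp [h]
      · rw [inv_mul_cancel₀ h])
  rw [← hχd] at hP
  refine le_trans ?_ hP
  apply sum_le_sum; intro j _
  apply mul_le_mul_of_nonneg_left _ (inv_nonneg.2 (D.ε_nonneg l j))
  -- `χ Θ_j κ = n χ θ κ`
  have hTh : Th j univ = Th j (univ.erase l) * ops Kind.th l j := by
    rw [(D.hTh j).erase (mem_univ l)]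
    exact (coreE_comm_th D j _ _ fun r hr => D.comm _ _ _ _ _ _
      (fun e => (ne_of_mem_erase hr).symm (congrArg Prod.fst e))).eq
  have hn : IsProj (Th j (univ.erase l)) := coreE_Th_proj D j _
  have hcomm : Commute χ (Th j (univ.erase l)) := by
    apply coreE_comm_th D
    intro r hr
    have hrl : r ≠ l := ne_of_mem_erase hr
    have c1 : Commute (F l univ) (ops Kind.th r j) :=
      ((D.rows l).hF.commute _ univ fun i _ => D.comm _ _ _ _ _ _
        (fun e => hrl (congrArg Prod.fst e))).symm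
    have c2 : Commute (T l univ) (ops Kind.th r j) :=
      ((D.rows l).hT.commute _ univ fun i _ => D.comm _ _ _ _ _ _
        (fun e => hrl (congrArg Prod.fst e))).symm
    have c3 := (coreE_refl_commute c2.symm).symm
    rw [hχd]
    unfold chi
    exact (c3.mul_left c1).mul_left c3
  have h1 : χ (Th j univ κ) = Th j (univ.erase l) (χ (ops Kind.th l j κ)) := by
    rw [hTh]
    have := congrArg (fun L : Module.End ℂ H => L (ops Kind.th l j κ)) hcomm.eq
    simpa only [Module.End.mul_apply] using this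
  have h2 : χ ((1 - ops Kind.th l j) κ) = -χ (ops Kind.th l j κ) := by
    simp only [LinearMap.sub_apply, Module.End.one_apply, map_sub, hκ, zero_sub]
  rw [h1, h2, norm_neg]
  exact hn.nsq_le _

/-- M4 (file CoreE.lean): the total influence bound; uses lemR, lemP, colIneq_* -/
theorem coreE [FiniteDimensional ℂ H] (D : TwoLayer ops F T Th P η ε ν g)
    (Bf : Finset J → Module.End ℂ H) (hB : ProdFam (colB Th P g) Bf)
    (φ : H) (hφ : ∀ l, chi (F l univ) (T l univ) φ = φ) (hφn : ‖φ‖ ≤ 1)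
    (M0 M1 M2 : ℝ) (hM0 : 0 ≤ M0) (hM1 : 0 ≤ M1) (hM2 : 0 ≤ M2)
    (h0 : ∀ l, ∑ j, η l j ≤ M0) (h1 : ∀ j, g j → ∑ l, ε l j ≤ M1)
    (h2 : ∀ j, g j → ∑ l, ν l j ≤ M2) :
    ∑ l, ‖(1 - chi (F l univ) (T l univ)) (Bf univ φ)‖ ^ 2
      ≤ lam M0 * (3 + 30 * (1 + M1) * (1 + M2)) := by
  have hBproj : ∀ j, IsProj (colB Th P g j) := coreE_colB_proj D
  have hBcomm : ∀ i j, Commute (colB Th P g i) (colB Th P g j) := coreE_colB_comm D
  have hBf : IsProj (Bf univ) := hB.isProj hBproj hBcomm univ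
  have hχ : ∀ l, IsProj (chi (F l univ) (T l univ)) := fun l => chi_isProj (D.rows l) univ
  set w := Bf univ φ with hw
  have hBw : ∀ j, colB Th P g j w = w := fun j => hB.absorb_app hBproj (mem_univ j) φ
  set E := ∑ l, ‖(1 - chi (F l univ) (T l univ)) w‖ ^ 2 with hE
  have hE0 : 0 ≤ E := sum_nonneg fun l _ => sq_nonneg _
  set z := ∑ l, (1 - chi (F l univ) (T l univ)) w with hz
  -- step 1
  have e1 : E = (⟪z, w⟫_ℂ).re := by
    rw [hz, sum_inner, Complex.re_sum, hE]
    exact sum_congr rfl fun l _ => (hχ l).compl.nsq w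
  have e2 : ⟪z, φ⟫_ℂ = 0 := by
    rw [hz, sum_inner]
    apply sum_eq_zero; intro l _
    rw [(hχ l).compl.symm]
    simp [hφ l]
  have e3 : ⟪z, w⟫_ℂ = -⟪(1 - Bf univ) z, (1 - Bf univ) φ⟫_ℂ := by
    have h3 : w = φ - (1 - Bf univ) φ := by simp [hw]
    rw [h3, inner_sub_right, e2, zero_sub, hBf.compl.symm, hBf.compl.app]
  have e4 : E ≤ ‖(1 - Bf univ) z‖ := by
    rw [e1, e3]
    calc (-⟪(1 - Bf univ) z, (1 - Bf univ) φ⟫_ℂ).re
        ≤ ‖-⟪(1 - Bf univ) z, (1 - Bf univ) φ⟫_ℂ‖ := Complex.re_le_norm _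
      _ = ‖⟪(1 - Bf univ) z, (1 - Bf univ) φ⟫_ℂ‖ := norm_neg _
      _ ≤ ‖(1 - Bf univ) z‖ * ‖(1 - Bf univ) φ‖ := norm_inner_le_norm _ _
      _ ≤ ‖(1 - Bf univ) z‖ * 1 := by
        apply mul_le_mul_of_nonneg_left _ (norm_nonneg _)
        have := hBf.compl.nsq_le φ
        have h5 : ‖(1 - Bf univ) φ‖ ≤ ‖φ‖ := hBf.compl.norm_le φ
        exact h5.trans hφn
      _ = _ := mul_one _
  -- step 2
  have e5 : ‖(1 - Bf univ) z‖ ^ 2 ≤ ∑ j, ‖(1 - colB Th P g j) z‖ ^ 2 :=
    hB.union_bound hBproj hBcomm univ z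
  -- step 3
  have hcol : ∀ j, ‖(1 - colB Th P g j) z‖ ^ 2
      ≤ ∑ l, ((3 + 6 * (1 + M1) * (1 + M2)) *
            ‖(1 - colB Th P g j) (chi (F l univ) (T l univ) w)‖ ^ 2
          + 24 * (1 + M1) * M2 * ((ε l j)⁻¹ *
            ‖chi (F l univ) (T l univ)
              (Th j univ ((1 - chi (F l univ) (T l univ)) w))‖ ^ 2)) := by
    intro j
    by_cases hj : g j
    · exact colIneq_gate D j hj w (hBw j) M1 M2 hM1 hM2 (h1 j hj) (h2 j hj)
    · refine (colIneq_free D j hj w (hBw j)).trans ?_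
      apply sum_le_sum; intro l _
      have p1 : 0 ≤ ‖(1 - colB Th P g j) (chi (F l univ) (T l univ) w)‖ ^ 2 := sq_nonneg _
      have p2 : 0 ≤ 24 * (1 + M1) * M2 * ((ε l j)⁻¹ *
            ‖chi (F l univ) (T l univ)
              (Th j univ ((1 - chi (F l univ) (T l univ)) w))‖ ^ 2) := by
        have := inv_nonneg.2 (D.ε_nonneg l j)
        positivity
      have p3 : 1 ≤ 3 + 6 * (1 + M1) * (1 + M2) := by nlinarith [mul_nonneg hM1 hM2]
      have p4 := mul_le_mul_of_nonneg_right p3 p1
      linarith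
  -- step 4
  have e6 : ∑ j, ‖(1 - colB Th P g j) z‖ ^ 2
      ≤ (3 + 6 * (1 + M1) * (1 + M2)) * (lam M0 * E) + 24 * (1 + M1) * M2 * (lam M0 * E) := by
    refine (sum_le_sum fun j _ => hcol j).trans ?_
    rw [sum_comm]
    have hl : ∀ l, ∑ j, ((3 + 6 * (1 + M1) * (1 + M2)) *
            ‖(1 - colB Th P g j) (chi (F l univ) (T l univ) w)‖ ^ 2
          + 24 * (1 + M1) * M2 * ((ε l j)⁻¹ *
            ‖chi (F l univ) (T l univ)
              (Th j univ ((1 - chi (F l univ) (T l univ)) w))‖ ^ 2))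
        ≤ (3 + 6 * (1 + M1) * (1 + M2)) * (lam M0 * ‖(1 - chi (F l univ) (T l univ)) w‖ ^ 2)
          + 24 * (1 + M1) * M2 * (lam M0 * ‖(1 - chi (F l univ) (T l univ)) w‖ ^ 2) := by
      intro l
      rw [sum_add_distrib, ← mul_sum, ← mul_sum]
      have hη0 : 0 ≤ ∑ j, η l j := sum_nonneg fun j _ => (D.rows l).η_nonneg j
      have hlam : lam (∑ j, η l j) ≤ lam M0 := lam_mono hη0 (h0 l)
      have q0 : 0 ≤ ‖(1 - chi (F l univ) (T l univ)) w‖ ^ 2 := sq_nonneg _
      have q1 := (coreE_rowR D l w hBw).trans (mul_le_mul_of_nonneg_right hlam q0)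
      have q2 := (coreE_rowP D l w).trans (mul_le_mul_of_nonneg_right hlam q0)
      have c1 : 0 ≤ 3 + 6 * (1 + M1) * (1 + M2) := by positivity
      have c2 : 0 ≤ 24 * (1 + M1) * M2 := by positivity
      exact add_le_add (mul_le_mul_of_nonneg_left q1 c1) (mul_le_mul_of_nonneg_left q2 c2)
    refine (sum_le_sum fun l _ => hl l).trans (le_of_eq ?_)
    rw [sum_add_distrib, ← mul_sum, ← mul_sum, ← mul_sum, ← mul_sum]
  have hlam0 : 0 ≤ lam M0 := by unfold lam; positivity
  have e7 : E ^ 2 ≤ E * (lam M0 * (3 + 30 * (1 + M1) * (1 + M2))) := by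
    have h3 : E ^ 2 ≤ ‖(1 - Bf univ) z‖ ^ 2 := pow_le_pow_left₀ hE0 e4 2
    have h4 : 24 * (1 + M1) * M2 * (lam M0 * E) ≤ 24 * (1 + M1) * (1 + M2) * (lam M0 * E) := by
      apply mul_le_mul_of_nonneg_right _ (mul_nonneg hlam0 hE0)
      nlinarith
    have h5 : (3 + 6 * (1 + M1) * (1 + M2)) * (lam M0 * E) + 24 * (1 + M1) * (1 + M2) * (lam M0 * E)
        = E * (lam M0 * (3 + 30 * (1 + M1) * (1 + M2))) := by ring
    linarith
  exact le_of_sq_le_mul hE0 (by positivity) e7

end TL

end

end Vale.Agent.P368
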