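import Vale.Agent.Lib.P368.CovQ
import Vale.Agent.Lib.P368.CoreE
import Vale.Agent.Lib.P368.BadCol

/-!
P368, module M6: `coreE` with the bad columns removed.
-/

namespace Vale.Agent.P368

open scoped InnerProductSpace
open Finset

noncomputable section

variable {H : Type*} [NormedAddCommGroup H] [InnerProductSpace ℂ H]

/-- pairwise commuting families have a product family -/
theorem coreE2_exists_prodFam {J : Type*} [DecidableEq J] (f : J → Module.End ℂ H)
    (hff : ∀ i j, Commute (f i) (f j)) : ∃ F : Finset J → Module.End ℂ H, ProdFam f F := by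
  refine ⟨fun s => s.noncommProd f fun i _ j _ _ => hff i j, ?_, ?_⟩
  · exact Finset.noncommProd_empty _ _
  · intro j s hj
    exact Finset.noncommProd_insert_of_notMem _ _ _ _ hj

/-- product families of two systems of operators, all commuting -/
theorem coreE2_telescope {J : Type*} [DecidableEq J] (B B' : J → Module.End ℂ H)
    {F F' : Finset J → Module.End ℂ H} (hF : ProdFam B F) (hF' : ProdFam B' F')
    (hc : ∀ i j, i ≠ j → Commute (B i) (B j)) (hc' : ∀ i j, i ≠ j → Commute (B i) (B' j))
    (hc2 : ∀ i j, i ≠ j → Commute (B' i) (B' j))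
    (hB : ∀ j z, ‖B j z‖ ≤ ‖z‖) (hB' : ∀ j z, ‖B' j z‖ ≤ ‖z‖) (φ : H) (s : Finset J) :
    ‖F s φ - F' s φ‖ ≤ ∑ j ∈ s, ‖B j φ - B' j φ‖ := by
  have hFn : ∀ (t : Finset J) z, ‖F t z‖ ≤ ‖z‖ := by
    intro t
    induction t using Finset.induction_on with
    | empty => intro z; rw [hF.empty]; simp
    | insert j t hj ih =>
      intro z
      rw [hF.insert j t hj, Module.End.mul_apply]
      exact (hB j _).trans (ih z)
  induction s using Finset.induction_on with
  | empty => rw [hF.empty, hF'.empty]; simp
  | insert j s hj ih =>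
    rw [hF.insert j s hj, hF'.insert j s hj, Finset.sum_insert hj]
    have c1 : Commute (B j) (F s) := hF.commute _ s fun i hi =>
      hc j i (fun h => hj (h ▸ hi))
    have c2 : Commute (B' j) (F s) := hF.commute _ s fun i hi =>
      (hc' i j (fun h => hj (h ▸ hi))).symm
    have e : (B j * F s) φ - (B' j * F' s) φ
        = F s (B j φ - B' j φ) + B' j (F s φ - F' s φ) := by
      have e1 : (B j * F s) φ = F s (B j φ) := by rw [c1.eq]; rfl
      have e2 : B' j (F s φ) = F s (B' j φ) := by
        have := congrArg (fun X : Module.End ℂ H => X φ) c2.eq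
        simpa using this
      rw [e1, map_sub, map_sub, e2, Module.End.mul_apply]
      abel
    rw [e]
    refine (norm_add_le _ _).trans (add_le_add ((hFn s _)) ((hB' j _).trans ih))

section TL

variable {L J : Type*} [Fintype L] [DecidableEq L] [Fintype J] [DecidableEq J]
    {ops : Kind → L → J → Module.End ℂ H}
    {F T : L → Finset J → Module.End ℂ H}
    {Th P : J → Finset L → Module.End ℂ H}
    {η ε ν : L → J → ℝ} {g : J → Prop} [DecidablePred g]

theorem TwoLayer.commTh (D : TwoLayer ops F T Th P η ε ν g) {j k : J} (h : j ≠ k)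
    (s t : Finset L) : Commute (Th j s) (Th k t) := by
  refine (D.hTh k).commute _ t fun l _ => ((D.hTh j).commute _ s fun l' _ => ?_).symm
  exact D.comm _ _ _ _ _ _ (fun e => h (congrArg Prod.snd e).symm)

theorem TwoLayer.commThP (D : TwoLayer ops F T Th P η ε ν g) {j k : J} (h : j ≠ k)
    (s t : Finset L) : Commute (Th j s) (P k t) := by
  refine (D.hP k).commute _ t fun l _ => ((D.hTh j).commute _ s fun l' _ => ?_).symm
  exact D.comm _ _ _ _ _ _ (fun e => h (congrArg Prod.snd e).symm)

theorem TwoLayer.commP (D : TwoLayer ops F T Th P η ε ν g) {j k : J} (h : j ≠ k)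
    (s t : Finset L) : Commute (P j s) (P k t) := by
  refine (D.hP k).commute _ t fun l _ => ((D.hP j).commute _ s fun l' _ => ?_).symm
  exact D.comm _ _ _ _ _ _ (fun e => h (congrArg Prod.snd e).symm)

theorem coreE2_commute_refl {A T : Module.End ℂ H} (h : Commute A T) : Commute A (refl T) := by
  unfold refl
  exact (Commute.one_right A).sub_right (h.smul_right _)

theorem TwoLayer.comm_colR_P (D : TwoLayer ops F T Th P η ε ν g) (g1 : J → Prop)
    [DecidablePred g1] {j k : J} (h : j ≠ k) : Commute (colR Th g1 j) (P k univ) := by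
  unfold colR
  split_ifs
  · exact (coreE2_commute_refl (D.commThP h univ univ).symm).symm
  · exact Commute.one_left _

theorem TwoLayer.comm_colR (D : TwoLayer ops F T Th P η ε ν g) (g1 g2 : J → Prop)
    [DecidablePred g1] [DecidablePred g2] {j k : J} (h : j ≠ k) :
    Commute (colR Th g1 j) (colR Th g2 k) := by
  unfold colR
  split_ifs
  · exact (coreE2_commute_refl (coreE2_commute_refl (D.commTh h univ univ).symm).symm)
  · exact Commute.one_right _
  · exact Commute.one_left _
  · exact Commute.one_left _

theorem TwoLayer.comm_colB (D : TwoLayer ops F T Th P η ε ν g) (g1 g2 : J → Prop)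
    [DecidablePred g1] [DecidablePred g2] {j k : J} (h : j ≠ k) :
    Commute (colB Th P g1 j) (colB Th P g2 k) := by
  have a := D.comm_colR g1 g2 h
  have b := D.comm_colR_P g1 h
  have c := (D.comm_colR_P g2 h.symm).symm
  have d := D.commP h univ univ
  have e1 : Commute (colR Th g1 j) (colB Th P g2 k) := (a.mul_right b).mul_right a
  have e2 : Commute (P j univ) (colB Th P g2 k) := (c.mul_right d).mul_right c
  exact (e1.mul_left e2).mul_left e1

theorem TwoLayer.projTh (D : TwoLayer ops F T Th P η ε ν g) (j : J) (s : Finset L) :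
    IsProj (Th j s) := by
  have hcl : ∀ l l' : L, Commute (ops Kind.th l j) (ops Kind.th l' j) := by
    intro l l'
    by_cases h : l = l'
    · subst h; exact Commute.refl _
    · exact D.comm _ _ _ _ _ _ (fun e => h (congrArg Prod.fst e))
  exact (D.hTh j).isProj (fun l => D.proj _ l j) hcl s

theorem TwoLayer.projP (D : TwoLayer ops F T Th P η ε ν g) (j : J) (s : Finset L) :
    IsProj (P j s) := by
  have hcl : ∀ l l' : L, Commute (ops Kind.p l j) (ops Kind.p l' j) := by
    intro l l'
    by_cases h : l = l'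
    · subst h; exact Commute.refl _
    · exact D.comm _ _ _ _ _ _ (fun e => h (congrArg Prod.fst e))
  exact (D.hP j).isProj (fun l => D.proj _ l j) hcl s

theorem TwoLayer.colB_norm (D : TwoLayer ops F T Th P η ε ν g) (g1 : J → Prop)
    [DecidablePred g1] (j : J) (z : H) : ‖colB Th P g1 j z‖ ≤ ‖z‖ := by
  have hR : ∀ y : H, ‖colR Th g1 j y‖ = ‖y‖ := by
    intro y
    unfold colR
    split_ifs
    · exact refl_norm (D.projTh j univ) y
    · simp
  unfold colB
  rw [Module.End.mul_apply, Module.End.mul_apply, hR]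
  exact ((D.projP j univ).norm_le _).trans (hR z).le

/-- M6 -/
theorem coreE2 [FiniteDimensional ℂ H] (D : TwoLayer ops F T Th P η ε ν g)
    (Bf : Finset J → Module.End ℂ H) (hB : ProdFam (colB Th P g) Bf)
    (φ : H) (hφ : ∀ l, chi (F l univ) (T l univ) φ = φ) (hφn : ‖φ‖ ≤ 1)
    (M0 M1 M2 : ℝ) (hM0 : 0 ≤ M0) (hM1 : 0 ≤ M1) (hM2 : 0 ≤ M2)
    (h0 : ∀ l, ∑ j, η l j ≤ M0) :
    ∃ w : H, ‖Bf univ φ - w‖ ≤ (Fintype.card J : ℝ) *
        (4 * Real.exp (-M1 / 4) + 8 * Real.exp (-M2 / 2)) ∧
      ∑ l, ‖(1 - chi (F l univ) (T l univ)) w‖ ^ 2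
        ≤ lam M0 * (3 + 30 * (1 + M1) * (1 + M2)) := by
  classical
  set g' : J → Prop := fun j => g j ∧ ∑ l, ε l j ≤ M1 ∧ ∑ l, ν l j ≤ M2 with hg'
  have D' : TwoLayer ops F T Th P η ε ν g' :=
    { rows := D.rows, proj := D.proj, comm := D.comm, hTh := D.hTh, hP := D.hP,
      ν_nonneg := D.ν_nonneg, ν_le := D.ν_le, ε_nonneg := D.ε_nonneg, ε_le := D.ε_le,
      tpt := D.tpt, ctc := D.ctc, cttc := D.cttc, cptpc := D.cptpc }
  have hcc : ∀ i j, Commute (colB Th P g' i) (colB Th P g' j) := by
    intro i j
    by_cases h : i = j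
    · subst h; exact Commute.refl _
    · exact D.comm_colB g' g' h
  obtain ⟨Bf', hB'⟩ := coreE2_exists_prodFam (colB Th P g') hcc
  refine ⟨Bf' univ φ, ?_, ?_⟩
  · have h := coreE2_telescope (colB Th P g) (colB Th P g') hB hB'
      (fun i j h => D.comm_colB g g h) (fun i j h => D.comm_colB g g' h)
      (fun i j h => D.comm_colB g' g' h) (fun j z => D.colB_norm g j z)
      (fun j z => D.colB_norm g' j z) φ univ
    refine h.trans ?_
    have hterm : ∀ j ∈ (univ : Finset J), ‖colB Th P g j φ - colB Th P g' j φ‖
        ≤ 4 * Real.exp (-M1 / 4) + 8 * Real.exp (-M2 / 2) := by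
      intro j _
      have p1 := Real.exp_pos (-M1 / 4)
      have p2 := Real.exp_pos (-M2 / 2)
      by_cases hg : g j
      · by_cases hgj : g' j
        · have : colB Th P g j = colB Th P g' j := by
            unfold colB colR
            rw [if_pos hg, if_pos hgj]
          rw [this, sub_self, norm_zero]
          positivity
        · have e : colB Th P g j φ - colB Th P g' j φ
              = (refl (Th j univ) * P j univ * refl (Th j univ) - P j univ) φ := by
            unfold colB colR
            rw [if_pos hg, if_neg hgj]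
            simp
          rw [e]
          have hn : ¬ (∑ l, ε l j ≤ M1 ∧ ∑ l, ν l j ≤ M2) := fun hh => hgj ⟨hg, hh⟩
          by_cases h1 : ∑ l, ε l j ≤ M1
          · have h2 : M2 < ∑ l, ν l j := by
              by_contra hc
              exact hn ⟨h1, not_lt.1 hc⟩
            have b := badCol_nu D j φ
            have m : Real.exp (-(∑ l, ν l j) / 2) ≤ Real.exp (-M2 / 2) :=
              Real.exp_le_exp.2 (by linarith)
            have q : 8 * Real.exp (-(∑ l, ν l j) / 2) * ‖φ‖ ≤ 8 * Real.exp (-M2 / 2) := by
              have q1 : 8 * Real.exp (-(∑ l, ν l j) / 2) * ‖φ‖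
                  ≤ 8 * Real.exp (-(∑ l, ν l j) / 2) * 1 :=
                mul_le_mul_of_nonneg_left hφn (by positivity)
              linarith
            linarith
          · have b := badCol_mu D j φ hφ hφn
            have m : Real.exp (-(∑ l, ε l j) / 4) ≤ Real.exp (-M1 / 4) :=
              Real.exp_le_exp.2 (by linarith [not_le.1 h1])
            linarith
      · have hgj : ¬ g' j := fun hh => hg hh.1
        have : colB Th P g j = colB Th P g' j := by
          unfold colB colR
          rw [if_neg hg, if_neg hgj]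
        rw [this, sub_self, norm_zero]
        positivity
    have hs := Finset.sum_le_sum hterm
    rw [Finset.sum_const, nsmul_eq_mul, Finset.card_univ] at hs
    exact hs
  · exact coreE D' Bf' hB' φ hφ hφn M0 M1 M2 hM0 hM1 hM2 h0
      (fun j hj => hj.2.1) (fun j hj => hj.2.2)

end TL

end

end Vale.Agent.P368
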