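import Vale.Agent.Lib.P368.ProdOp

/-!
P368, module C5: the parity correlation as a matrix element between product states.
-/

namespace Vale.Agent.P368

open scoped InnerProductSpace Kronecker
open Finset

noncomputable section

section C5

variable {N n : ℕ}

/-- the doubled basis state of an input -/
def c5dup (N : ℕ) (x : Fin n → Bool) : Fin N → Bool × Bool :=
  fun q => (initBasis N x q, initBasis N x q)

theorem c5dup_inj (hn : n ≤ N) : Function.Injective (c5dup N : (Fin n → Bool) → _) := by
  intro x y hxy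
  funext i
  have h := congrFun hxy ⟨i.val, lt_of_lt_of_le i.2 hn⟩
  have h2 := congrArg Prod.fst h
  simpa [c5dup, initBasis, i.2] using h2

/-- sign of an input -/
def c5sgn (s : ℂ) (x : Fin n → Bool) : ℂ := ∏ i, (if x i = true then s else 1)

theorem c5sgn_one (x : Fin n → Bool) : c5sgn 1 x = 1 := by
  simp [c5sgn]

theorem c5sgn_neg (x : Fin n → Bool) : c5sgn (-1) x = if par x = true then -1 else 1 := by
  unfold c5sgn par
  rw [prod_ite, prod_const, prod_const_one, mul_one]
  by_cases h : Odd (univ.filter (fun i => x i = true)).card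
  · rw [h.neg_one_pow]; simp [h]
  · rw [Nat.not_odd_iff_even] at h
    rw [h.neg_one_pow]
    have : ¬ Odd (univ.filter (fun i => x i = true)).card := by
      rw [Nat.not_odd_iff_even]; exact h
    simp [this]

/-- value of the product state on a doubled state -/
theorem c5_val (hn : n ≤ N) (s : ℂ) (x : Fin n → Bool) :
    prodVec (epr n s : Fin N → Bool × Bool → ℂ) (c5dup N x)
      = c5sgn s x * (((1 / Real.sqrt 2 : ℝ) : ℂ)) ^ n := by
  show ∏ q : Fin N, epr n s q (c5dup N x q) = _
  have h1 : ∀ q : Fin N, epr n s q (c5dup N x q)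
      = if h : q.val < n then
          (if x ⟨q.val, h⟩ = true then s else 1) * ((1 / Real.sqrt 2 : ℝ) : ℂ) else 1 := by
    intro q
    unfold epr c5dup initBasis
    by_cases h : q.val < n
    · simp [h]
    · simp [h]
  rw [prod_congr rfl fun q _ => h1 q]
  have h2 : c5sgn s x * (((1 / Real.sqrt 2 : ℝ) : ℂ)) ^ n
      = ∏ i : Fin n, ((if x i = true then s else 1) * ((1 / Real.sqrt 2 : ℝ) : ℂ)) := by
    rw [prod_mul_distrib, prod_const, card_univ, Fintype.card_fin]; rfl
  rw [h2]
  symm
  apply prod_of_injOn (fun i : Fin n => (⟨i.val, lt_of_lt_of_le i.2 hn⟩ : Fin N))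
  · intro i _ j _ hij
    simpa [Fin.ext_iff] using hij
  · intro i _; simp
  · intro q _ hq
    have : ¬ q.val < n := by
      intro h
      exact hq ⟨⟨q.val, h⟩, by simp, rfl⟩
    simp [this]
  · intro i _
    simp [i.2]

/-- the product state vanishes off the doubled states -/
theorem c5_zero (s : ℂ) (X : Fin N → Bool × Bool)
    (hX : ∀ x : Fin n → Bool, c5dup N x ≠ X) (hn : n ≤ N) :
    prodVec (epr n s : Fin N → Bool × Bool → ℂ) X = 0 := by
  show ∏ q : Fin N, epr n s q (X q) = 0
  by_contra hne
  have hne' : ∀ q : Fin N, epr n s q (X q) ≠ 0 := by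
    intro q h
    exact hne (prod_eq_zero (mem_univ q) h)
  apply hX (fun i => (X ⟨i.val, lt_of_lt_of_le i.2 hn⟩).1)
  funext q
  have h := hne' q
  unfold epr at h
  unfold c5dup initBasis
  by_cases hq : q.val < n
  · rw [if_pos hq] at h
    have h2 : (X q).1 = (X q).2 := by
      by_contra h3
      rw [if_neg h3] at h
      exact h rfl
    simp only [hq, dif_pos]
    apply Prod.ext
    · rfl
    · exact h2
  · rw [if_neg hq] at h
    have h2 : X q = (false, false) := by
      by_contra h3
      rw [if_neg h3] at h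
      exact h rfl
    simp [hq, h2]

/-- sums over site states of functions supported on doubled states -/
theorem c5_sum (hn : n ≤ N) (f : (Fin N → Bool × Bool) → ℂ)
    (hf : ∀ X, (∀ x : Fin n → Bool, c5dup N x ≠ X) → f X = 0) :
    ∑ X, f X = ∑ x : Fin n → Bool, f (c5dup N x) := by
  symm
  apply sum_of_injOn (c5dup N)
  · intro x _ y _ h
    exact c5dup_inj hn h
  · intro x _; simp
  · intro X _ hX
    apply hf
    intro x hx
    exact hX ⟨x, by simp, hx⟩
  · intro x _; rfl

theorem c5_diag (c : Circuit N) (o : Fin N) (x : Fin n → Bool) :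
    (c.mat.conjTranspose * zMat o * c.mat) (initBasis N x) (initBasis N x)
      = ((∑ z : Basis N, (if z o = true then -1 else 1) * ‖finalState c x z‖ ^ 2 : ℝ) : ℂ) := by
  rw [Matrix.mul_apply]
  push_cast
  apply sum_congr rfl
  intro z _
  unfold zMat
  rw [Matrix.mul_diagonal, Matrix.conjTranspose_apply]
  unfold finalState
  have h : star (c.mat z (initBasis N x)) * c.mat z (initBasis N x)
      = ((‖c.mat z (initBasis N x)‖ : ℝ) : ℂ) ^ 2 := by
    rw [RCLike.star_def, Complex.conj_mul']
  split_ifs
  · rw [← h]; push_cast; ring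
  · rw [← h]; push_cast; ring

theorem parityCorr_eq {N n : ℕ} (hn : n ≤ N) (c : Circuit N) (o : Fin N) :
    ((parityCorr n c o : ℝ) : ℂ) = ⟪prodVec (epr n (-1) : Fin N → Bool × Bool → ℂ),
      lift (c.mat.conjTranspose * zMat o * c.mat) (prodVec (epr n 1))⟫_ℂ := by
  set M := c.mat.conjTranspose * zMat o * c.mat with hM
  -- right side
  have hL : ∀ X, (lift M (prodVec (epr n 1 : Fin N → Bool × Bool → ℂ))) X
      = ∑ Y, (if (fun q => (X q).1) = (fun q => (Y q).1) then
          M (fun q => (X q).2) (fun q => (Y q).2) else 0)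
          * prodVec (epr n 1 : Fin N → Bool × Bool → ℂ) Y := by
    intro X
    rfl
  have hin : ⟪prodVec (epr n (-1) : Fin N → Bool × Bool → ℂ),
      lift M (prodVec (epr n 1))⟫_ℂ
      = ∑ X, (lift M (prodVec (epr n 1 : Fin N → Bool × Bool → ℂ))) X
          * star (prodVec (epr n (-1) : Fin N → Bool × Bool → ℂ) X) := by
    rw [PiLp.inner_apply]
    rfl
  rw [hin, c5_sum hn]
  swap
  · intro X hX
    rw [c5_zero (-1) X hX hn]; simp
  have h2 : ∀ x : Fin n → Bool, (lift M (prodVec (epr n 1 : Fin N → Bool × Bool → ℂ))) (c5dup N x)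
      = M (initBasis N x) (initBasis N x) * (((1 / Real.sqrt 2 : ℝ) : ℂ)) ^ n := by
    intro x
    rw [hL, c5_sum hn]
    swap
    · intro Y hY
      rw [c5_zero 1 Y hY hn, mul_zero]
    rw [sum_eq_single x]
    · rw [c5_val hn, c5sgn_one, one_mul]
      have : (fun q => (c5dup N x q).1) = (fun q => (c5dup N x q).1) := rfl
      rw [if_pos this]
      rfl
    · intro y _ hyx
      have : ¬ (fun q => (c5dup N x q).1) = (fun q => (c5dup N y q).1) := by
        intro h
        apply hyx
        apply c5dup_inj hn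
        funext q
        have h3 := congrFun h q
        exact Prod.ext h3.symm h3.symm
      rw [if_neg this, zero_mul]
    · intro h; exact absurd (mem_univ x) h
  have h3 : (((1 / Real.sqrt 2 : ℝ) : ℂ)) ^ n * (((1 / Real.sqrt 2 : ℝ) : ℂ)) ^ n
      = ((1 / 2 ^ n : ℝ) : ℂ) := by
    rw [← mul_pow, ← Complex.ofReal_mul, ← Complex.ofReal_pow]
    congr 1
    rw [div_mul_div_comm, Real.mul_self_sqrt (by norm_num), one_mul, div_pow, one_pow]
  have h4 : ∀ x : Fin n → Bool, (lift M (prodVec (epr n 1 : Fin N → Bool × Bool → ℂ))) (c5dup N x)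
      * star (prodVec (epr n (-1) : Fin N → Bool × Bool → ℂ) (c5dup N x))
      = (((outProb c o x (par x) - outProb c o x (!(par x))) * (1 / 2 ^ n) : ℝ) : ℂ) := by
    intro x
    rw [h2, c5_val hn, hM, c5_diag]
    have h5 : star (c5sgn (-1) x * (((1 / Real.sqrt 2 : ℝ) : ℂ)) ^ n)
        = c5sgn (-1) x * (((1 / Real.sqrt 2 : ℝ) : ℂ)) ^ n := by
      rw [c5sgn_neg, star_mul', star_pow]
      congr 1
      · split_ifs <;> simp
      · congr 1
        exact Complex.conj_ofReal _
    rw [h5]
    have h6 : (∑ z : Basis N, (if z o = true then -1 else 1) * ‖finalState c x z‖ ^ 2 : ℝ)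
        * (if par x = true then -1 else 1)
        = outProb c o x (par x) - outProb c o x (!(par x)) := by
      unfold outProb
      rw [← sum_sub_distrib, sum_mul]
      apply sum_congr rfl
      intro z _
      cases hz : z o <;> cases hp : par x <;> simp
    rw [← h6, c5sgn_neg]
    rw [Complex.ofReal_mul, ← h3, Complex.ofReal_mul]
    have h7 : (((if par x = true then -1 else 1 : ℝ)) : ℂ) = (if par x = true then -1 else 1) := by
      split_ifs <;> simp
    rw [h7]
    ring
  rw [sum_congr rfl fun x _ => h4 x]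
  unfold parityCorr
  rw [← Complex.ofReal_sum]
  congr 1
  rw [← sum_mul, mul_one_div]

end C5

end

end Vale.Agent.P368
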