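import Vale.Agent.Lib.P368.Abs

/-!
P368, module M1: the covariance lemma `covQ` for one row.
-/

namespace Vale.Agent.P368

open scoped InnerProductSpace
open Finset

noncomputable section

variable {H : Type*} [NormedAddCommGroup H] [InnerProductSpace ℂ H]

/-! ### Elementary facts about projections -/

theorem IsProj.app {A : Module.End ℂ H} (hA : IsProj A) (x : H) : A (A x) = A x := by
  have h := congrArg (fun L : Module.End ℂ H => L x) hA.idem
  simpa using h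

theorem IsProj.nsq {A : Module.End ℂ H} (hA : IsProj A) (x : H) :
    ‖A x‖ ^ 2 = (⟪A x, x⟫_ℂ).re := by
  have h : ⟪A x, A x⟫_ℂ = ⟪A x, x⟫_ℂ := by
    rw [← hA.symm, hA.app]
  have h2 : (⟪A x, A x⟫_ℂ).re = ‖A x‖ ^ 2 := by
    have := inner_self_eq_norm_sq (𝕜 := ℂ) (A x)
    simpa using this
  rw [← h2, h]

theorem IsProj.compl {A : Module.End ℂ H} (hA : IsProj A) : IsProj (1 - A) := by
  refine ⟨?_, ?_⟩
  · rw [mul_sub, sub_mul, sub_mul, hA.idem]; simp
  · intro x y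
    simp only [LinearMap.sub_apply, Module.End.one_apply, inner_sub_left, inner_sub_right,
      hA.symm]

theorem IsProj.one : IsProj (1 : Module.End ℂ H) := ⟨by simp, fun x y => by simp⟩

theorem re_inner_self (x : H) : (⟪x, x⟫_ℂ).re = ‖x‖ ^ 2 := by
  have := inner_self_eq_norm_sq (𝕜 := ℂ) x
  simpa using this

theorem IsProj.pyth {A : Module.End ℂ H} (hA : IsProj A) (x : H) :
    ‖x‖ ^ 2 = ‖A x‖ ^ 2 + ‖(1 - A) x‖ ^ 2 := by
  rw [hA.nsq, hA.compl.nsq, ← re_inner_self x]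
  simp only [LinearMap.sub_apply, Module.End.one_apply, inner_sub_left, Complex.sub_re]
  ring

theorem IsProj.nsq_le {A : Module.End ℂ H} (hA : IsProj A) (x : H) :
    ‖A x‖ ^ 2 ≤ ‖x‖ ^ 2 := by
  have := hA.pyth x
  nlinarith [sq_nonneg ‖(1 - A) x‖]

theorem IsProj.norm_le {A : Module.End ℂ H} (hA : IsProj A) (x : H) :
    ‖A x‖ ≤ ‖x‖ := by
  have := hA.nsq_le x
  exact le_of_sq_le_sq this (norm_nonneg x) |> fun h => h

theorem IsProj.mul {A B : Module.End ℂ H} (hA : IsProj A) (hB : IsProj B)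
    (h : Commute A B) : IsProj (A * B) := by
  refine ⟨?_, ?_⟩
  · calc A * B * (A * B) = A * (B * A) * B := by noncomm_ring
      _ = A * (A * B) * B := by rw [h.eq]
      _ = (A * A) * (B * B) := by noncomm_ring
      _ = A * B := by rw [hA.idem, hB.idem]
  · intro x y
    have h1 : (A * B) y = (B * A) y := by rw [h.eq]
    rw [h1]
    simp only [Module.End.mul_apply, hA.symm, hB.symm]

theorem refl_mul_self {T : Module.End ℂ H} (hT : IsProj T) : refl T * refl T = 1 := by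
  unfold refl
  have h := hT.idem
  calc (1 - (2 : ℂ) • T) * (1 - (2 : ℂ) • T)
      = 1 - (2 : ℂ) • T - (2 : ℂ) • T + ((2 : ℂ) * (2 : ℂ)) • (T * T) := by
        rw [mul_sub, sub_mul, sub_mul, smul_mul_smul_comm]
        simp only [mul_one, one_mul]
        abel
    _ = 1 := by
        rw [h]
        module

theorem refl_app {T : Module.End ℂ H} (hT : IsProj T) (x : H) : refl T (refl T x) = x := by
  have h := congrArg (fun L : Module.End ℂ H => L x) (refl_mul_self hT)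
  simpa using h

theorem refl_symm {T : Module.End ℂ H} (hT : IsProj T) (x y : H) :
    ⟪refl T x, y⟫_ℂ = ⟪x, refl T y⟫_ℂ := by
  unfold refl
  simp only [LinearMap.sub_apply, Module.End.one_apply, LinearMap.smul_apply, inner_sub_left,
    inner_sub_right, inner_smul_left, inner_smul_right, hT.symm]
  have h2 : (starRingEnd ℂ) (2 : ℂ) = 2 := Complex.conj_ofNat 2
  rw [h2]

theorem refl_norm {T : Module.End ℂ H} (hT : IsProj T) (x : H) : ‖refl T x‖ = ‖x‖ := by
  have h : ‖refl T x‖ ^ 2 = ‖x‖ ^ 2 := by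
    rw [← re_inner_self, refl_symm hT, refl_app hT, re_inner_self]
  exact (sq_eq_sq₀ (norm_nonneg _) (norm_nonneg _)).1 h

/-! ### Families -/

theorem ProdFam.commute {J : Type*} [DecidableEq J] {f : J → Module.End ℂ H}
    {F : Finset J → Module.End ℂ H} (hF : ProdFam f F) (A : Module.End ℂ H) (s : Finset J)
    (h : ∀ j ∈ s, Commute A (f j)) : Commute A (F s) := by
  induction s using Finset.induction_on with
  | empty => rw [hF.empty]; exact Commute.one_right A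
  | insert j s hj ih =>
    rw [hF.insert j s hj]
    exact (h j (mem_insert_self j s)).mul_right (ih fun i hi => h i (mem_insert_of_mem hi))

theorem ProdFam.isProj {J : Type*} [DecidableEq J] {f : J → Module.End ℂ H}
    {F : Finset J → Module.End ℂ H} (hF : ProdFam f F) (hf : ∀ j, IsProj (f j))
    (hff : ∀ i j, Commute (f i) (f j)) (s : Finset J) : IsProj (F s) := by
  induction s using Finset.induction_on with
  | empty => rw [hF.empty]; exact IsProj.one
  | insert j s hj ih =>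
    rw [hF.insert j s hj]
    exact (hf j).mul ih (hF.commute _ s fun i _ => hff j i)

theorem ProdFam.erase {J : Type*} [DecidableEq J] {f : J → Module.End ℂ H}
    {F : Finset J → Module.End ℂ H} (hF : ProdFam f F) {s : Finset J} {j : J} (hj : j ∈ s) :
    F s = f j * F (s.erase j) := by
  conv_lhs => rw [← insert_erase hj]
  exact hF.insert j _ (notMem_erase j s)

theorem ProdFam.absorb {J : Type*} [DecidableEq J] {f : J → Module.End ℂ H}
    {F : Finset J → Module.End ℂ H} (hF : ProdFam f F) (hf : ∀ j, IsProj (f j))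
    {s : Finset J} {j : J} (hj : j ∈ s) : f j * F s = F s := by
  rw [hF.erase hj, ← mul_assoc, (hf j).idem]

theorem ProdFam.absorb_app {J : Type*} [DecidableEq J] {f : J → Module.End ℂ H}
    {F : Finset J → Module.End ℂ H} (hF : ProdFam f F) (hf : ∀ j, IsProj (f j))
    {s : Finset J} {j : J} (hj : j ∈ s) (x : H) : f j (F s x) = F s x := by
  have h := congrArg (fun L : Module.End ℂ H => L x) (hF.absorb hf hj)
  simpa using h

/-- if all `f j`, `j ∈ s`, fix `x`, then so does `F s` -/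
theorem ProdFam.fix {J : Type*} [DecidableEq J] {f : J → Module.End ℂ H}
    {F : Finset J → Module.End ℂ H} (hF : ProdFam f F) (s : Finset J) (x : H)
    (h : ∀ j ∈ s, f j x = x) : F s x = x := by
  induction s using Finset.induction_on with
  | empty => rw [hF.empty]; simp
  | insert j s hj ih =>
    rw [hF.insert j s hj, Module.End.mul_apply, ih fun i hi => h i (mem_insert_of_mem hi)]
    exact h j (mem_insert_self j s)

/-- union bound: `‖(1 - F s) z‖² ≤ ∑_{k ∈ s} ‖(1 - f k) z‖²` -/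
theorem ProdFam.union_bound {J : Type*} [DecidableEq J] {f : J → Module.End ℂ H}
    {F : Finset J → Module.End ℂ H} (hF : ProdFam f F) (hf : ∀ j, IsProj (f j))
    (hff : ∀ i j, Commute (f i) (f j)) (s : Finset J) (z : H) :
    ‖(1 - F s) z‖ ^ 2 ≤ ∑ k ∈ s, ‖(1 - f k) z‖ ^ 2 := by
  induction s using Finset.induction_on with
  | empty => rw [hF.empty]; simp
  | insert j s hj ih =>
    rw [sum_insert hj]
    have hP := hF.isProj hf hff
    have h1 := (hP (Insert.insert j s)).pyth z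
    have h2 := (hP s).pyth z
    have h3 := (hf j).pyth (F s z)
    have h4 : F (Insert.insert j s) z = f j (F s z) := by rw [hF.insert j s hj]; rfl
    have h5 : (1 - f j) (F s z) = F s ((1 - f j) z) := by
      have hc : Commute (1 - f j) (F s) :=
        (Commute.one_left _).sub_left (hF.commute _ s fun i _ => hff j i)
      have := congrArg (fun L : Module.End ℂ H => L z) hc.eq
      simpa using this
    have h6 : ‖(1 - f j) (F s z)‖ ^ 2 ≤ ‖(1 - f j) z‖ ^ 2 := by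
      rw [h5]; exact (hP s).nsq_le _
    rw [h4] at h1
    linarith

/-! ### Norm identities for a pair `f, t` with `t f t = (1-η) t`, `f t f = (1-η) f` -/

theorem pair_nsq {f t : Module.End ℂ H} {c : ℝ} (hf : IsProj f) (ht : IsProj t)
    (h : t * f * t = ((c : ℝ) : ℂ) • t) (v : H) (hv : t v = v) :
    ‖f v‖ ^ 2 = c * ‖v‖ ^ 2 := by
  rw [hf.nsq]
  have h1 : ⟪f v, v⟫_ℂ = ⟪(t * f * t) v, v⟫_ℂ := by
    have h2 : (t * f * t) v = t (f v) := by simp [Module.End.mul_apply, hv]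
    rw [h2, ht.symm, hv]
  rw [h1, h, LinearMap.smul_apply, hv, inner_smul_left, Complex.conj_ofReal, Complex.re_ofReal_mul,
    re_inner_self]

theorem pair_nsq_compl {f t : Module.End ℂ H} {c : ℝ} (hf : IsProj f) (ht : IsProj t)
    (h : t * f * t = ((1 - c : ℝ) : ℂ) • t) (v : H) (hv : t v = v) :
    ‖(1 - f) v‖ ^ 2 = c * ‖v‖ ^ 2 := by
  have h1 := hf.pyth v
  have h2 := pair_nsq hf ht h v hv
  linarith

/-- `‖f (1-t) w‖² ≤ η ‖(1-t)w‖²`, here for `w` with `t w = 0` -/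
theorem pair_cross {f t : Module.End ℂ H} {c : ℝ} (hf : IsProj f) (ht : IsProj t)
    (h : f * t * f = ((1 - c : ℝ) : ℂ) • f) (hc : 0 ≤ c) (w : H) (hw : t w = 0) :
    ‖f w‖ ^ 2 ≤ c * ‖w‖ ^ 2 := by
  have h1 : ‖(1 - t) (f w)‖ ^ 2 = c * ‖f w‖ ^ 2 :=
    pair_nsq_compl ht hf h (f w) (hf.app w)
  have h2 : ‖f w‖ ^ 2 ≤ ‖(1 - t) (f w)‖ * ‖w‖ := by
    rw [hf.nsq]
    have h3 : ⟪f w, w⟫_ℂ = ⟪(1 - t) (f w), w⟫_ℂ := by
      rw [ht.compl.symm]
      simp [hw]
    rw [h3]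
    exact (Complex.re_le_norm _).trans (norm_inner_le_norm _ _)
  have h4 : (‖f w‖ ^ 2) ^ 2 ≤ (c * ‖w‖ ^ 2) * ‖f w‖ ^ 2 := by
    calc (‖f w‖ ^ 2) ^ 2 ≤ (‖(1 - t) (f w)‖ * ‖w‖) ^ 2 := by
          apply pow_le_pow_left₀ (by positivity) h2
      _ = ‖(1 - t) (f w)‖ ^ 2 * ‖w‖ ^ 2 := by ring
      _ = (c * ‖w‖ ^ 2) * ‖f w‖ ^ 2 := by rw [h1]; ring
  rcases (sq_nonneg ‖f w‖).eq_or_lt with h0 | h0
  · rw [← h0]; positivity
  · nlinarith

/-! ### Gate data -/

section Gate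

variable {J : Type*} [Fintype J] [DecidableEq J] {f t : J → Module.End ℂ H}
    {F T : Finset J → Module.End ℂ H} {η : J → ℝ}

theorem GateData.Fproj (D : GateData f t F T η) (s : Finset J) : IsProj (F s) :=
  D.hF.isProj D.hf D.hff s

theorem GateData.Tproj (D : GateData f t F T η) (s : Finset J) : IsProj (T s) :=
  D.hT.isProj D.ht D.htt s

theorem GateData.TFT (D : GateData f t F T η) (s : Finset J) :
    T s * F s * T s = ((∏ k ∈ s, (1 - η k) : ℝ) : ℂ) • T s := by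
  induction s using Finset.induction_on with
  | empty => rw [D.hF.empty, D.hT.empty]; simp
  | insert j s hj ih =>
    rw [D.hF.insert j s hj, D.hT.insert j s hj, prod_insert hj]
    have c1 : Commute (f j) (T s) := D.hT.commute _ s fun i hi => D.hft j i (by
      rintro rfl; exact hj hi)
    have c2 : Commute (t j) (F s) := D.hF.commute _ s fun i hi => (D.hft i j (by
      rintro rfl; exact hj hi)).symm
    have c3 : Commute (t j) (T s) := D.hT.commute _ s fun i hi => D.htt j i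
    calc t j * T s * (f j * F s) * (t j * T s)
        = t j * (T s * f j) * (F s * t j) * T s := by noncomm_ring
      _ = t j * (f j * T s) * (t j * F s) * T s := by rw [c1.eq, c2.eq]
      _ = t j * f j * (T s * t j) * F s * T s := by noncomm_ring
      _ = t j * f j * (t j * T s) * F s * T s := by rw [c3.eq]
      _ = (t j * f j * t j) * (T s * F s * T s) := by noncomm_ring
      _ = _ := by
        rw [D.tft, ih, smul_mul_smul_comm]
        push_cast
        rfl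

variable (D : GateData f t F T η)
    (Q : J → Module.End ℂ H) (hQ : ∀ j, IsProj (Q j)) (hQQ : ∀ i j, Commute (Q i) (Q j))
    (hQf : ∀ i j, i ≠ j → Commute (Q i) (f j)) (hQt : ∀ i j, i ≠ j → Commute (Q i) (t j))

/-- the part of `T Q (1-T) b'` -/
def eth (T : Finset J → Module.End ℂ H) (Q : J → Module.End ℂ H) (b : H) (j : J) : H :=
  T univ (Q j ((1 - T univ) b))

/-- the part (1-T) Q T b' -/
def epp (T : Finset J → Module.End ℂ H) (Q : J → Module.End ℂ H) (b : H) (j : J) : H :=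
  (1 - T univ) (Q j (T univ b))

omit [DecidableEq J] in
theorem refl_decomp (b : H) (j : J) :
    refl (T univ) (Q j (refl (T univ) b)) = Q j b - (2 : ℂ) • (eth T Q b j + epp T Q b j) := by
  unfold refl eth epp
  simp only [LinearMap.sub_apply, Module.End.one_apply, LinearMap.smul_apply, map_sub, map_smul]
  module

include D in
theorem eth_t (b : H) (j k : J) : t k (eth T Q b j) = eth T Q b j :=
  D.hT.absorb_app D.ht (mem_univ k) _

include D in
theorem eth_T (b : H) (j : J) : T univ (eth T Q b j) = eth T Q b j :=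
  (D.Tproj univ).app _

include D in
theorem epp_T (b : H) (j : J) : T univ (epp T Q b j) = 0 := by
  unfold epp
  simp only [LinearMap.sub_apply, Module.End.one_apply, map_sub, (D.Tproj univ).app, sub_self]

include D hQt in
theorem eth_eq (b : H) (j : J) :
    eth T Q b j = (t j * Q j * (1 - t j)) (T (univ.erase j) b) := by
  have hS := (D.Tproj (univ.erase j)).idem
  have hT : T univ = t j * T (univ.erase j) := D.hT.erase (mem_univ j)
  have c1 : Commute (Q j) (T (univ.erase j)) :=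
    D.hT.commute _ _ fun i hi => hQt j i (ne_of_mem_erase hi).symm
  have c2 : Commute (t j) (T (univ.erase j)) := D.hT.commute _ _ fun i _ => D.htt j i
  set S := T (univ.erase j) with hSdef
  have key : T univ * Q j * (1 - T univ) = t j * Q j * (1 - t j) * S := by
    rw [hT]
    calc t j * S * Q j * (1 - t j * S) = t j * (S * Q j) * (1 - t j * S) := by noncomm_ring
      _ = t j * (Q j * S) * (1 - t j * S) := by rw [c1.eq]
      _ = t j * Q j * (S - (S * t j) * S) := by noncomm_ring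
      _ = t j * Q j * (S - t j * (S * S)) := by rw [← c2.eq]; noncomm_ring
      _ = t j * Q j * (1 - t j) * S := by rw [hS]; noncomm_ring
  have := congrArg (fun L : Module.End ℂ H => L b) key
  simpa [eth, Module.End.mul_apply] using this

include D hQt in
theorem epp_eq (b : H) (j : J) :
    epp T Q b j = T (univ.erase j) (((1 - t j) * Q j * t j) b) := by
  have hS := (D.Tproj (univ.erase j)).idem
  have hT : T univ = t j * T (univ.erase j) := D.hT.erase (mem_univ j)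
  have c1 : Commute (Q j) (T (univ.erase j)) :=
    D.hT.commute _ _ fun i hi => hQt j i (ne_of_mem_erase hi).symm
  have c2 : Commute (t j) (T (univ.erase j)) := D.hT.commute _ _ fun i _ => D.htt j i
  set S := T (univ.erase j) with hSdef
  have key : (1 - T univ) * Q j * T univ = S * ((1 - t j) * Q j * t j) := by
    rw [hT]
    calc (1 - t j * S) * Q j * (t j * S)
        = Q j * (t j * S) - t j * (S * Q j) * (t j * S) := by noncomm_ring
      _ = Q j * (S * t j) - t j * (Q j * S) * (S * t j) := by rw [c1.eq, c2.eq]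
      _ = (Q j * S) * t j - t j * (Q j * (S * S)) * t j := by noncomm_ring
      _ = (S * Q j) * t j - t j * (S * Q j) * t j := by rw [hS, c1.eq]
      _ = (S * Q j) * t j - (t j * S) * Q j * t j := by noncomm_ring
      _ = S * ((1 - t j) * Q j * t j) := by rw [c2.eq]; noncomm_ring
  have := congrArg (fun L : Module.End ℂ H => L b) key
  simpa [epp, Module.End.mul_apply] using this

include D hQt in
theorem epp_t (b : H) (j k : J) (hk : k ≠ j) : t k (epp T Q b j) = epp T Q b j := by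
  rw [epp_eq D Q hQt b j]
  exact D.hT.absorb_app D.ht (mem_erase.2 ⟨hk, mem_univ k⟩) _

include D hQt in
theorem epp_t_self (b : H) (j : J) : t j (epp T Q b j) = 0 := by
  rw [epp_eq D Q hQt b j]
  have c2 : Commute (t j) (T (univ.erase j)) := D.hT.commute _ _ fun i _ => D.htt j i
  have key : t j * (T (univ.erase j) * ((1 - t j) * Q j * t j)) = 0 := by
    calc t j * (T (univ.erase j) * ((1 - t j) * Q j * t j))
        = (t j * T (univ.erase j)) * ((1 - t j) * Q j * t j) := by noncomm_ring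
      _ = (T (univ.erase j) * t j) * ((1 - t j) * Q j * t j) := by rw [c2.eq]
      _ = T (univ.erase j) * ((t j - t j * t j) * Q j * t j) := by noncomm_ring
      _ = 0 := by rw [(D.ht j).idem]; simp
  have := congrArg (fun L : Module.End ℂ H => L b) key
  simpa [Module.End.mul_apply] using this

include D hQt in
theorem epp_orth (b : H) (j m : J) (h : j ≠ m) : ⟪epp T Q b j, epp T Q b m⟫_ℂ = 0 := by
  rw [← epp_t D Q hQt b j m h.symm, (D.ht m).symm, epp_t_self D Q hQt, inner_zero_right]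

include D in
theorem eth_epp_orth (b : H) (j m : J) : ⟪eth T Q b j, epp T Q b m⟫_ℂ = 0 := by
  rw [← eth_T D Q b j, (D.Tproj univ).symm, epp_T D, inner_zero_right]

end Gate

/-- the cross term, `T''`-form -/
theorem cross_aux {fj fm tj tm Qj Qm S : Module.End ℂ H} {ηj ηm : ℝ}
    (hfj : IsProj fj) (hfm : IsProj fm) (htj : IsProj tj) (htm : IsProj tm)
    (hQj : IsProj Qj) (hQm : IsProj Qm)
    (cQ : Commute Qj Qm) (ct : Commute tj tm) (cf : Commute fj fm)
    (cfjtm : Commute fj tm) (cfmtj : Commute fm tj)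
    (cQjfm : Commute Qj fm) (cQjtm : Commute Qj tm) (cQmfj : Commute Qm fj)
    (cQmtj : Commute Qm tj)
    (cSQj : Commute S Qj) (cSQm : Commute S Qm) (cSfj : Commute S fj) (cSfm : Commute S fm)
    (cStj : Commute S tj) (cStm : Commute S tm)
    (ftfj : fj * tj * fj = ((1 - ηj : ℝ) : ℂ) • fj) (ftfm : fm * tm * fm = ((1 - ηm : ℝ) : ℂ) • fm)
    (h0j : 0 ≤ ηj) (h0m : 0 ≤ ηm) (h1j : ηj ≤ 1 / 2) (h1m : ηm ≤ 1 / 2)
    (b : H) (hbj : fj b = b) (hbm : fm b = b) :
    ‖⟪(tj * Qj * (1 - tj)) (tm (S b)), (tm * Qm * (1 - tm)) (tj (S b))⟫_ℂ‖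
      ≤ 2 * (√ηj * ‖tm (S (((1 - tj) * Qj * tj) b))‖) * (√ηm * ‖tj (S (((1 - tm) * Qm * tm) b))‖) := by
  -- adjoints
  have adj : ∀ x y : H, ⟪(tj * Qj * (1 - tj)) x, y⟫_ℂ = ⟪x, ((1 - tj) * Qj * tj) y⟫_ℂ := by
    intro x y
    simp only [Module.End.mul_apply, htj.symm, hQj.symm, htj.compl.symm]
  have adj' : ∀ x y : H, ⟪x, (tm * Qm * (1 - tm)) y⟫_ℂ = ⟪((1 - tm) * Qm * tm) x, y⟫_ℂ := by
    intro x y
    simp only [Module.End.mul_apply, htm.symm, hQm.symm, htm.compl.symm]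
  -- commutations of blocks
  have hAA : Commute ((1 - tj) * Qj * tj) (tm * Qm * (1 - tm)) := by
    have c1 : Commute (1 - tj) (tm * Qm * (1 - tm)) := by
      apply Commute.sub_left (Commute.one_left _)
      exact (ct.mul_right cQmtj.symm).mul_right ((Commute.one_right _).sub_right ct)
    have c2 : Commute Qj (tm * Qm * (1 - tm)) :=
      (cQjtm.mul_right cQ).mul_right ((Commute.one_right _).sub_right cQjtm)
    have c3 : Commute tj (tm * Qm * (1 - tm)) :=
      (ct.mul_right cQmtj.symm).mul_right ((Commute.one_right _).sub_right ct)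
    exact (c1.mul_left c2).mul_left c3
  have hSAj : Commute S ((1 - tj) * Qj * tj) :=
    (((Commute.one_right _).sub_right cStj).mul_right cSQj).mul_right cStj
  have hSAm : Commute S ((1 - tm) * Qm * tm) :=
    (((Commute.one_right _).sub_right cStm).mul_right cSQm).mul_right cStm
  have hfjAm : Commute fj ((1 - tm) * Qm * tm) :=
    (((Commute.one_right _).sub_right cfjtm).mul_right cQmfj.symm).mul_right cfjtm
  have hfmAj : Commute fm ((1 - tj) * Qj * tj) :=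
    (((Commute.one_right _).sub_right cfmtj).mul_right cQjfm.symm).mul_right cfmtj
  set pj : H := S (((1 - tj) * Qj * tj) b) with hpj
  set pm : H := S (((1 - tm) * Qm * tm) b) with hpm
  have e1 : ((1 - tj) * Qj * tj) (tj (S b)) = pj := by
    have key : (1 - tj) * Qj * tj * (tj * S) = S * ((1 - tj) * Qj * tj) := by
      rw [hSAj.eq]
      calc (1 - tj) * Qj * tj * (tj * S) = (1 - tj) * Qj * (tj * tj) * S := by noncomm_ring
        _ = _ := by rw [htj.idem]
    have := congrArg (fun L : Module.End ℂ H => L b) key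
    simpa [Module.End.mul_apply, hpj] using this
  have e2 : ((1 - tm) * Qm * tm) (tm (S b)) = pm := by
    have key : (1 - tm) * Qm * tm * (tm * S) = S * ((1 - tm) * Qm * tm) := by
      rw [hSAm.eq]
      calc (1 - tm) * Qm * tm * (tm * S) = (1 - tm) * Qm * (tm * tm) * S := by noncomm_ring
        _ = _ := by rw [htm.idem]
    have := congrArg (fun L : Module.End ℂ H => L b) key
    simpa [Module.End.mul_apply, hpm] using this
  have e3 : ⟪(tj * Qj * (1 - tj)) (tm (S b)), (tm * Qm * (1 - tm)) (tj (S b))⟫_ℂ = ⟪pm, pj⟫_ℂ := by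
    rw [adj]
    have h1 : ((1 - tj) * Qj * tj) ((tm * Qm * (1 - tm)) (tj (S b)))
        = (tm * Qm * (1 - tm)) (((1 - tj) * Qj * tj) (tj (S b))) := by
      have := congrArg (fun L : Module.End ℂ H => L (tj (S b))) hAA.eq
      simpa only [Module.End.mul_apply] using this
    rw [h1, adj', e1, e2]
  have fjpm : fj pm = pm := by
    have key : fj * (S * ((1 - tm) * Qm * tm)) = S * ((1 - tm) * Qm * tm) * fj := by
      calc fj * (S * ((1 - tm) * Qm * tm)) = (fj * S) * ((1 - tm) * Qm * tm) := by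
            noncomm_ring
        _ = (S * fj) * ((1 - tm) * Qm * tm) := by rw [cSfj.eq]
        _ = S * (fj * ((1 - tm) * Qm * tm)) := by noncomm_ring
        _ = _ := by rw [hfjAm.eq]; noncomm_ring
    have := congrArg (fun L : Module.End ℂ H => L b) key
    simp only [Module.End.mul_apply, hbj] at this
    simpa [Module.End.mul_apply, hpm] using this
  have fmpj : fm pj = pj := by
    have key : fm * (S * ((1 - tj) * Qj * tj)) = S * ((1 - tj) * Qj * tj) * fm := by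
      calc fm * (S * ((1 - tj) * Qj * tj)) = (fm * S) * ((1 - tj) * Qj * tj) := by
            noncomm_ring
        _ = (S * fm) * ((1 - tj) * Qj * tj) := by rw [cSfm.eq]
        _ = S * (fm * ((1 - tj) * Qj * tj)) := by noncomm_ring
        _ = _ := by rw [hfmAj.eq]; noncomm_ring
    have := congrArg (fun L : Module.End ℂ H => L b) key
    simp only [Module.End.mul_apply, hbm] at this
    simpa [Module.End.mul_apply, hpj] using this
  have tpj : tj pj = 0 := by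
    have key : tj * (S * ((1 - tj) * Qj * tj)) = 0 := by
      calc tj * (S * ((1 - tj) * Qj * tj)) = (tj * S) * ((1 - tj) * Qj * tj) := by noncomm_ring
        _ = (S * tj) * ((1 - tj) * Qj * tj) := by rw [cStj.eq]
        _ = S * ((tj - tj * tj) * Qj * tj) := by noncomm_ring
        _ = 0 := by rw [htj.idem]; simp
    have := congrArg (fun L : Module.End ℂ H => L b) key
    simpa [Module.End.mul_apply, hpj] using this
  have tpm : tm pm = 0 := by
    have key : tm * (S * ((1 - tm) * Qm * tm)) = 0 := by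
      calc tm * (S * ((1 - tm) * Qm * tm)) = (tm * S) * ((1 - tm) * Qm * tm) := by noncomm_ring
        _ = (S * tm) * ((1 - tm) * Qm * tm) := by rw [cStm.eq]
        _ = S * ((tm - tm * tm) * Qm * tm) := by noncomm_ring
        _ = 0 := by rw [htm.idem]; simp
    have := congrArg (fun L : Module.End ℂ H => L b) key
    simpa [Module.End.mul_apply, hpm] using this
  have e4 : ⟪pm, pj⟫_ℂ = ⟪fm pm, fj pj⟫_ℂ := by
    have h1 : ⟪pm, pj⟫_ℂ = ⟪fm pm, pj⟫_ℂ := by
      rw [hfm.symm, fmpj]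
    have h2 : fm pm = fj (fm pm) := by
      have := congrArg (fun L : Module.End ℂ H => L pm) cf.eq
      simp only [Module.End.mul_apply, fjpm] at this
      exact this.symm
    rw [h1]
    conv_lhs => rw [h2]
    rw [hfj.symm]
  have n1 : ‖fm pm‖ ^ 2 ≤ ηm * ‖pm‖ ^ 2 := pair_cross hfm htm ftfm h0m pm tpm
  have n2 : ‖fj pj‖ ^ 2 ≤ ηj * ‖pj‖ ^ 2 := pair_cross hfj htj ftfj h0j pj tpj
  have n3 : ‖tm pj‖ ^ 2 = (1 - ηm) * ‖pj‖ ^ 2 := pair_nsq htm hfm ftfm pj fmpj
  have n4 : ‖tj pm‖ ^ 2 = (1 - ηj) * ‖pm‖ ^ 2 := pair_nsq htj hfj ftfj pm fjpm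
  have n5 : ‖pj‖ ^ 2 ≤ 2 * ‖tm pj‖ ^ 2 := by
    rw [n3]; nlinarith [sq_nonneg ‖pj‖]
  have n6 : ‖pm‖ ^ 2 ≤ 2 * ‖tj pm‖ ^ 2 := by
    rw [n4]; nlinarith [sq_nonneg ‖pm‖]
  have n7 : ‖fm pm‖ ≤ √ 2 * (√ηm * ‖tj pm‖) := by
    apply le_of_sq_le_sq _ (by positivity)
    rw [mul_pow, mul_pow, Real.sq_sqrt h0m, Real.sq_sqrt (by norm_num)]
    nlinarith
  have n8 : ‖fj pj‖ ≤ √ 2 * (√ηj * ‖tm pj‖) := by
    apply le_of_sq_le_sq _ (by positivity)
    rw [mul_pow, mul_pow, Real.sq_sqrt h0j, Real.sq_sqrt (by norm_num)]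
    nlinarith
  rw [e3, e4]
  calc ‖⟪fm pm, fj pj⟫_ℂ‖ ≤ ‖fm pm‖ * ‖fj pj‖ := norm_inner_le_norm _ _
    _ ≤ (√ 2 * (√ηm * ‖tj pm‖)) * (√ 2 * (√ηj * ‖tm pj‖)) := by gcongr
    _ = (√2 * √2) * (√ηj * ‖tm pj‖) * (√ηm * ‖tj pm‖) := by ring
    _ = _ := by rw [Real.mul_self_sqrt (by norm_num)]

section Gate2

variable {J : Type*} [Fintype J] [DecidableEq J] {f t : J → Module.End ℂ H}
    {F T : Finset J → Module.End ℂ H} {η : J → ℝ}

theorem cross (D : GateData f t F T η)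
    (Q : J → Module.End ℂ H) (hQ : ∀ j, IsProj (Q j)) (hQQ : ∀ i j, Commute (Q i) (Q j))
    (hQf : ∀ i j, i ≠ j → Commute (Q i) (f j)) (hQt : ∀ i j, i ≠ j → Commute (Q i) (t j))
    (b : H) (hb : ∀ j, f j b = b) (j m : J) (hjm : j ≠ m) (hj : η j ≤ 1 / 2) (hm : η m ≤ 1 / 2) :
    ‖⟪eth T Q b j, eth T Q b m⟫_ℂ‖
      ≤ 2 * (√(η j) * ‖epp T Q b j‖) * (√(η m) * ‖epp T Q b m‖) := by
  set S := T ((univ.erase j).erase m) with hS
  have hm' : m ∈ univ.erase j := mem_erase.2 ⟨hjm.symm, mem_univ m⟩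
  have hj' : j ∈ univ.erase m := mem_erase.2 ⟨hjm, mem_univ j⟩
  have T1 : T (univ.erase j) = t m * S := D.hT.erase hm'
  have T2 : T (univ.erase m) = t j * S := by
    rw [D.hT.erase hj', hS, erase_right_comm]
  have sub1 : ∀ i ∈ (univ.erase j).erase m, i ≠ j ∧ i ≠ m := fun i hi =>
    ⟨ne_of_mem_erase (mem_of_mem_erase hi), ne_of_mem_erase hi⟩
  have cSQj : Commute S (Q j) := (D.hT.commute _ _ fun i hi => hQt j i (sub1 i hi).1.symm).symm
  have cSQm : Commute S (Q m) := (D.hT.commute _ _ fun i hi => hQt m i (sub1 i hi).2.symm).symm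
  have cSfj : Commute S (f j) := (D.hT.commute _ _ fun i hi => D.hft j i (sub1 i hi).1.symm).symm
  have cSfm : Commute S (f m) := (D.hT.commute _ _ fun i hi => D.hft m i (sub1 i hi).2.symm).symm
  have cStj : Commute S (t j) := (D.hT.commute _ _ fun i hi => D.htt j i).symm
  have cStm : Commute S (t m) := (D.hT.commute _ _ fun i hi => D.htt m i).symm
  have key := cross_aux (D.hf j) (D.hf m) (D.ht j) (D.ht m) (hQ j) (hQ m)
    (hQQ j m) (D.htt j m) (D.hff j m) (D.hft j m hjm)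
    (D.hft m j hjm.symm) (hQf j m hjm) (hQt j m hjm) (hQf m j hjm.symm) (hQt m j hjm.symm)
    cSQj cSQm cSfj cSfm cStj cStm (D.ftf j) (D.ftf m) (D.η_nonneg j) (D.η_nonneg m) hj hm
    b (hb j) (hb m)
  rw [eth_eq D Q hQt b j, eth_eq D Q hQt b m, epp_eq D Q hQt b j, epp_eq D Q hQt b m, T1, T2]
  simpa only [Module.End.mul_apply] using key

end Gate2

/-- square norm of a sum -/
theorem nsq_sum {ι : Type*} (S : Finset ι) (v : ι → H) :
    ‖∑ j ∈ S, v j‖ ^ 2 = ∑ j ∈ S, ∑ m ∈ S, (⟪v j, v m⟫_ℂ).re := by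
  rw [← re_inner_self, sum_inner]
  simp only [inner_sum, Complex.re_sum]

/-- light sums -/
theorem light_sum {ι : Type*} [DecidableEq ι] (S : Finset ι) (v : ι → H) (c : ι → ℝ)
    (hc : ∀ j ∈ S, ∀ m ∈ S, j ≠ m → ‖⟪v j, v m⟫_ℂ‖ ≤ 2 * c j * c m) :
    ‖∑ j ∈ S, v j‖ ^ 2 ≤ ∑ j ∈ S, ‖v j‖ ^ 2 + 2 * (∑ j ∈ S, c j) ^ 2 := by
  rw [nsq_sum, sq (∑ j ∈ S, c j), sum_mul_sum]
  have h1 : ∀ j ∈ S, ∑ m ∈ S, (⟪v j, v m⟫_ℂ).re ≤ ‖v j‖ ^ 2 + 2 * ∑ m ∈ S, c j * c m := by
    intro j hj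
    rw [← add_sum_erase S _ hj, ← add_sum_erase S (fun m => c j * c m) hj, re_inner_self]
    have h2 : ∑ m ∈ S.erase j, (⟪v j, v m⟫_ℂ).re ≤ ∑ m ∈ S.erase j, 2 * (c j * c m) := by
      apply sum_le_sum
      intro m hm
      have := hc j hj m (mem_of_mem_erase hm) (ne_of_mem_erase hm).symm
      have h3 := (Complex.re_le_norm (⟪v j, v m⟫_ℂ)).trans this
      linarith
    rw [← mul_sum] at h2
    nlinarith [mul_self_nonneg (c j)]
  calc ∑ j ∈ S, ∑ m ∈ S, (⟪v j, v m⟫_ℂ).re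
      ≤ ∑ j ∈ S, (‖v j‖ ^ 2 + 2 * ∑ m ∈ S, c j * c m) := sum_le_sum h1
    _ = _ := by rw [sum_add_distrib, ← mul_sum]

omit [InnerProductSpace ℂ H] in
/-- heavy sums -/
theorem heavy_sum {ι : Type*} (S : Finset ι) (v : ι → H) :
    ‖∑ j ∈ S, v j‖ ^ 2 ≤ (S.card : ℝ) * ∑ j ∈ S, ‖v j‖ ^ 2 := by
  calc ‖∑ j ∈ S, v j‖ ^ 2 ≤ (∑ j ∈ S, ‖v j‖) ^ 2 :=
        pow_le_pow_left₀ (norm_nonneg _) (norm_sum_le _ _) 2
    _ ≤ _ := sq_sum_le_card_mul_sum_sq

/-- orthogonal sums -/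
theorem orth_sum {ι : Type*} [DecidableEq ι] (S : Finset ι) (v : ι → H)
    (hc : ∀ j ∈ S, ∀ m ∈ S, j ≠ m → ⟪v j, v m⟫_ℂ = 0) :
    ‖∑ j ∈ S, v j‖ ^ 2 = ∑ j ∈ S, ‖v j‖ ^ 2 := by
  rw [nsq_sum]
  apply sum_congr rfl
  intro j hj
  rw [sum_eq_single_of_mem j hj, re_inner_self]
  intro m hm hmj
  rw [hc j hj m hm hmj.symm]; simp

theorem nsq_add_orth (u v : H) (h : ⟪u, v⟫_ℂ = 0) : ‖u + v‖ ^ 2 = ‖u‖ ^ 2 + ‖v‖ ^ 2 := by
  have h1 : (⟪u + v, u + v⟫_ℂ).re = ‖u‖ ^ 2 + ‖v‖ ^ 2 := by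
    rw [inner_add_left, inner_add_right, inner_add_right, ← inner_conj_symm v u, h,
      Complex.add_re, Complex.add_re, Complex.add_re, re_inner_self, re_inner_self]
    simp
  rw [← re_inner_self, h1]

omit [InnerProductSpace ℂ H] in
theorem nsq_add_le (u v : H) : ‖u + v‖ ^ 2 ≤ 2 * ‖u‖ ^ 2 + 2 * ‖v‖ ^ 2 := by
  have h := norm_add_le u v
  have h2 : ‖u + v‖ ^ 2 ≤ (‖u‖ + ‖v‖) ^ 2 := pow_le_pow_left₀ (norm_nonneg _) h 2
  nlinarith [sq_nonneg (‖u‖ - ‖v‖)]

omit [InnerProductSpace ℂ H] in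
theorem nsq_sub_le (u v : H) : ‖u - v‖ ^ 2 ≤ 2 * ‖u‖ ^ 2 + 2 * ‖v‖ ^ 2 := by
  have := nsq_add_le u (-v)
  rwa [norm_neg, ← sub_eq_add_neg] at this

theorem rho_ineq {ι : Type*} (S : Finset ι) (η : ι → ℝ) (h0 : ∀ k, 0 ≤ η k) (h1 : ∀ k, η k ≤ 1)
    (M : ℝ) (hM : ∑ k ∈ S, η k ≤ M) :
    ∑ k ∈ S, η k ≤ (1 + M) * (1 - ∏ k ∈ S, (1 - η k)) := by
  set s := ∑ k ∈ S, η k with hs
  have hs0 : 0 ≤ s := sum_nonneg fun k _ => h0 k
  have hp : ∏ k ∈ S, (1 - η k) ≤ Real.exp (-s) := by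
    rw [hs, ← sum_neg_distrib, Real.exp_sum]
    apply prod_le_prod
    · intro k _; linarith [h1 k]
    · intro k _
      have := Real.add_one_le_exp (-η k)
      linarith
  have he : (1 + s) * Real.exp (-s) ≤ 1 := by
    have h2 := Real.add_one_le_exp s
    have h3 : Real.exp s * Real.exp (-s) = 1 := by rw [← Real.exp_add]; simp
    calc (1 + s) * Real.exp (-s) ≤ Real.exp s * Real.exp (-s) := by
          apply mul_le_mul_of_nonneg_right _ (Real.exp_pos _).le
          linarith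
      _ = 1 := h3
  have hr : 0 ≤ 1 - ∏ k ∈ S, (1 - η k) := by
    have : ∏ k ∈ S, (1 - η k) ≤ 1 := prod_le_one (fun k _ => by linarith [h1 k])
      (fun k _ => by linarith [h0 k])
    linarith
  calc s ≤ (1 + s) * (1 - ∏ k ∈ S, (1 - η k)) := by nlinarith
    _ ≤ (1 + M) * (1 - ∏ k ∈ S, (1 - η k)) := by
      apply mul_le_mul_of_nonneg_right _ hr
      linarith

section Gate3

variable {J : Type*} [Fintype J] [DecidableEq J] {f t : J → Module.End ℂ H}
    {F T : Finset J → Module.End ℂ H} {η : J → ℝ}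

theorem v_bound (D : GateData f t F T η)
    (Q : J → Module.End ℂ H) (hQ : ∀ j, IsProj (Q j)) (hQQ : ∀ i j, Commute (Q i) (Q j))
    (hQf : ∀ i j, i ≠ j → Commute (Q i) (f j)) (hQt : ∀ i j, i ≠ j → Commute (Q i) (t j))
    (b : H) (hb : ∀ j, f j b = b) (x : J → ℂ) (S : Finset J) :
    ‖∑ j ∈ S, x j • (eth T Q b j + epp T Q b j)‖ ^ 2
      ≤ (4 * (∑ j, η j) + 2) * ∑ j ∈ S, ‖x j‖ ^ 2 * ‖eth T Q b j + epp T Q b j‖ ^ 2 := by
  set E := ∑ j, η j with hE
  have hE0 : 0 ≤ E := sum_nonneg fun k _ => D.η_nonneg k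
  have hsum : ∑ j ∈ S, x j • (eth T Q b j + epp T Q b j)
      = (∑ j ∈ S, x j • eth T Q b j) + ∑ j ∈ S, x j • epp T Q b j := by
    rw [← sum_add_distrib]; simp only [smul_add]
  have horth : ⟪∑ j ∈ S, x j • eth T Q b j, ∑ j ∈ S, x j • epp T Q b j⟫_ℂ = 0 := by
    rw [sum_inner]
    apply sum_eq_zero; intro j _
    rw [inner_sum]
    apply sum_eq_zero; intro m _
    rw [inner_smul_left, inner_smul_right, eth_epp_orth D]
    simp
  have hej : ∀ j, ‖eth T Q b j + epp T Q b j‖ ^ 2 = ‖eth T Q b j‖ ^ 2 + ‖epp T Q b j‖ ^ 2 :=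
    fun j => nsq_add_orth _ _ (eth_epp_orth D Q b j j)
  rw [hsum, nsq_add_orth _ _ horth]
  have hpp : ‖∑ j ∈ S, x j • epp T Q b j‖ ^ 2 = ∑ j ∈ S, ‖x j‖ ^ 2 * ‖epp T Q b j‖ ^ 2 := by
    rw [orth_sum]
    · apply sum_congr rfl; intro j _; rw [norm_smul, mul_pow]
    · intro j _ m _ hjm
      rw [inner_smul_left, inner_smul_right, epp_orth D Q hQt b j m hjm]; simp
  -- heavy / light
  set Hv := S.filter fun j => 1 / 2 < η j with hHv
  set Lt := S.filter fun j => ¬ (1 / 2 < η j) with hLt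
  have hsplit : ∑ j ∈ S, x j • eth T Q b j
      = (∑ j ∈ Hv, x j • eth T Q b j) + ∑ j ∈ Lt, x j • eth T Q b j :=
    (sum_filter_add_sum_filter_not S (fun j => 1 / 2 < η j) _).symm
  have hHvcard : (Hv.card : ℝ) ≤ 2 * E := by
    have h1 : ∑ j ∈ Hv, (1 / 2 : ℝ) ≤ ∑ j ∈ Hv, η j :=
      sum_le_sum fun j hj => (mem_filter.1 hj).2.le
    have h2 : ∑ j ∈ Hv, η j ≤ E :=
      sum_le_sum_of_subset_of_nonneg (subset_univ _) fun j _ _ => D.η_nonneg j
    rw [sum_const, nsmul_eq_mul] at h1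
    linarith
  have hheavy : ‖∑ j ∈ Hv, x j • eth T Q b j‖ ^ 2
      ≤ (2 * E) * ∑ j ∈ Hv, ‖x j‖ ^ 2 * ‖eth T Q b j‖ ^ 2 := by
    calc ‖∑ j ∈ Hv, x j • eth T Q b j‖ ^ 2
        ≤ (Hv.card : ℝ) * ∑ j ∈ Hv, ‖x j • eth T Q b j‖ ^ 2 := heavy_sum _ _
      _ = (Hv.card : ℝ) * ∑ j ∈ Hv, ‖x j‖ ^ 2 * ‖eth T Q b j‖ ^ 2 := by
        simp only [norm_smul, mul_pow]
      _ ≤ _ := by
        apply mul_le_mul_of_nonneg_right hHvcard
        exact sum_nonneg fun j _ => by positivity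
  have hlight : ‖∑ j ∈ Lt, x j • eth T Q b j‖ ^ 2
      ≤ ∑ j ∈ Lt, ‖x j‖ ^ 2 * ‖eth T Q b j‖ ^ 2
        + 2 * (E * ∑ j ∈ Lt, ‖x j‖ ^ 2 * ‖epp T Q b j‖ ^ 2) := by
    have h1 := light_sum Lt (fun j => x j • eth T Q b j)
      (fun j => √(η j) * (‖x j‖ * ‖epp T Q b j‖)) (by
        intro j hj m hm hjm
        have hj2 : η j ≤ 1 / 2 := not_lt.1 (mem_filter.1 hj).2
        have hm2 : η m ≤ 1 / 2 := not_lt.1 (mem_filter.1 hm).2
        have hc := cross D Q hQ hQQ hQf hQt b hb j m hjm hj2 hm2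
        rw [inner_smul_left, inner_smul_right, norm_mul, norm_mul, RCLike.norm_conj]
        calc ‖x j‖ * (‖x m‖ * ‖⟪eth T Q b j, eth T Q b m⟫_ℂ‖)
            ≤ ‖x j‖ * (‖x m‖ * (2 * (√(η j) * ‖epp T Q b j‖) * (√(η m) * ‖epp T Q b m‖))) := by
              gcongr
          _ = _ := by ring)
    have h2 : (∑ j ∈ Lt, √(η j) * (‖x j‖ * ‖epp T Q b j‖)) ^ 2
        ≤ (∑ j ∈ Lt, √(η j) ^ 2) * ∑ j ∈ Lt, (‖x j‖ * ‖epp T Q b j‖) ^ 2 :=
      sum_mul_sq_le_sq_mul_sq _ _ _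
    have h3 : ∑ j ∈ Lt, √(η j) ^ 2 ≤ E := by
      calc ∑ j ∈ Lt, √(η j) ^ 2 = ∑ j ∈ Lt, η j :=
            sum_congr rfl fun j _ => Real.sq_sqrt (D.η_nonneg j)
        _ ≤ E := sum_le_sum_of_subset_of_nonneg (subset_univ _) fun j _ _ => D.η_nonneg j
    have h4 : (∑ j ∈ Lt, √(η j) ^ 2) * ∑ j ∈ Lt, (‖x j‖ * ‖epp T Q b j‖) ^ 2
        ≤ E * ∑ j ∈ Lt, (‖x j‖ * ‖epp T Q b j‖) ^ 2 :=
      mul_le_mul_of_nonneg_right h3 (sum_nonneg fun j _ => by positivity)
    have h5 : ∑ j ∈ Lt, (‖x j‖ * ‖epp T Q b j‖) ^ 2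
        = ∑ j ∈ Lt, ‖x j‖ ^ 2 * ‖epp T Q b j‖ ^ 2 := by simp only [mul_pow]
    rw [h5] at h4 h2
    simp only [norm_smul, mul_pow ‖_‖] at h1
    linarith
  have htot := nsq_add_le (∑ j ∈ Hv, x j • eth T Q b j) (∑ j ∈ Lt, x j • eth T Q b j)
  rw [← hsplit] at htot
  have s1 : ∑ j ∈ S, ‖x j‖ ^ 2 * ‖eth T Q b j‖ ^ 2
      = (∑ j ∈ Hv, ‖x j‖ ^ 2 * ‖eth T Q b j‖ ^ 2) + ∑ j ∈ Lt, ‖x j‖ ^ 2 * ‖eth T Q b j‖ ^ 2 :=
    (sum_filter_add_sum_filter_not S (fun j => 1 / 2 < η j) _).symm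
  have s2 : ∑ j ∈ Lt, ‖x j‖ ^ 2 * ‖epp T Q b j‖ ^ 2 ≤ ∑ j ∈ S, ‖x j‖ ^ 2 * ‖epp T Q b j‖ ^ 2 :=
    sum_le_sum_of_subset_of_nonneg (filter_subset _ _) fun j _ _ => by positivity
  have s3 : ∑ j ∈ S, ‖x j‖ ^ 2 * ‖eth T Q b j + epp T Q b j‖ ^ 2
      = (∑ j ∈ S, ‖x j‖ ^ 2 * ‖eth T Q b j‖ ^ 2) + ∑ j ∈ S, ‖x j‖ ^ 2 * ‖epp T Q b j‖ ^ 2 := by
    rw [← sum_add_distrib]
    exact sum_congr rfl fun j _ => by rw [hej]; ring
  rw [hpp, s3, s1]
  have p1 : 0 ≤ ∑ j ∈ Hv, ‖x j‖ ^ 2 * ‖eth T Q b j‖ ^ 2 := sum_nonneg fun j _ => by positivity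
  have p2 : 0 ≤ ∑ j ∈ Lt, ‖x j‖ ^ 2 * ‖eth T Q b j‖ ^ 2 := sum_nonneg fun j _ => by positivity
  have p3 : 0 ≤ ∑ j ∈ S, ‖x j‖ ^ 2 * ‖epp T Q b j‖ ^ 2 := sum_nonneg fun j _ => by positivity
  have q1 := mul_nonneg hE0 p2
  have q2 := mul_le_mul_of_nonneg_left s2 hE0
  nlinarith

/-- `4 ρ_j ‖e_j‖² ≤ ‖Q_j R b'‖²` -/
theorem rho_bound (D : GateData f t F T η)
    (Q : J → Module.End ℂ H) (hQf : ∀ i j, i ≠ j → Commute (Q i) (f j))
    (hQt : ∀ i j, i ≠ j → Commute (Q i) (t j))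
    (b : H) (hb : ∀ j, f j b = b) (j : J) :
    4 * (1 - ∏ k ∈ univ.erase j, (1 - η k)) * ‖eth T Q b j + epp T Q b j‖ ^ 2
      ≤ ‖Q j (refl (T univ) b)‖ ^ 2 := by
  set e := eth T Q b j + epp T Q b j with he
  have hTe : T (univ.erase j) e = e := by
    rw [he, map_add]
    congr 1
    · exact D.hT.fix _ _ fun k _ => eth_t D Q b j k
    · exact D.hT.fix _ _ fun k hk => epp_t D Q hQt b j k (ne_of_mem_erase hk)
  have hFQ : F (univ.erase j) (Q j b) = Q j b := by
    apply D.hF.fix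
    intro k hk
    have hc := hQf j k (ne_of_mem_erase hk).symm
    have := congrArg (fun L : Module.End ℂ H => L b) hc.eq
    simp only [Module.End.mul_apply, hb] at this
    exact this.symm
  have h1 : ‖(1 - F (univ.erase j)) e‖ ^ 2
      = (1 - ∏ k ∈ univ.erase j, (1 - η k)) * ‖e‖ ^ 2 := by
    have h2 := D.TFT (univ.erase j)
    apply pair_nsq_compl (D.Fproj _) (D.Tproj _) _ e hTe
    rw [h2]; norm_num
  have h3 : (1 - F (univ.erase j)) (refl (T univ) (Q j (refl (T univ) b)))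
      = -((2 : ℂ) • (1 - F (univ.erase j)) e) := by
    rw [refl_decomp, ← he, map_sub, map_smul]
    have : (1 - F (univ.erase j)) (Q j b) = 0 := by
      simp [hFQ]
    rw [this, zero_sub]
  have h4 := (D.Fproj (univ.erase j)).compl.nsq_le (refl (T univ) (Q j (refl (T univ) b)))
  rw [h3, norm_neg, norm_smul, mul_pow, h1, refl_norm (D.Tproj univ)] at h4
  have h5 : ‖(2 : ℂ)‖ = 2 := by simp
  rw [h5] at h4
  linarith

end Gate3

/-- M1 (file CovQ.lean) -/
theorem covQ {J : Type*} [Fintype J] [DecidableEq J] {f t : J → Module.End ℂ H}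
    {F T : Finset J → Module.End ℂ H} {η : J → ℝ} (D : GateData f t F T η)
    (Q : J → Module.End ℂ H) (hQ : ∀ j, IsProj (Q j)) (hQQ : ∀ i j, Commute (Q i) (Q j))
    (hQf : ∀ i j, i ≠ j → Commute (Q i) (f j)) (hQt : ∀ i j, i ≠ j → Commute (Q i) (t j))
    (b : H) (hb : chi (F univ) (T univ) b = b) (x : J → ℂ) :
    ‖(1 - chi (F univ) (T univ)) (∑ j, x j • Q j b)‖ ^ 2
      ≤ lam (∑ j, η j) * ∑ j, ‖x j‖ ^ 2 * ‖Q j b‖ ^ 2 := by
  have hT := D.Tproj univ
  set R := refl (T univ) with hR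
  set b' := R b with hb'
  have hRb' : R b' = b := refl_app hT b
  have hFb' : F univ b' = b' := by
    have h1 : R (F univ (R b)) = b := by
      simpa [chi, Module.End.mul_apply] using hb
    have h2 := congrArg (fun v => R v) h1
    simp only [hR] at h2
    rw [refl_app hT] at h2
    exact h2
  have hfb' : ∀ j, f j b' = b' := by
    intro j
    rw [← hFb']
    exact D.hF.absorb_app D.hf (mem_univ j) _
  set E := ∑ j, η j with hE
  have hE0 : 0 ≤ E := sum_nonneg fun k _ => D.η_nonneg k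
  set e : J → H := fun j => eth T Q b' j + epp T Q b' j with he
  set z : H := ∑ j, x j • R (Q j b) with hz
  have hdec : ∀ j, R (Q j b) = Q j b' - (2 : ℂ) • e j := by
    intro j
    have := refl_decomp (T := T) (Q := Q) b' j
    rw [← hR, hRb'] at this
    exact this
  have hLHS : ‖(1 - chi (F univ) (T univ)) (∑ j, x j • Q j b)‖ = ‖(1 - F univ) z‖ := by
    have h1 : (1 - chi (F univ) (T univ)) (∑ j, x j • Q j b)
        = R ((1 - F univ) (R (∑ j, x j • Q j b))) := by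
      simp only [chi, LinearMap.sub_apply, Module.End.one_apply, Module.End.mul_apply, map_sub]
      rw [← hR, hR, refl_app hT]
    rw [h1, hR, refl_norm hT, map_sum]
    simp only [map_smul, hz, hR]
  rw [hLHS]
  have hunion := D.hF.union_bound D.hf D.hff univ z
  refine hunion.trans ?_
  -- each term
  have hterm : ∀ k, ‖(1 - f k) z‖ ^ 2 ≤ 2 * (‖x k‖ ^ 2 * ‖Q k b‖ ^ 2)
      + 8 * (η k * ((4 * E + 2) * ∑ j ∈ univ.erase k, ‖x j‖ ^ 2 * ‖e j‖ ^ 2)) := by
    intro k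
    set v : H := ∑ j ∈ univ.erase k, x j • e j with hv
    have hfv : t k v = v := by
      rw [hv, map_sum]
      apply sum_congr rfl
      intro j hj
      rw [map_smul]
      congr 1
      simp only [he, map_add]
      rw [eth_t D, epp_t D Q hQt b' j k (ne_of_mem_erase hj).symm]
    have hyk : (1 - f k) z = (1 - f k) (x k • R (Q k b)) - (2 : ℂ) • (1 - f k) v := by
      have h1 : z = x k • R (Q k b) + ∑ j ∈ univ.erase k, x j • R (Q j b) := by
        rw [hz]; exact (add_sum_erase univ _ (mem_univ k)).symm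
      rw [h1, map_add]
      have h2 : (1 - f k) (∑ j ∈ univ.erase k, x j • R (Q j b)) = -((2 : ℂ) • (1 - f k) v) := by
        rw [hv, map_sum, map_sum, smul_sum, ← sum_neg_distrib]
        apply sum_congr rfl
        intro j hj
        have hjk := ne_of_mem_erase hj
        have h3 : (1 - f k) (Q j b') = 0 := by
          have hc := hQf j k hjk
          have := congrArg (fun L : Module.End ℂ H => L b') hc.eq
          simp only [Module.End.mul_apply, hfb'] at this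
          simp [← this]
        rw [map_smul, map_smul, hdec, map_sub, map_smul, h3]
        module
      rw [h2, ← sub_eq_add_neg]
    have h4 := nsq_sub_le ((1 - f k) (x k • R (Q k b))) ((2 : ℂ) • (1 - f k) v)
    rw [← hyk] at h4
    have h5 : ‖(1 - f k) (x k • R (Q k b))‖ ^ 2 ≤ ‖x k‖ ^ 2 * ‖Q k b‖ ^ 2 := by
      refine ((D.hf k).compl.nsq_le _).trans ?_
      rw [norm_smul, mul_pow, hR, refl_norm hT]
    have h6 : ‖(2 : ℂ) • (1 - f k) v‖ ^ 2 = 4 * (η k * ‖v‖ ^ 2) := by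
      rw [norm_smul, mul_pow, pair_nsq_compl (D.hf k) (D.ht k) (D.tft k) v hfv]
      simp only [Complex.norm_ofNat]
      ring
    have h7 : ‖v‖ ^ 2 ≤ (4 * E + 2) * ∑ j ∈ univ.erase k, ‖x j‖ ^ 2 * ‖e j‖ ^ 2 :=
      v_bound D Q hQ hQQ hQf hQt b' hfb' x (univ.erase k)
    have h8 := mul_le_mul_of_nonneg_left h7 (D.η_nonneg k)
    linarith
  refine (sum_le_sum fun k _ => hterm k).trans ?_
  rw [sum_add_distrib, ← mul_sum, ← mul_sum]
  -- exchange of summation
  have hex : ∑ k, η k * ((4 * E + 2) * ∑ j ∈ univ.erase k, ‖x j‖ ^ 2 * ‖e j‖ ^ 2)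
      = (4 * E + 2) * ∑ j, (∑ k ∈ univ.erase j, η k) * (‖x j‖ ^ 2 * ‖e j‖ ^ 2) := by
    have h1 : ∀ k, η k * ((4 * E + 2) * ∑ j ∈ univ.erase k, ‖x j‖ ^ 2 * ‖e j‖ ^ 2)
        = (4 * E + 2) * ∑ j, (if j = k then 0 else η k * (‖x j‖ ^ 2 * ‖e j‖ ^ 2)) := by
      intro k
      have h2 : ∑ j, (if j = k then 0 else η k * (‖x j‖ ^ 2 * ‖e j‖ ^ 2))
          = η k * ∑ j ∈ univ.erase k, ‖x j‖ ^ 2 * ‖e j‖ ^ 2 := by
        rw [← add_sum_erase univ _ (mem_univ k), if_pos rfl, zero_add, mul_sum]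
        apply sum_congr rfl
        intro j hj
        rw [if_neg (ne_of_mem_erase hj)]
      rw [h2]; ring
    rw [sum_congr rfl fun k _ => h1 k, ← mul_sum, sum_comm]
    congr 1
    apply sum_congr rfl
    intro j _
    rw [← add_sum_erase univ _ (mem_univ j), if_pos rfl, zero_add, sum_mul]
    apply sum_congr rfl
    intro k hk
    rw [if_neg (ne_of_mem_erase hk).symm]
  rw [hex]
  have hj : ∀ j, (∑ k ∈ univ.erase j, η k) * (‖x j‖ ^ 2 * ‖e j‖ ^ 2)
      ≤ (1 + E) / 4 * (‖x j‖ ^ 2 * ‖Q j b‖ ^ 2) := by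
    intro j
    have h1 : ∑ k ∈ univ.erase j, η k ≤ (1 + E) * (1 - ∏ k ∈ univ.erase j, (1 - η k)) := by
      apply rho_ineq _ _ D.η_nonneg D.η_le
      exact sum_le_sum_of_subset_of_nonneg (subset_univ _) fun j _ _ => D.η_nonneg j
    have h2 := rho_bound D Q hQf hQt b' hfb' j
    rw [← hR, hRb'] at h2
    have h3 : (∑ k ∈ univ.erase j, η k) * ‖e j‖ ^ 2
        ≤ (1 + E) * (1 - ∏ k ∈ univ.erase j, (1 - η k)) * ‖e j‖ ^ 2 :=
      mul_le_mul_of_nonneg_right h1 (sq_nonneg _)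
    have h4 : (1 + E) * (4 * (1 - ∏ k ∈ univ.erase j, (1 - η k)) * ‖e j‖ ^ 2)
        ≤ (1 + E) * ‖Q j b‖ ^ 2 := mul_le_mul_of_nonneg_left h2 (by linarith)
    have h5 : (∑ k ∈ univ.erase j, η k) * ‖e j‖ ^ 2 ≤ (1 + E) / 4 * ‖Q j b‖ ^ 2 := by
      linarith
    have h6 := mul_le_mul_of_nonneg_left h5 (sq_nonneg ‖x j‖)
    linarith
  have hsum := sum_le_sum fun j (_ : j ∈ univ) => hj j
  rw [← mul_sum] at hsum
  have hfin := mul_le_mul_of_nonneg_left hsum (by linarith : (0 : ℝ) ≤ 4 * E + 2)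
  unfold lam
  have : 8 * ((4 * E + 2) * ((1 + E) / 4 * ∑ j, ‖x j‖ ^ 2 * ‖Q j b‖ ^ 2))
      = 4 * (1 + 2 * E) * (1 + E) * ∑ j, ‖x j‖ ^ 2 * ‖Q j b‖ ^ 2 := by ring
  linarith

end

end Vale.Agent.P368
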