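import Mathlib

/-!
# P368: QAC circuits and their parity correlation

Definitions exactly as in the problem file.  A computational basis state of `N` qubits is a
function `Fin N → Bool`; operators are matrices indexed by basis states.
-/

namespace Vale.Agent.P368

open scoped BigOperators

/-- Computational basis states of `N` qubits. -/
abbrev Basis (N : ℕ) := Fin N → Bool

/-- A gate on `N` qubits: a one-qubit unitary `U` on qubit `q`, or the generalized Toffoli gate with
set of controls `S` and target `b`. -/
inductive Gate (N : ℕ)
  | single (q : Fin N) (U : Matrix Bool Bool ℂ)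
  | toffoli (S : Finset (Fin N)) (b : Fin N)

namespace Gate

variable {N : ℕ}

/-- Validity: one-qubit gates are unitary; a generalized Toffoli gate has at least one control and
its target is not a control. -/
def Valid : Gate N → Prop
  | single _ U => U ∈ Matrix.unitaryGroup Bool ℂ
  | toffoli S b => S.Nonempty ∧ b ∉ S

/-- The set of qubits a gate acts on. -/
def support : Gate N → Finset (Fin N)
  | single q _ => {q}
  | toffoli S b => insert b S

/-- Is the gate a multiqubit gate? -/
def isMulti : Gate N → Bool
  | single _ _ => false
  | toffoli _ _ => true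

/-- The classical map `|z_S, z_b⟩ ↦ |z_S, z_b ⊕ ∏_{i ∈ S} z_i⟩`. -/
def toffoliMap (S : Finset (Fin N)) (b : Fin N) (z : Basis N) : Basis N :=
  if ∀ i ∈ S, z i = true then Function.update z b (!(z b)) else z

/-- The matrix of a gate in the computational basis. -/
noncomputable def mat : Gate N → Matrix (Basis N) (Basis N) ℂ
  | single q U => fun z y => if ∀ i, i ≠ q → z i = y i then U (z q) (y q) else 0
  | toffoli S b => fun z y => if z = toffoliMap S b y then 1 else 0

end Gate

/-- A layer is a list of gates; a circuit is a list of layers (the head acts first). -/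
abbrev Layer (N : ℕ) := List (Gate N)

/-- A circuit is a list of layers (the head acts first). -/
abbrev Circuit (N : ℕ) := List (Layer N)

/-- A valid layer: valid gates with pairwise disjoint supports. -/
def Layer.Valid {N : ℕ} (l : Layer N) : Prop :=
  (∀ g ∈ l, g.Valid) ∧ l.Pairwise (fun g g' => Disjoint g.support g'.support)

/-- A valid circuit: every layer is valid. -/
def Circuit.Valid {N : ℕ} (c : Circuit N) : Prop := ∀ l ∈ c, Layer.Valid l

/-- Entangling depth: the number of layers containing a multiqubit gate. -/
def Circuit.entDepth {N : ℕ} (c : Circuit N) : ℕ := c.countP (fun l => l.any Gate.isMulti)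

/-- The unitary of a layer. -/
noncomputable def Layer.mat {N : ℕ} (l : Layer N) : Matrix (Basis N) (Basis N) ℂ :=
  (l.map Gate.mat).prod

/-- The unitary of a circuit (first layer applied first). -/
noncomputable def Circuit.mat {N : ℕ} (c : Circuit N) : Matrix (Basis N) (Basis N) ℂ :=
  ((c.map Layer.mat).reverse).prod

/-- The initial basis state `|x⟩ ⊗ |0⟩^{⊗(N-n)}`; the input sits on the first `n` qubits. -/
def initBasis {n : ℕ} (N : ℕ) (x : Fin n → Bool) : Basis N :=
  fun i => if h : i.val < n then x ⟨i.val, h⟩ else false

/-- Final state of circuit `c` on input `x`. -/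
noncomputable def finalState {N n : ℕ} (c : Circuit N) (x : Fin n → Bool) : Basis N → ℂ :=
  fun z => c.mat z (initBasis N x)

/-- Probability that measuring qubit `o` at the end gives `r`. -/
noncomputable def outProb {N n : ℕ} (c : Circuit N) (o : Fin N) (x : Fin n → Bool) (r : Bool) : ℝ :=
  ∑ z : Basis N, if z o = r then ‖finalState c x z‖ ^ 2 else 0

/-- `PAR_n(x)`: is the number of ones odd? -/
def par {n : ℕ} (x : Fin n → Bool) : Bool :=
  decide (Odd (Finset.univ.filter (fun i => x i = true)).card)

/-- Parity correlation: average over uniform `x` of `Pr[correct] - Pr[wrong]`. -/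
noncomputable def parityCorr {N : ℕ} (n : ℕ) (c : Circuit N) (o : Fin N) : ℝ :=
  (∑ x : Fin n → Bool, (outProb c o x (par x) - outProb c o x (!(par x)))) / 2 ^ n

/-- `c` computes `PAR_n` with worst-case advantage `ε`. -/
def ComputesParity {N : ℕ} (n : ℕ) (c : Circuit N) (o : Fin N) (ε : ℝ) : Prop :=
  ∀ x : Fin n → Bool, 1 / 2 + ε ≤ outProb c o x (par x)

end Vale.Agent.P368
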