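import Vale.Agent.Lib.P368.CovQ

/-!
P368, module M2: Lemma R and Lemma P for one row.
-/

namespace Vale.Agent.P368

open scoped InnerProductSpace
open Finset

noncomputable section

variable {H : Type*} [NormedAddCommGroup H] [InnerProductSpace ℂ H]

theorem chi_isProj {J : Type*} [Fintype J] [DecidableEq J] {f t : J → Module.End ℂ H}
    {F T : Finset J → Module.End ℂ H} {η : J → ℝ} (D : GateData f t F T η) (s : Finset J) :
    IsProj (chi (F s) (T s)) := by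
  have hR := refl_mul_self (D.Tproj s)
  refine ⟨?_, ?_⟩
  · unfold chi
    calc refl (T s) * F s * refl (T s) * (refl (T s) * F s * refl (T s))
        = refl (T s) * F s * (refl (T s) * refl (T s)) * F s * refl (T s) := by noncomm_ring
      _ = refl (T s) * (F s * F s) * refl (T s) := by rw [hR]; noncomm_ring
      _ = _ := by rw [(D.Fproj s).idem]
  · intro x y
    unfold chi
    simp only [Module.End.mul_apply]
    rw [refl_symm (D.Tproj s), (D.Fproj s).symm, refl_symm (D.Tproj s)]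

/-- from `m ≤ sqrt (l m) k` style estimates -/
theorem le_of_sq_le_mul {m l : ℝ} (hm : 0 ≤ m) (hl : 0 ≤ l) (h : m ^ 2 ≤ m * l) : m ≤ l := by
  rcases hm.eq_or_lt with h0 | h0
  · rw [← h0]; exact hl
  · nlinarith

/-- M2a (file LemRP.lean) -/
theorem lemR {J : Type*} [Fintype J] [DecidableEq J] {f t : J → Module.End ℂ H}
    {F T : Finset J → Module.End ℂ H} {η : J → ℝ} (D : GateData f t F T η)
    (Q : J → Module.End ℂ H) (hQ : ∀ j, IsProj (Q j)) (hQQ : ∀ i j, Commute (Q i) (Q j))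
    (hQf : ∀ i j, i ≠ j → Commute (Q i) (f j)) (hQt : ∀ i j, i ≠ j → Commute (Q i) (t j))
    (w : H) (hw : ∀ j, Q j w = 0) :
    ∑ j, ‖Q j (chi (F univ) (T univ) w)‖ ^ 2
      ≤ lam (∑ j, η j) * ‖(1 - chi (F univ) (T univ)) w‖ ^ 2 := by
  have hχ := chi_isProj D univ
  set χ := chi (F univ) (T univ) with hχd
  set b := χ w with hb
  have hχb : χ b = b := hχ.app w
  have hE0 : 0 ≤ ∑ j, η j := sum_nonneg fun k _ => D.η_nonneg k
  have hlam : 0 ≤ lam (∑ j, η j) := by unfold lam; positivity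
  set m := ∑ j, ‖Q j b‖ ^ 2 with hm
  have hm0 : 0 ≤ m := sum_nonneg fun j _ => by positivity
  have hcov := covQ D Q hQ hQQ hQf hQt b hχb (fun _ => 1)
  simp only [one_smul, norm_one, one_pow, one_mul] at hcov
  rw [← hχd, ← hm] at hcov
  set z := ∑ j, Q j b with hz
  have h1 : m = (⟪z, b⟫_ℂ).re := by
    rw [hz, sum_inner, Complex.re_sum, hm]
    exact sum_congr rfl fun j _ => (hQ j).nsq b
  have h2 : ⟪z, w⟫_ℂ = 0 := by
    rw [hz, sum_inner]
    apply sum_eq_zero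
    intro j _
    rw [(hQ j).symm, hw j, inner_zero_right]
  have h3 : b = w - (1 - χ) w := by
    simp [hb]
  have h4 : ⟪z, b⟫_ℂ = -⟪(1 - χ) z, (1 - χ) w⟫_ℂ := by
    rw [h3, inner_sub_right, h2, zero_sub, hχ.compl.symm, hχ.compl.app]
  have h5 : m ≤ ‖(1 - χ) z‖ * ‖(1 - χ) w‖ := by
    rw [h1, h4]
    calc (-⟪(1 - χ) z, (1 - χ) w⟫_ℂ).re ≤ ‖-⟪(1 - χ) z, (1 - χ) w⟫_ℂ‖ := Complex.re_le_norm _
      _ = ‖⟪(1 - χ) z, (1 - χ) w⟫_ℂ‖ := norm_neg _
      _ ≤ _ := norm_inner_le_norm _ _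
  have h6 : m ^ 2 ≤ m * (lam (∑ j, η j) * ‖(1 - χ) w‖ ^ 2) := by
    calc m ^ 2 ≤ (‖(1 - χ) z‖ * ‖(1 - χ) w‖) ^ 2 := pow_le_pow_left₀ hm0 h5 2
      _ = ‖(1 - χ) z‖ ^ 2 * ‖(1 - χ) w‖ ^ 2 := by ring
      _ ≤ (lam (∑ j, η j) * m) * ‖(1 - χ) w‖ ^ 2 :=
        mul_le_mul_of_nonneg_right hcov (sq_nonneg _)
      _ = _ := by ring
  exact le_of_sq_le_mul hm0 (by positivity) h6

/-- M2b (file LemRP.lean) -/
theorem lemP [FiniteDimensional ℂ H] {J : Type*} [Fintype J] [DecidableEq J]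
    {f t : J → Module.End ℂ H}
    {F T : Finset J → Module.End ℂ H} {η : J → ℝ} (D : GateData f t F T η)
    (v : J → Module.End ℂ H) (hv : ∀ j, IsProj (v j)) (hvv : ∀ i j, Commute (v i) (v j))
    (hvf : ∀ i j, i ≠ j → Commute (v i) (f j)) (hvt : ∀ i j, i ≠ j → Commute (v i) (t j))
    (ε : J → ℝ)
    (hε : ∀ j, chi (F univ) (T univ) * v j * chi (F univ) (T univ)
      = ((ε j : ℝ) : ℂ) • chi (F univ) (T univ))
    (hs : ∀ j k, ∃ s : ℂ, chi (F univ) (T univ) * (v j * v k) * chi (F univ) (T univ)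
      = s • chi (F univ) (T univ))
    (κ : H) (hκ : chi (F univ) (T univ) κ = 0) (a : J → ℝ) (ha : ∀ j, 0 ≤ a j)
    (haε : ∀ j, a j * ε j ≤ 1) :
    ∑ j, a j * ‖chi (F univ) (T univ) (v j κ)‖ ^ 2 ≤ lam (∑ j, η j) * ‖κ‖ ^ 2 := by
  have hχ := chi_isProj D univ
  set χ := chi (F univ) (T univ) with hχd
  have hE0 : 0 ≤ ∑ j, η j := sum_nonneg fun k _ => D.η_nonneg k
  have hlam : 0 ≤ lam (∑ j, η j) := by unfold lam; positivity
  set Λ := lam (∑ j, η j) with hΛ
  choose s hs using hs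
  set G : J → J → ℂ := fun j k => s j k - (ε j : ℂ) * (ε k : ℂ) with hG
  have hGop : ∀ j k, χ * v j * (1 - χ) * v k * χ = G j k • χ := by
    intro j k
    calc χ * v j * (1 - χ) * v k * χ
        = χ * (v j * v k) * χ - χ * v j * χ * v k * χ := by noncomm_ring
      _ = χ * (v j * v k) * χ - χ * v j * (χ * χ) * v k * χ := by rw [hχ.idem]
      _ = χ * (v j * v k) * χ - (χ * v j * χ) * (χ * v k * χ) := by noncomm_ring
      _ = G j k • χ := by
        rw [hs, hε, hε, smul_mul_smul_comm, hχ.idem, hG, sub_smul]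
  -- the Gram identity
  have hgram : ∀ c : J → H, (∀ j, χ (c j) = c j) →
      ‖(1 - χ) (∑ j, v j (c j))‖ ^ 2 = (∑ j, ∑ k, G j k * ⟪c j, c k⟫_ℂ).re := by
    intro c hc
    rw [map_sum, nsq_sum, Complex.re_sum]
    apply sum_congr rfl; intro j _
    rw [Complex.re_sum]
    apply sum_congr rfl; intro k _
    congr 1
    rw [hχ.compl.symm, hχ.compl.app, (hv j).symm]
    conv_lhs => rw [← hc j, hχ.symm, ← hc k]
    have := congrArg (fun L : Module.End ℂ H => L (c k)) (hGop j k)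
    simp only [Module.End.mul_apply, LinearMap.smul_apply] at this
    rw [hc k] at this ⊢
    rw [this, inner_smul_right]
  have hvb : ∀ (b : H), χ b = b → ∀ j, ‖v j b‖ ^ 2 = ε j * ‖b‖ ^ 2 := by
    intro b hb j
    rw [(hv j).nsq]
    have h1 : ⟪v j b, b⟫_ℂ = ⟪(χ * v j * χ) b, b⟫_ℂ := by
      simp only [Module.End.mul_apply]
      rw [hb, hχ.symm, hb]
    rw [h1, hε, LinearMap.smul_apply, hb, inner_smul_left, Complex.conj_ofReal,
      Complex.re_ofReal_mul, re_inner_self]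
  -- the vector valued inequality
  have hmat : ∀ c : J → H, (∀ j, χ (c j) = c j) →
      ‖(1 - χ) (∑ j, v j (c j))‖ ^ 2 ≤ Λ * ∑ j, ε j * ‖c j‖ ^ 2 := by
    intro c hc
    by_cases hχ0 : ∃ b : H, χ b = b ∧ ‖b‖ = 1
    · obtain ⟨b, hb, hb1⟩ := hχ0
      have hscal : ∀ x : J → ℂ, (∑ j, ∑ k, G j k * (star (x j) * x k)).re
          ≤ Λ * ∑ j, ε j * ‖x j‖ ^ 2 := by
        intro x
        have h1 := covQ D v hv hvv hvf hvt b hb x
        have h2 := hgram (fun j => x j • b) (fun j => by rw [map_smul, hb])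
        simp only [map_smul] at h2
        rw [← hχd] at h1
        simp only [map_sum, map_smul] at h1 h2
        rw [h2] at h1
        have h3 : ∀ j k, G j k * ⟪x j • b, x k • b⟫_ℂ = G j k * (star (x j) * x k) := by
          intro j k
          rw [inner_smul_left, inner_smul_right, inner_self_eq_norm_sq_to_K, hb1]
          simp
        simp only [h3] at h1
        refine h1.trans (le_of_eq ?_)
        congr 1
        apply sum_congr rfl; intro j _
        rw [hvb b hb j, hb1]; ring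
      rw [hgram c hc]
      let e := stdOrthonormalBasis ℂ H
      have h4 : ∀ j k, G j k * ⟪c j, c k⟫_ℂ
          = ∑ i, G j k * (star (⟪e i, c j⟫_ℂ) * ⟪e i, c k⟫_ℂ) := by
        intro j k
        rw [← mul_sum, ← e.sum_inner_mul_inner (c j) (c k)]
        congr 1
        apply sum_congr rfl; intro i _
        rw [RCLike.star_def, inner_conj_symm]
      have h5 : (∑ j, ∑ k, G j k * ⟪c j, c k⟫_ℂ)
          = ∑ i, ∑ j, ∑ k, G j k * (star (⟪e i, c j⟫_ℂ) * ⟪e i, c k⟫_ℂ) := by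
        simp only [h4]
        rw [sum_comm (s := (univ : Finset (Fin (Module.finrank ℂ H))))]
        apply sum_congr rfl; intro j _
        exact sum_comm
      rw [h5, Complex.re_sum]
      calc ∑ i, (∑ j, ∑ k, G j k * (star (⟪e i, c j⟫_ℂ) * ⟪e i, c k⟫_ℂ)).re
          ≤ ∑ i, Λ * ∑ j, ε j * ‖⟪e i, c j⟫_ℂ‖ ^ 2 :=
            sum_le_sum fun i _ => hscal fun j => ⟪e i, c j⟫_ℂ
        _ = Λ * ∑ j, ε j * ‖c j‖ ^ 2 := by
          rw [← mul_sum, sum_comm]
          congr 1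
          apply sum_congr rfl; intro j _
          rw [← mul_sum, e.sum_sq_norm_inner_right]
    · have hc0 : ∀ j, c j = 0 := by
        intro j
        by_contra hne
        apply hχ0
        have hn : 0 < ‖c j‖ := norm_pos_iff.2 hne
        refine ⟨((‖c j‖⁻¹ : ℝ) : ℂ) • c j, by rw [map_smul, hc], ?_⟩
        rw [norm_smul, Complex.norm_real, norm_inv, norm_norm, inv_mul_cancel₀ hn.ne']
      simp [hc0]
  set S := ∑ j, a j * ‖χ (v j κ)‖ ^ 2 with hS
  have hS0 : 0 ≤ S := sum_nonneg fun j _ => mul_nonneg (ha j) (sq_nonneg _)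
  set c : J → H := fun j => ((a j : ℝ) : ℂ) • χ (v j κ) with hcdef
  have hcχ : ∀ j, χ (c j) = c j := fun j => by
    simp only [hcdef, map_smul, hχ.app]
  have h1 : S = (⟪(1 - χ) (∑ j, v j (c j)), κ⟫_ℂ).re := by
    have hκ' : (1 - χ) κ = κ := by simp [hκ]
    rw [hχ.compl.symm, hκ', sum_inner, Complex.re_sum, hS]
    apply sum_congr rfl; intro j _
    rw [(hv j).symm]
    simp only [hcdef]
    rw [inner_smul_left, Complex.conj_ofReal, Complex.re_ofReal_mul, hχ.nsq]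
  have h2 : ∑ j, ε j * ‖c j‖ ^ 2 ≤ S := by
    rw [hS]
    apply sum_le_sum; intro j _
    simp only [hcdef]
    rw [norm_smul, Complex.norm_real, Real.norm_eq_abs, abs_of_nonneg (ha j), mul_pow]
    have h3 : a j * (a j * ε j) ≤ a j * 1 := mul_le_mul_of_nonneg_left (haε j) (ha j)
    nlinarith [sq_nonneg ‖χ (v j κ)‖]
  have h3 : ‖(1 - χ) (∑ j, v j (c j))‖ ^ 2 ≤ Λ * S :=
    (hmat c hcχ).trans (mul_le_mul_of_nonneg_left h2 hlam)
  have h4 : S ≤ ‖(1 - χ) (∑ j, v j (c j))‖ * ‖κ‖ := by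
    rw [h1]
    exact (Complex.re_le_norm _).trans (norm_inner_le_norm _ _)
  have h5 : S ^ 2 ≤ S * (Λ * ‖κ‖ ^ 2) := by
    calc S ^ 2 ≤ (‖(1 - χ) (∑ j, v j (c j))‖ * ‖κ‖) ^ 2 := pow_le_pow_left₀ hS0 h4 2
      _ = ‖(1 - χ) (∑ j, v j (c j))‖ ^ 2 * ‖κ‖ ^ 2 := by ring
      _ ≤ (Λ * S) * ‖κ‖ ^ 2 := mul_le_mul_of_nonneg_right h3 (sq_nonneg _)
      _ = _ := by ring
  exact le_of_sq_le_mul hS0 (by positivity) h5

end

end Vale.Agent.P368
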