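import Vale.Agent.Lib.P368.ProdOp
import Vale.Agent.Lib.P368.CovQ
import Vale.Agent.Lib.P368.LemRP

/-! P368: the site model satisfies the abstract two-layer axioms. -/

namespace Vale.Agent.P368

open scoped InnerProductSpace Kronecker
open Finset

set_option linter.unusedSectionVars false
set_option linter.deprecated false

noncomputable section

variable {ι A : Type*} [Fintype ι] [DecidableEq ι] [Fintype A] [DecidableEq A]

/-! ### generalities -/

theorem commute_disj (M M' : ι → Matrix A A ℂ) (h : ∀ q, M q = 1 ∨ M' q = 1) :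
    Commute (prodOp M) (prodOp M') := by
  apply prodOp_commute
  intro q
  rcases h q with h | h
  · rw [h]; exact Commute.one_left _
  · rw [h]; exact Commute.one_right _

theorem commute_ite_same (p p' : ι → Prop) [DecidablePred p] [DecidablePred p']
    (M : ι → Matrix A A ℂ) :
    Commute (prodOp fun q => if p q then M q else 1) (prodOp fun q => if p' q then M q else 1) := by
  apply prodOp_commute
  intro q
  by_cases h : p q
  · by_cases h' : p' q
    · simp only [if_pos h, if_pos h']; exact Commute.refl _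
    · simp only [if_neg h']; exact Commute.one_right _
  · simp only [if_neg h]; exact Commute.one_left _

theorem prodOp_ite_mul (p p' p'' : ι → Prop) [DecidablePred p] [DecidablePred p']
    [DecidablePred p''] (h : ∀ q, ¬ (p q ∧ p' q)) (h' : ∀ q, p'' q ↔ p q ∨ p' q)
    (M : ι → Matrix A A ℂ) :
    (prodOp fun q => if p'' q then M q else 1)
      = (prodOp fun q => if p q then M q else 1) * (prodOp fun q => if p' q then M q else 1) := by
  rw [prodOp_mul]
  congr 1
  funext q
  by_cases h1 : p q
  · have h2 : ¬ p' q := fun h2 => h q ⟨h1, h2⟩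
    have h3 : p'' q := (h' q).2 (Or.inl h1)
    simp [h1, h2, h3]
  · by_cases h2 : p' q
    · have h3 : p'' q := (h' q).2 (Or.inr h2)
      simp [h1, h2, h3]
    · have h3 : ¬ p'' q := fun h3 => by
        rcases (h' q).1 h3 with h | h
        · exact h1 h
        · exact h2 h
      simp [h1, h2, h3]

theorem isProj_ite (p : ι → Prop) [DecidablePred p] (M : ι → Matrix A A ℂ)
    (hM : ∀ q, (M q).IsHermitian) (hM' : ∀ q, M q * M q = M q) :
    IsProj (prodOp fun q => if p q then M q else 1) := by
  apply prodOp_isProj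
  · intro q
    by_cases h : p q
    · simp only [if_pos h]; exact hM q
    · simp only [if_neg h]; exact Matrix.isHermitian_one
  · intro q
    by_cases h : p q
    · simp only [if_pos h]; exact hM' q
    · simp only [if_neg h]; exact one_mul 1

theorem prodOp_ite_false (p : ι → Prop) [DecidablePred p] (h : ∀ q, ¬ p q)
    (M : ι → Matrix A A ℂ) : (prodOp fun q => if p q then M q else 1) = 1 := by
  rw [← prodOp_one (ι := ι) (A := A)]
  congr 1
  funext q
  simp [h q]

/-! ### scalars -/

theorem ipv_conj (u v : A → ℂ) : ipv v u = star (ipv u v) := by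
  simp only [ipv, star_sum, star_mul', star_star]
  apply Finset.sum_congr rfl
  intro a _
  ring

theorem ipv_eq_inner (u v : A → ℂ) :
    ipv u v = ⟪(WithLp.toLp 2 u : EuclideanSpace ℂ A), WithLp.toLp 2 v⟫_ℂ := by
  simp only [ipv, EuclideanSpace.inner_eq_star_dotProduct, dotProduct]
  apply Finset.sum_congr rfl
  intro a _
  simp only [Pi.star_apply]
  ring

theorem norm_toLp_eq_one (u : A → ℂ) (h : ipv u u = 1) :
    ‖(WithLp.toLp 2 u : EuclideanSpace ℂ A)‖ = 1 := by
  have h1 : ‖(WithLp.toLp 2 u : EuclideanSpace ℂ A)‖ ^ 2 = 1 := by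
    rw [← re_inner_self, ← ipv_eq_inner, h]
    simp
  nlinarith [norm_nonneg (WithLp.toLp 2 u : EuclideanSpace ℂ A)]

theorem norm_ipv_le (u v : A → ℂ) (hu : ipv u u = 1) (hv : ipv v v = 1) : ‖ipv u v‖ ≤ 1 := by
  rw [ipv_eq_inner]
  have h := norm_inner_le_norm (𝕜 := ℂ) (WithLp.toLp 2 u : EuclideanSpace ℂ A) (WithLp.toLp 2 v)
  rw [norm_toLp_eq_one u hu, norm_toLp_eq_one v hv] at h
  simpa using h

theorem vproj_mulVec (u v : A → ℂ) : (vproj u).mulVec v = ipv u v • u := by
  funext a
  simp only [vproj, Matrix.mulVec, dotProduct, Matrix.vecMulVec_apply, ipv, Pi.smul_apply,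
    smul_eq_mul, Finset.sum_mul, Pi.star_apply]
  apply Finset.sum_congr rfl
  intro b _
  ring

theorem ipv_smul_right (u v : A → ℂ) (c : ℂ) : ipv u (c • v) = c * ipv u v := by
  simp only [ipv, Pi.smul_apply, smul_eq_mul, Finset.mul_sum]
  apply Finset.sum_congr rfl
  intro b _
  ring

theorem vproj_sandwich (u v : A → ℂ) :
    vproj u * vproj v * vproj u = ((‖ipv u v‖ ^ 2 : ℝ) : ℂ) • vproj u := by
  rw [vproj_mul_mul, vproj_mulVec, ipv_smul_right, ipv_conj u v]
  congr 1
  rw [← Complex.normSq_eq_norm_sq, Complex.normSq_eq_conj_mul_self]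
  rfl

theorem ipv_nonzero_norm (u v : A → ℂ) : ‖ipv v u‖ = ‖ipv u v‖ := by
  rw [ipv_conj u v, norm_star]

/-! ### sandwich -/

/-- sitewise scalar sandwich -/
theorem prodOp_sandwich (X Y : ι → Matrix A A ℂ) (c : ι → ℝ)
    (h : ∀ q, X q * Y q * X q = ((c q : ℝ) : ℂ) • X q) :
    prodOp X * prodOp Y * prodOp X = ((∏ q, c q : ℝ) : ℂ) • prodOp X := by
  rw [prodOp_mul, prodOp_mul]
  have : (fun q => X q * Y q * X q) = fun q => ((c q : ℝ) : ℂ) • X q := by
    funext q; exact h q
  rw [this, prodOp_smul]
  congr 1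
  push_cast
  rfl

theorem ite_sandwich (p : ι → Prop) [DecidablePred p] (X Y : ι → Matrix A A ℂ) (c : ι → ℝ)
    (h : ∀ q, X q * Y q * X q = ((c q : ℝ) : ℂ) • X q) :
    (prodOp fun q => if p q then X q else 1) * (prodOp fun q => if p q then Y q else 1) *
      (prodOp fun q => if p q then X q else 1)
      = ((∏ q ∈ univ.filter p, c q : ℝ) : ℂ) • (prodOp fun q => if p q then X q else 1) := by
  rw [prodOp_sandwich _ _ (fun q => if p q then c q else 1)]
  · congr 2
    rw [Finset.prod_filter]
  · intro q
    by_cases hp : p q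
    · simp only [if_pos hp]; exact h q
    · simp [hp]

namespace SiteData

variable (S : SiteData ι A)

theorem phi_proj (hS : S.Good) (p : ι → Prop) [DecidablePred p] :
    IsProj (prodOp fun q => if p q then vproj (S.φ q) else 1) :=
  isProj_ite p (fun q => vproj (S.φ q)) (fun q => vproj_herm _)
    (fun q => vproj_idem _ (hS.φ_unit q))

theorem vt_proj (hS : S.Good) (p : ι → Prop) [DecidablePred p] :
    IsProj (prodOp fun q => if p q then vproj (S.ϑ q) else 1) :=
  isProj_ite p (fun q => vproj (S.ϑ q)) (fun q => vproj_herm _)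
    (fun q => vproj_idem _ (hS.ϑ_unit q))

theorem ops_proj (hS : S.Good) (k : Kind) (l j : ι) : IsProj (S.ops k l j) := by
  cases k with
  | f => exact S.phi_proj hS _
  | t => exact S.vt_proj hS _
  | th => exact isProj_ite _ S.θ hS.θ_herm hS.θ_idem
  | p => exact isProj_ite _ S.p hS.p_herm hS.p_idem

/-- site matrices of a kind -/
def siteMat (S : SiteData ι A) : Kind → ι → Matrix A A ℂ
  | Kind.f => fun q => vproj (S.φ q)
  | Kind.t => fun q => vproj (S.ϑ q)
  | Kind.th => S.θ
  | Kind.p => S.p

theorem ops_eq (k : Kind) (l j : ι) :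
    S.ops k l j = prodOp fun q => if S.row q = l ∧ S.col q = j then S.siteMat k q else 1 := by
  cases k <;> rfl

theorem ops_comm (k k' : Kind) (l j l' j' : ι) (h : (l, j) ≠ (l', j')) :
    Commute (S.ops k l j) (S.ops k' l' j') := by
  rw [ops_eq, ops_eq]
  apply commute_disj
  intro q
  by_cases h1 : S.row q = l ∧ S.col q = j
  · right
    rw [if_neg]
    rintro ⟨h2, h3⟩
    apply h
    rw [← h1.1, ← h1.2, h2, h3]
  · left
    rw [if_neg h1]

theorem ops_comm_same (k : Kind) (l j l' j' : ι) :
    Commute (S.ops k l j) (S.ops k l' j') := by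
  rw [ops_eq, ops_eq]
  exact commute_ite_same _ _ _

theorem row_prodFam (M : ι → Matrix A A ℂ) (l : ι) :
    ProdFam (fun j => S.cellOp M l j) (S.rowOp M l) := by
  constructor
  · apply prodOp_ite_false
    intro q h
    simp at h
  · intro j s hj
    apply prodOp_ite_mul
    · rintro q ⟨h1, h2⟩
      apply hj
      rw [← h1.2]
      exact h2.2
    · intro q
      rw [Finset.mem_insert]
      tauto

theorem col_prodFam (M : ι → Matrix A A ℂ) (j : ι) :
    ProdFam (fun l => S.cellOp M l j) (S.colOp M j) := by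
  constructor
  · apply prodOp_ite_false
    intro q h
    simp at h
  · intro l s hl
    apply prodOp_ite_mul
    · rintro q ⟨h1, h2⟩
      apply hl
      rw [← h1.1]
      exact h2.2
    · intro q
      rw [Finset.mem_insert]
      tauto

theorem eta_nonneg (hS : S.Good) (l j : ι) : 0 ≤ S.η l j := by
  unfold η
  have : ∏ q ∈ univ.filter (fun q => S.row q = l ∧ S.col q = j), ‖ipv (S.ϑ q) (S.φ q)‖ ^ 2 ≤ 1 := by
    apply Finset.prod_le_one
    · intro q _; positivity
    · intro q _
      have h1 := norm_ipv_le (S.ϑ q) (S.φ q) (hS.ϑ_unit q) (hS.φ_unit q)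
      have h2 := norm_nonneg (ipv (S.ϑ q) (S.φ q))
      nlinarith
  linarith

theorem eta_le (l j : ι) : S.η l j ≤ 1 := by
  unfold η
  have : 0 ≤ ∏ q ∈ univ.filter (fun q => S.row q = l ∧ S.col q = j),
      ‖ipv (S.ϑ q) (S.φ q)‖ ^ 2 := by
    apply Finset.prod_nonneg
    intro q _; positivity
  linarith

theorem gateData (hS : S.Good) (l : ι) :
    GateData (S.ops Kind.f l) (S.ops Kind.t l) (S.F l) (S.T l) (S.η l) where
  hf := fun j => S.ops_proj hS _ _ _
  ht := fun j => S.ops_proj hS _ _ _
  hff := fun i j => S.ops_comm_same _ _ _ _ _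
  htt := fun i j => S.ops_comm_same _ _ _ _ _
  hft := fun i j h => S.ops_comm _ _ _ _ _ _ (by
    intro h2
    exact h (Prod.mk.inj h2).2)
  hF := S.row_prodFam _ l
  hT := S.row_prodFam _ l
  η_nonneg := fun j => S.eta_nonneg hS l j
  η_le := fun j => S.eta_le l j
  tft := fun j => by
    have h := ite_sandwich (fun q => S.row q = l ∧ S.col q = j) (fun q => vproj (S.ϑ q))
      (fun q => vproj (S.φ q)) (fun q => ‖ipv (S.ϑ q) (S.φ q)‖ ^ 2)
      (fun q => vproj_sandwich _ _)
    have e : (1 - S.η l j : ℝ)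
        = ∏ q ∈ univ.filter (fun q => S.row q = l ∧ S.col q = j), ‖ipv (S.ϑ q) (S.φ q)‖ ^ 2 := by
      unfold η; ring
    rw [e]
    exact h
  ftf := fun j => by
    have h := ite_sandwich (fun q => S.row q = l ∧ S.col q = j) (fun q => vproj (S.φ q))
      (fun q => vproj (S.ϑ q)) (fun q => ‖ipv (S.ϑ q) (S.φ q)‖ ^ 2)
      (fun q => by rw [vproj_sandwich, ipv_nonzero_norm])
    have e : (1 - S.η l j : ℝ)
        = ∏ q ∈ univ.filter (fun q => S.row q = l ∧ S.col q = j), ‖ipv (S.ϑ q) (S.φ q)‖ ^ 2 := by
      unfold η; ring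
    rw [e]
    exact h

theorem F_univ_eq (l : ι) :
    S.F l univ = prodOp fun q => if S.row q = l then vproj (S.φ q) else 1 := by
  unfold F rowOp
  congr 1
  funext q
  simp

theorem T_univ_eq (l : ι) :
    S.T l univ = prodOp fun q => if S.row q = l then vproj (S.ϑ q) else 1 := by
  unfold T rowOp
  congr 1
  funext q
  simp

theorem Th_univ_eq (j : ι) :
    S.Th j univ = prodOp fun q => if S.col q = j then S.θ q else 1 := by
  unfold Th colOp
  congr 1
  funext q
  simp

theorem P_univ_eq (j : ι) :
    S.P j univ = prodOp fun q => if S.col q = j then S.p q else 1 := by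
  unfold P colOp
  congr 1
  funext q
  simp

/-- `F X F` is a multiple of `F` for row local products `X` -/
theorem FXF (l : ι) (hS : S.Good) (M : ι → Matrix A A ℂ) (hM : ∀ q, S.row q ≠ l → M q = 1) :
    ∃ s : ℂ, S.F l univ * prodOp M * S.F l univ = s • S.F l univ := by
  rw [F_univ_eq, prodOp_mul, prodOp_mul]
  refine ⟨∏ q, (if S.row q = l then ipv (S.φ q) ((M q).mulVec (S.φ q)) else 1), ?_⟩
  rw [← prodOp_smul]
  congr 1
  funext q
  by_cases h : S.row q = l
  · simp only [if_pos h]
    exact vproj_mul_mul _ _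
  · simp only [if_neg h, hM q h, one_mul, one_smul]

theorem chiXchi (hS : S.Good) (l : ι) (M : ι → Matrix A A ℂ) (hM : ∀ q, S.row q ≠ l → M q = 1) :
    ∃ s : ℂ, chi (S.F l univ) (S.T l univ) * prodOp M * chi (S.F l univ) (S.T l univ)
      = s • chi (S.F l univ) (S.T l univ) := by
  set Tm : ι → Matrix A A ℂ := fun q => if S.row q = l then vproj (S.ϑ q) else 1 with hTm
  have hT1 : ∀ q, S.row q ≠ l → Tm q = 1 := by
    intro q hq
    simp only [hTm, if_neg hq]
  obtain ⟨s1, h1⟩ := S.FXF l hS M hM
  obtain ⟨s2, h2⟩ := S.FXF l hS (fun q => Tm q * M q) (fun q hq => by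
    rw [hT1 q hq, hM q hq, one_mul])
  obtain ⟨s3, h3⟩ := S.FXF l hS (fun q => M q * Tm q) (fun q hq => by
    rw [hT1 q hq, hM q hq, one_mul])
  obtain ⟨s4, h4⟩ := S.FXF l hS (fun q => Tm q * M q * Tm q) (fun q hq => by
    rw [hT1 q hq, hM q hq, one_mul, one_mul])
  rw [← prodOp_mul] at h2 h3 h4
  rw [← prodOp_mul] at h4
  have hTeq : S.T l univ = prodOp Tm := S.T_univ_eq l
  rw [← hTeq] at h2 h3 h4
  refine ⟨s1 - 2 * s2 - 2 * s3 + 4 * s4, ?_⟩
  set F := S.F l univ
  set T := S.T l univ
  set X := prodOp M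
  unfold chi
  have e1 : F * (refl T * X * refl T) * F = (s1 - 2 * s2 - 2 * s3 + 4 * s4) • F := by
    unfold refl
    have : F * ((1 - (2 : ℂ) • T) * X * (1 - (2 : ℂ) • T)) * F
        = F * X * F - (2 : ℂ) • (F * (T * X) * F) - (2 : ℂ) • (F * (X * T) * F)
          + (4 : ℂ) • (F * (T * X * T) * F) := by
      simp only [mul_sub, sub_mul, mul_one, one_mul, mul_smul_comm, smul_mul_assoc, smul_sub,
        smul_smul, mul_assoc]
      module
    rw [this, h1, h2, h3, h4]
    module
  calc refl T * F * refl T * X * (refl T * F * refl T)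
      = refl T * (F * (refl T * X * refl T) * F) * refl T := by noncomm_ring
    _ = _ := by
      rw [e1]
      simp only [mul_smul_comm, smul_mul_assoc]

end SiteData

section realsc

variable {H : Type*} [NormedAddCommGroup H] [InnerProductSpace ℂ H]

theorem exists_real_of_symm {χ Y : Module.End ℂ H} (hχ : IsProj χ)
    (hY : ∀ x y : H, ⟪Y x, y⟫_ℂ = ⟪x, Y y⟫_ℂ)
    (h : ∃ s : ℂ, χ * Y * χ = s • χ) : ∃ s : ℝ, χ * Y * χ = (s : ℂ) • χ := by
  obtain ⟨s, hs⟩ := h
  by_cases h0 : χ = 0
  · exact ⟨0, by rw [h0]; simp⟩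
  · obtain ⟨v, hv⟩ : ∃ v, χ v ≠ 0 := by
      by_contra hcon
      push Not at hcon
      apply h0
      apply LinearMap.ext
      intro v
      simpa using hcon v
    refine ⟨s.re, ?_⟩
    set u := χ v with hu
    have hχu : χ u = u := hχ.app v
    have e1 : χ (Y u) = s • u := by
      have := congrArg (fun L : Module.End ℂ H => L u) hs
      simpa [hχu] using this
    have e2 : ⟪u, Y u⟫_ℂ = s * ⟪u, u⟫_ℂ := by
      calc ⟪u, Y u⟫_ℂ = ⟪χ u, Y u⟫_ℂ := by rw [hχu]
        _ = ⟪u, χ (Y u)⟫_ℂ := hχ.symm _ _
        _ = s * ⟪u, u⟫_ℂ := by rw [e1, inner_smul_right]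
    have e3 : (starRingEnd ℂ) ⟪u, Y u⟫_ℂ = ⟪u, Y u⟫_ℂ := by
      rw [inner_conj_symm]
      exact hY u u
    have e4 : ⟪u, u⟫_ℂ = ((‖u‖ ^ 2 : ℝ) : ℂ) := by
      rw [inner_self_eq_norm_sq_to_K]; push_cast; rfl
    have hpos : (0 : ℝ) < ‖u‖ ^ 2 := by
      have := norm_pos_iff.mpr hv
      positivity
    have e5 : (starRingEnd ℂ) s = s := by
      rw [e2, e4, map_mul, Complex.conj_ofReal] at e3
      have hne : ((‖u‖ ^ 2 : ℝ) : ℂ) ≠ 0 := by
        exact_mod_cast hpos.ne'
      exact mul_right_cancel₀ hne e3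
    have e6 : ((s.re : ℝ) : ℂ) = s := Complex.conj_eq_iff_re.mp e5
    rw [e6, hs]

theorem exists_eps {χ Y : Module.End ℂ H} (hχ : IsProj χ) (hY : IsProj Y)
    (h : ∃ s : ℂ, χ * Y * χ = s • χ) :
    ∃ e : ℝ, 0 ≤ e ∧ e ≤ 1 ∧ χ * Y * χ = ((1 - e : ℝ) : ℂ) • χ := by
  obtain ⟨s, hs⟩ := exists_real_of_symm hχ hY.symm h
  by_cases h0 : χ = 0
  · exact ⟨0, le_rfl, zero_le_one, by rw [h0]; simp⟩
  · obtain ⟨v, hv⟩ : ∃ v, χ v ≠ 0 := by
      by_contra hcon
      push Not at hcon
      apply h0
      apply LinearMap.ext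
      intro v
      simpa using hcon v
    set u := χ v with hu
    have hχu : χ u = u := hχ.app v
    have e1 : χ (Y u) = (s : ℂ) • u := by
      have := congrArg (fun L : Module.End ℂ H => L u) hs
      simpa [hχu] using this
    have hpos : (0 : ℝ) < ‖u‖ ^ 2 := by
      have := norm_pos_iff.mpr hv
      positivity
    have e2 : ‖Y u‖ ^ 2 = s * ‖u‖ ^ 2 := by
      rw [hY.nsq]
      have : ⟪Y u, u⟫_ℂ = (s : ℂ) * ⟪u, u⟫_ℂ := by
        calc ⟪Y u, u⟫_ℂ = ⟪Y u, χ u⟫_ℂ := by rw [hχu]
          _ = ⟪χ (Y u), u⟫_ℂ := (hχ.symm _ _).symm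
          _ = (s : ℂ) * ⟪u, u⟫_ℂ := by
            rw [e1, inner_smul_left, Complex.conj_ofReal]
      rw [this, Complex.re_ofReal_mul, re_inner_self]
    have e3 := hY.nsq_le u
    refine ⟨1 - s, ?_, ?_, ?_⟩
    · by_contra hcon
      push Not at hcon
      nlinarith
    · by_contra hcon
      push Not at hcon
      nlinarith [sq_nonneg ‖Y u‖]
    · rw [hs]
      congr 2
      ring

end realsc

theorem sites_twoLayer (S : SiteData ι A) (hS : S.Good) (g : ι → Prop) [DecidablePred g] :
    ∃ ε ν : ι → ι → ℝ, TwoLayer S.ops S.F S.T S.Th S.P S.η ε ν g := by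
  have hχ : ∀ l, IsProj (chi (S.F l univ) (S.T l univ)) := fun l => chi_isProj (S.gateData hS l) univ
  have hex : ∀ l j, ∃ e : ℝ, 0 ≤ e ∧ e ≤ 1 ∧ chi (S.F l univ) (S.T l univ) * S.ops Kind.th l j *
      chi (S.F l univ) (S.T l univ) = ((1 - e : ℝ) : ℂ) • chi (S.F l univ) (S.T l univ) := by
    intro l j
    apply exists_eps (hχ l) (S.ops_proj hS _ _ _)
    apply S.chiXchi hS l
    intro q hq
    rw [if_neg]
    intro h
    exact hq h.1
  choose ε hε0 hε1 hε using hex
  refine ⟨ε, fun l j => 1 - ∏ q ∈ univ.filter (fun q => S.row q = l ∧ S.col q = j), S.c q, ?_⟩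
  constructor
  · exact fun l => S.gateData hS l
  · exact fun k l j => S.ops_proj hS k l j
  · exact fun k k' l j l' j' h => S.ops_comm k k' l j l' j' h
  · exact fun j => S.col_prodFam _ j
  · exact fun j => S.col_prodFam _ j
  · intro l j
    have : ∏ q ∈ univ.filter (fun q => S.row q = l ∧ S.col q = j), S.c q ≤ 1 :=
      Finset.prod_le_one (fun q _ => hS.c_nonneg q) (fun q _ => hS.c_le q)
    linarith
  · intro l j
    have : 0 ≤ ∏ q ∈ univ.filter (fun q => S.row q = l ∧ S.col q = j), S.c q :=
      Finset.prod_nonneg (fun q _ => hS.c_nonneg q)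
    linarith
  · exact hε0
  · exact hε1
  · intro l j
    have h := ite_sandwich (fun q => S.row q = l ∧ S.col q = j) S.θ S.p S.c hS.θpθ
    have e : (1 - (1 - ∏ q ∈ univ.filter (fun q => S.row q = l ∧ S.col q = j), S.c q) : ℝ)
        = ∏ q ∈ univ.filter (fun q => S.row q = l ∧ S.col q = j), S.c q := by ring
    rw [e]
    exact h
  · exact hε
  · intro l j k
    have : S.ops Kind.th l j * S.ops Kind.th l k = prodOp (fun q =>
        (if S.row q = l ∧ S.col q = j then S.θ q else 1) *
          (if S.row q = l ∧ S.col q = k then S.θ q else 1)) := by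
      rw [← prodOp_mul]
      rfl
    rw [this]
    apply S.chiXchi hS l
    intro q hq
    rw [if_neg (fun h => hq h.1), if_neg (fun h => hq h.1), one_mul]
  · intro l j
    apply exists_real_of_symm (hχ l)
    · intro x y
      simp only [Module.End.mul_apply]
      rw [(S.ops_proj hS Kind.p l j).symm, (S.ops_proj hS Kind.th l j).symm,
        (S.ops_proj hS Kind.p l j).symm]
    · have : S.ops Kind.p l j * S.ops Kind.th l j * S.ops Kind.p l j = prodOp (fun q =>
          (if S.row q = l ∧ S.col q = j then S.p q else 1) *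
          (if S.row q = l ∧ S.col q = j then S.θ q else 1) *
          (if S.row q = l ∧ S.col q = j then S.p q else 1)) := by
        rw [← prodOp_mul, ← prodOp_mul]
        rfl
      rw [this]
      apply S.chiXchi hS l
      intro q hq
      rw [if_neg (fun h => hq h.1), if_neg (fun h => hq h.1), one_mul, one_mul]

/-! ### products over families -/

section fam

variable {H J : Type*} [NormedAddCommGroup H] [InnerProductSpace ℂ H] [DecidableEq J]

theorem famProd_norm (f : J → Module.End ℂ H) (h : ∀ j x, ‖f j x‖ = ‖x‖) (s : Finset J) (x : H) :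
    ‖famProd f s x‖ = ‖x‖ := by
  unfold famProd
  induction s.toList with
  | nil => simp
  | cons a l ih =>
    simp only [List.map_cons, List.prod_cons, Module.End.mul_apply]
    rw [h, ih]

theorem ProdFam.unique {f : J → Module.End ℂ H} {F F' : Finset J → Module.End ℂ H}
    (h : ProdFam f F) (h' : ProdFam f F') : F = F' := by
  funext s
  induction s using Finset.induction_on with
  | empty => rw [h.empty, h'.empty]
  | insert j s hj ih => rw [h.insert j s hj, h'.insert j s hj, ih]

theorem ProdFam.congr {f f' : J → Module.End ℂ H} {F F' : Finset J → Module.End ℂ H}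
    (h : ProdFam f F) (h' : ProdFam f' F') (s : Finset J) (hs : ∀ j ∈ s, f j = f' j) :
    F s = F' s := by
  induction s using Finset.induction_on with
  | empty => rw [h.empty, h'.empty]
  | insert j s hj ih =>
    rw [h.insert j s hj, h'.insert j s hj, ih (fun i hi => hs i (mem_insert_of_mem hi)),
      hs j (mem_insert_self _ _)]

/-- product over `s` of `f j` for `j ∈ G`, `1` otherwise -/
theorem ProdFam.restrict {f f' : J → Module.End ℂ H} {F F' : Finset J → Module.End ℂ H}
    (h : ProdFam f F) (h' : ProdFam f' F') (G : Finset J) (h1 : ∀ j ∈ G, f' j = f j)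
    (h2 : ∀ j, j ∉ G → f' j = 1) (s : Finset J) :
    F' s = F (s ∩ G) := by
  induction s using Finset.induction_on with
  | empty => rw [h'.empty, Finset.empty_inter, h.empty]
  | insert j s hj ih =>
    rw [h'.insert j s hj, ih]
    by_cases hjG : j ∈ G
    · rw [Finset.insert_inter_of_mem hjG, h.insert j (s ∩ G) (fun hh => hj (mem_inter.1 hh).1),
        h1 j hjG]
    · rw [Finset.insert_inter_of_notMem hjG, h2 j hjG, one_mul]

end fam

section

variable (S : SiteData ι A)

theorem refl_T_commute (l l' : ι) : Commute (refl (S.T l univ)) (refl (S.T l' univ)) := by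
  have h : Commute (S.T l univ) (S.T l' univ) := by
    rw [S.T_univ_eq, S.T_univ_eq]
    exact commute_ite_same _ _ _
  unfold refl
  exact ((Commute.one_left _).sub_left
    ((((Commute.one_right _).sub_right (h.smul_right _))).smul_left _))

theorem T_F_commute (l l' : ι) (h : l ≠ l') : Commute (S.F l univ) (refl (S.T l' univ)) := by
  have h : Commute (S.F l univ) (S.T l' univ) := by
    rw [S.T_univ_eq, S.F_univ_eq]
    apply commute_disj
    intro q
    by_cases hq : S.row q = l
    · right
      rw [if_neg]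
      intro h2
      exact h (hq.symm.trans h2)
    · left
      rw [if_neg hq]
  unfold refl
  exact (Commute.one_right _).sub_right (h.smul_right _)

theorem F_phi (hS : S.Good) (l : ι) : S.F l univ (prodVec S.φ) = prodVec S.φ := by
  rw [S.F_univ_eq, prodOp_prodVec]
  congr 1
  funext q
  by_cases hq : S.row q = l
  · simp only [if_pos hq]
    rw [vproj_mulVec, hS.φ_unit, one_smul]
  · simp only [if_neg hq]
    exact Matrix.one_mulVec _

end

/-- the state after the first layer is fixed by every `χ_l` -/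
theorem chi_phi1 (S : SiteData ι A) (hS : S.Good) (l : ι) :
    chi (S.F l univ) (S.T l univ)
      (famProd (fun l => refl (S.T l univ)) univ (prodVec S.φ))
      = famProd (fun l => refl (S.T l univ)) univ (prodVec S.φ) := by
  have hpf := famProd_prodFam (fun l => refl (S.T l univ)) (refl_T_commute S)
  have e1 : famProd (fun l => refl (S.T l univ)) univ
      = refl (S.T l univ) * famProd (fun l => refl (S.T l univ)) (univ.erase l) := by
    have h3 := hpf.insert l _ (Finset.notMem_erase l univ)
    rw [Finset.insert_erase (mem_univ l)] at h3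
    exact h3
  have hcomm : Commute (S.F l univ) (famProd (fun l => refl (S.T l univ)) (univ.erase l)) := by
    apply hpf.commute
    intro j hj
    exact T_F_commute S l j (Finset.ne_of_mem_erase hj).symm
  have hT : IsProj (S.T l univ) := (S.gateData hS l).Tproj univ
  rw [e1]
  simp only [chi, Module.End.mul_apply]
  rw [refl_app hT]
  congr 1
  have := congrArg (fun L : Module.End ℂ (Sp ι A) => L (prodVec S.φ)) hcomm.eq
  simp only [Module.End.mul_apply] at this
  rw [this, F_phi S hS l]

theorem norm_prodVec (v : ι → A → ℂ) (hv : ∀ q, ipv (v q) (v q) = 1) : ‖prodVec v‖ = 1 := by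
  have h1 : ‖prodVec v‖ ^ 2 = 1 := by
    rw [← re_inner_self, inner_prodVec]
    simp [hv]
  nlinarith [norm_nonneg (prodVec v)]

theorem norm_phi1 (S : SiteData ι A) (hS : S.Good) :
    ‖famProd (fun l => refl (S.T l univ)) univ (prodVec S.φ)‖ ≤ 1 := by
  rw [famProd_norm _ (fun l x => refl_norm ((S.gateData hS l).Tproj univ) x),
    norm_prodVec _ hS.φ_unit]

section

variable (S : SiteData ι A)

theorem colR_eq (g : ι → Prop) [DecidablePred g] (j : ι) :
    colR S.Th g j = if g j then refl (S.Th j univ) else 1 := rfl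

theorem Th_comm (i j : ι) : Commute (S.Th i univ) (S.Th j univ) := by
  rw [S.Th_univ_eq, S.Th_univ_eq]
  exact commute_ite_same _ _ _

theorem P_comm (i j : ι) : Commute (S.P i univ) (S.P j univ) := by
  rw [S.P_univ_eq, S.P_univ_eq]
  exact commute_ite_same _ _ _

theorem Th_P_comm (i j : ι) (h : i ≠ j) : Commute (S.Th i univ) (S.P j univ) := by
  rw [S.Th_univ_eq, S.P_univ_eq]
  apply commute_disj
  intro q
  by_cases hq : S.col q = i
  · right
    rw [if_neg]
    intro h2
    exact h (hq.symm.trans h2)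
  · left
    rw [if_neg hq]

theorem refl_commute_left {H : Type*} [NormedAddCommGroup H] [InnerProductSpace ℂ H]
    {X Y : Module.End ℂ H} (h : Commute X Y) : Commute (refl X) Y := by
  unfold refl
  exact (Commute.one_left _).sub_left (h.smul_left _)

theorem colR_comm (g : ι → Prop) [DecidablePred g] (i j : ι) :
    Commute (colR S.Th g i) (colR S.Th g j) := by
  rw [colR_eq, colR_eq]
  by_cases h1 : g i
  · by_cases h2 : g j
    · rw [if_pos h1, if_pos h2]
      exact refl_commute_left (refl_commute_left (Th_comm S i j).symm).symm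
    · rw [if_neg h2]; exact Commute.one_right _
  · rw [if_neg h1]; exact Commute.one_left _

theorem colR_P_comm (g : ι → Prop) [DecidablePred g] (i j : ι) (h : i ≠ j) :
    Commute (colR S.Th g i) (S.P j univ) := by
  rw [colR_eq]
  by_cases h1 : g i
  · rw [if_pos h1]
    exact refl_commute_left (Th_P_comm S i j h)
  · rw [if_neg h1]; exact Commute.one_left _

theorem colB_comm (g : ι → Prop) [DecidablePred g] (i j : ι) :
    Commute (colB S.Th S.P g i) (colB S.Th S.P g j) := by
  by_cases h : i = j
  · subst h; exact Commute.refl _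
  · unfold colB
    have a1 : Commute (colR S.Th g i) (colR S.Th g j * S.P j univ * colR S.Th g j) :=
      ((colR_comm S g i j).mul_right (colR_P_comm S g i j h)).mul_right (colR_comm S g i j)
    have a2 : Commute (S.P i univ) (colR S.Th g j * S.P j univ * colR S.Th g j) :=
      ((colR_P_comm S g j i (Ne.symm h)).symm.mul_right (P_comm S i j)).mul_right
        (colR_P_comm S g j i (Ne.symm h)).symm
    exact (a1.mul_left a2).mul_left a1

theorem P_prodFam_univ : ProdFam (fun j => S.P j univ)
    (fun s => prodOp fun q => if S.col q ∈ s then S.p q else 1) := by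
  constructor
  · apply prodOp_ite_false
    intro q h
    simp at h
  · intro j s hj
    simp only [S.P_univ_eq]
    apply prodOp_ite_mul
    · rintro q ⟨h1, h2⟩
      apply hj
      rw [← h1]
      exact h2
    · intro q
      rw [Finset.mem_insert]

end

/-- the product of all `B_j` is `L₂ P L₂` -/
theorem colB_prod (S : SiteData ι A) (hS : S.Good) (G : Finset ι) :
    ProdFam (colB S.Th S.P (fun j => j ∈ G)) (famProd (colB S.Th S.P (fun j => j ∈ G))) ∧
    famProd (colB S.Th S.P (fun j => j ∈ G)) univ
      = layerOp S.col S.θ G * prodOp S.p * layerOp S.col S.θ G := by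
  have hB := famProd_prodFam (colB S.Th S.P (fun j => j ∈ G)) (colB_comm S (fun j => j ∈ G))
  refine ⟨hB, ?_⟩
  have hR := famProd_prodFam (colR S.Th (fun j => j ∈ G)) (colR_comm S (fun j => j ∈ G))
  have hP := P_prodFam_univ S
  have hgate : ∀ j, gateOp S.col S.θ j = refl (S.Th j univ) := by
    intro j
    unfold gateOp
    rw [S.Th_univ_eq]
  have hL := famProd_prodFam (gateOp S.col S.θ) (fun i j => by
    rw [hgate, hgate]
    exact refl_commute_left (refl_commute_left (Th_comm S i j).symm).symm)
  have hRL : famProd (colR S.Th (fun j => j ∈ G)) univ = layerOp S.col S.θ G := by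
    unfold layerOp
    rw [hL.restrict hR G (fun j hj => by
      rw [colR_eq]; simp only [hj, if_true]; exact (hgate j).symm) (fun j hj => by
      rw [colR_eq]; simp only [hj, if_false]) univ]
    rw [Finset.univ_inter]
  have main : ∀ s : Finset ι, famProd (colB S.Th S.P (fun j => j ∈ G)) s
      = famProd (colR S.Th (fun j => j ∈ G)) s * (prodOp fun q => if S.col q ∈ s then S.p q else 1)
        * famProd (colR S.Th (fun j => j ∈ G)) s := by
    intro s
    induction s using Finset.induction_on with
    | empty => rw [hB.empty, hR.empty, hP.empty]; simp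
    | insert j s hj ih =>
      rw [hB.insert j s hj, hR.insert j s hj, hP.insert j s hj, ih]
      set R := colR S.Th (fun j => j ∈ G) j
      set Rs := famProd (colR S.Th (fun j => j ∈ G)) s
      set Ps := prodOp fun q => if S.col q ∈ s then S.p q else 1
      have c1 : Commute R Rs := hR.commute _ s (fun i _ => colR_comm S _ j i)
      have c2 : Commute (S.P j univ) Rs := hR.commute _ s (fun i hi =>
        (colR_P_comm S _ i j (fun h => hj (h ▸ hi))).symm)
      have c3 : Commute R Ps := hP.commute _ s (fun i hi =>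
        (colR_P_comm S _ j i (fun h => hj (h ▸ hi))))
      have hBj : colB S.Th S.P (fun j => j ∈ G) j = R * S.P j univ * R := rfl
      rw [hBj]
      calc R * S.P j univ * R * (Rs * Ps * Rs)
          = R * S.P j univ * (R * Rs) * Ps * Rs := by noncomm_ring
        _ = R * S.P j univ * (Rs * R) * Ps * Rs := by rw [c1.eq]
        _ = R * (S.P j univ * Rs) * (R * Ps) * Rs := by noncomm_ring
        _ = R * (Rs * S.P j univ) * (Ps * R) * Rs := by rw [c2.eq, c3.eq]
        _ = R * Rs * (S.P j univ * Ps) * (R * Rs) := by noncomm_ring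
  rw [main univ, hRL]
  congr 2
  congr 1
  funext q
  simp

end

end Vale.Agent.P368
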