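import Vale.Agent.Lib.P368.ProdOp
import Vale.Agent.Lib.P368.Sites

/-! P368: normal form of circuits of entangling depth at most three. -/

namespace Vale.Agent.P368

open scoped InnerProductSpace Kronecker
open Finset

set_option linter.unusedSectionVars false
set_option linter.deprecated false

noncomputable section

/-! ### gates -/

/-- the vector `|1⟩` -/
def ket1 : Bool → ℂ := fun a => if a = true then 1 else 0

/-- the vector `|-⟩` -/
def ketm : Bool → ℂ := fun a =>
  if a = true then -((1 / Real.sqrt 2 : ℝ) : ℂ) else ((1 / Real.sqrt 2 : ℝ) : ℂ)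

theorem ket1_unit : ipv ket1 ket1 = 1 := by
  simp [ipv, ket1]

theorem sq_half : ((1 / Real.sqrt 2 : ℝ) : ℂ) * ((1 / Real.sqrt 2 : ℝ) : ℂ) = 1 / 2 := by
  have h : (1 / Real.sqrt 2 : ℝ) * (1 / Real.sqrt 2 : ℝ) = 1 / 2 := by
    rw [div_mul_div_comm, one_mul, Real.mul_self_sqrt (by norm_num)]
  rw [← Complex.ofReal_mul, h]
  norm_num

theorem ketm_unit : ipv ketm ketm = 1 := by
  have h := sq_half
  simp only [ipv, ketm, Fintype.sum_bool, if_true, Bool.false_eq_true, if_false,
    Complex.star_def, Complex.conj_ofReal, map_neg]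
  rw [neg_mul_neg, h]
  norm_num

theorem vproj_ket1 (a b : Bool) : vproj ket1 a b = if a = true ∧ b = true then 1 else 0 := by
  unfold vproj ket1
  rw [Matrix.vecMulVec_apply]
  cases a <;> cases b <;> simp

theorem vproj_ketm (a b : Bool) : vproj ketm a b = if a = b then 1 / 2 else -(1 / 2) := by
  have h := sq_half
  unfold vproj ketm
  rw [Matrix.vecMulVec_apply]
  cases a <;> cases b <;>
    simp only [Pi.star_apply, if_true, Bool.false_eq_true, if_false, star_neg,
      Complex.star_def, Complex.conj_ofReal, reduceCtorEq, neg_neg, mul_neg, neg_mul, h]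

variable {N : ℕ}

theorem gate_single_mat (q : Fin N) (U : Matrix Bool Bool ℂ) :
    (Gate.single q U).mat = prodMat (fun i => if i = q then U else 1) := by
  ext z y
  simp only [Gate.mat, prodMat, Matrix.of_apply]
  by_cases h : ∀ i, i ≠ q → z i = y i
  · rw [if_pos h, Finset.prod_eq_single q]
    · rw [if_pos rfl]
    · intro i _ hi
      rw [if_neg hi, h i hi, Matrix.one_apply_eq]
    · intro hq; exact absurd (Finset.mem_univ q) hq
  · rw [if_neg h]
    push Not at h
    obtain ⟨i, hi, hne⟩ := h
    symm
    apply Finset.prod_eq_zero (Finset.mem_univ i)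
    rw [if_neg hi, Matrix.one_apply_ne hne]

/-- site vectors of the Toffoli gate -/
def tv (b : Fin N) (q : Fin N) : Bool → ℂ := if q = b then ketm else ket1

theorem tv_unit (b q : Fin N) : ipv (tv b q) (tv b q) = 1 := by
  unfold tv
  split_ifs
  · exact ketm_unit
  · exact ket1_unit

theorem gate_toffoli_mat (S : Finset (Fin N)) (b : Fin N) (hb : b ∉ S) :
    (Gate.toffoli S b).mat
      = 1 - (2 : ℂ) • prodMat (fun q => if q ∈ insert b S then vproj (tv b q) else 1) := by
  ext z y
  simp only [Gate.mat, Matrix.sub_apply, Matrix.smul_apply, smul_eq_mul, prodMat, Matrix.of_apply]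
  by_cases hS : ∀ i ∈ S, y i = true
  · have hmap : Gate.toffoliMap S b y = Function.update y b (!(y b)) := by
      unfold Gate.toffoliMap; rw [if_pos hS]
    rw [hmap]
    by_cases hz : ∀ i, i ≠ b → z i = y i
    · have hprod : ∏ q, (if q ∈ insert b S then vproj (tv b q) else 1) (z q) (y q)
          = if z b = y b then (1 / 2 : ℂ) else -(1 / 2) := by
        rw [Finset.prod_eq_single b]
        · rw [if_pos (Finset.mem_insert_self b S)]
          unfold tv
          rw [if_pos rfl, vproj_ketm]
        · intro i _ hi
          by_cases hiS : i ∈ S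
          · rw [if_pos (Finset.mem_insert_of_mem hiS)]
            unfold tv
            rw [if_neg hi, vproj_ket1, if_pos ⟨(hz i hi).trans (hS i hiS), hS i hiS⟩]
          · rw [if_neg (by rw [Finset.mem_insert]; tauto), hz i hi, Matrix.one_apply_eq]
        · intro hq; exact absurd (Finset.mem_univ b) hq
      rw [hprod]
      by_cases hzb : z b = y b
      · have hzy : z = y := by
          funext i
          by_cases hi : i = b
          · rw [hi, hzb]
          · exact hz i hi
        rw [if_pos hzb, hzy, Matrix.one_apply_eq, if_neg]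
        · norm_num
        · intro h
          have := congrFun h b
          rw [Function.update_self] at this
          cases hyb : y b <;> rw [hyb] at this <;> simp at this
      · have hzy : z = Function.update y b (!(y b)) := by
          funext i
          by_cases hi : i = b
          · rw [hi, Function.update_self]
            cases h1 : z b <;> cases h2 : y b <;> simp_all
          · rw [Function.update_of_ne hi]; exact hz i hi
        rw [if_neg hzb, if_pos hzy, Matrix.one_apply_ne (fun h => hzb (congrFun h b))]
        norm_num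
    · have hz' := hz
      push Not at hz'
      obtain ⟨i, hi, hne⟩ := hz'
      have hprod : ∏ q, (if q ∈ insert b S then vproj (tv b q) else 1) (z q) (y q) = 0 := by
        apply Finset.prod_eq_zero (Finset.mem_univ i)
        by_cases hiS : i ∈ S
        · rw [if_pos (Finset.mem_insert_of_mem hiS)]
          unfold tv
          rw [if_neg hi, vproj_ket1, if_neg]
          rintro ⟨h1, h2⟩
          exact hne (h1.trans h2.symm)
        · rw [if_neg (by rw [Finset.mem_insert]; tauto), Matrix.one_apply_ne hne]
      rw [hprod, Matrix.one_apply_ne (fun h => hne (congrFun h i)), if_neg]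
      · norm_num
      · intro h
        apply hne
        have := congrFun h i
        rw [Function.update_of_ne hi] at this
        exact this
  · have hmap : Gate.toffoliMap S b y = y := by
      unfold Gate.toffoliMap; rw [if_neg hS]
    push Not at hS
    obtain ⟨i, hi, hne⟩ := hS
    have hib : i ≠ b := fun h => hb (h ▸ hi)
    have hprod : ∏ q, (if q ∈ insert b S then vproj (tv b q) else 1) (z q) (y q) = 0 := by
      apply Finset.prod_eq_zero (Finset.mem_univ i)
      rw [if_pos (Finset.mem_insert_of_mem hi)]
      unfold tv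
      rw [if_neg hib, vproj_ket1, if_neg]
      rintro ⟨_, h2⟩
      exact hne h2
    rw [hprod, hmap, Matrix.one_apply]
    simp

/-! ### lists -/

theorem toList_insert_prod {M J : Type*} [Monoid M] [DecidableEq J] (f : J → M)
    (hf : ∀ i j, Commute (f i) (f j)) (j : J) (s : Finset J) (hj : j ∉ s) :
    ((insert j s).toList.map f).prod = f j * (s.toList.map f).prod := by
  have hperm : ((insert j s).toList).Perm (j :: s.toList) := Finset.toList_insert hj
  have h2 : ((insert j s).toList.map f).Perm (f j :: s.toList.map f) := by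
    simpa using hperm.map f
  have h3 := h2.prod_eq' (by
    rw [List.pairwise_map]
    exact List.pairwise_of_forall (fun {a b} => hf a b))
  rw [h3, List.prod_cons]

/-- factor of a layer -/
def gfac (row : Fin N → Fin N) (τ : Fin N → Bool → ℂ) (l : Fin N) :
    Matrix (Basis N) (Basis N) ℂ :=
  1 - (2 : ℂ) • prodMat fun q => if row q = l then vproj (τ q) else 1

theorem layerMat_eq (row : Fin N → Fin N) (τ : Fin N → Bool → ℂ) (G : Finset (Fin N)) :
    layerMat row τ G = (G.toList.map (gfac row τ)).prod := rfl

theorem layerMat_empty (row : Fin N → Fin N) (τ : Fin N → Bool → ℂ) :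
    layerMat row τ ∅ = 1 := by
  rw [layerMat_eq]; simp

theorem gfac_comm (row : Fin N → Fin N) (τ : Fin N → Bool → ℂ) (l l' : Fin N) :
    Commute (gfac row τ l) (gfac row τ l') := by
  have h : Commute (prodMat fun q => if row q = l then vproj (τ q) else 1)
      (prodMat fun q => if row q = l' then vproj (τ q) else 1) := by
    unfold Commute SemiconjBy
    rw [prodMat_mul, prodMat_mul]
    congr 1
    funext q
    by_cases h1 : row q = l
    · by_cases h2 : row q = l'
      · simp only [if_pos h1, if_pos h2]
      · simp only [if_neg h2, mul_one, one_mul]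
    · simp only [if_neg h1, mul_one, one_mul]
  unfold gfac
  exact (Commute.one_left _).sub_left
    (((Commute.one_right _).sub_right (h.smul_right _)).smul_left _)

theorem layerMat_insert (row : Fin N → Fin N) (τ : Fin N → Bool → ℂ) (j : Fin N)
    (G : Finset (Fin N)) (hj : j ∉ G) :
    layerMat row τ (insert j G) = gfac row τ j * layerMat row τ G :=
  toList_insert_prod _ (gfac_comm row τ) j G hj

theorem layerMat_congr (row row' : Fin N → Fin N) (τ τ' : Fin N → Bool → ℂ) (G : Finset (Fin N))
    (h : ∀ l ∈ G, gfac row τ l = gfac row' τ' l) : layerMat row τ G = layerMat row' τ' G := by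
  rw [layerMat_eq, layerMat_eq]
  congr 1
  apply List.map_congr_left
  intro l hl
  exact h l (Finset.mem_toList.mp hl)

theorem conj_vproj (V : Matrix Bool Bool ℂ) (v : Bool → ℂ) :
    V.conjTranspose * vproj v * V = vproj (V.conjTranspose.mulVec v) := by
  unfold vproj
  rw [Matrix.mul_vecMulVec, Matrix.vecMulVec_mul]
  congr 1
  rw [Matrix.star_mulVec, Matrix.conjTranspose_conjTranspose]

theorem unit_mulVec (V : Matrix Bool Bool ℂ) (hV : V ∈ Matrix.unitaryGroup Bool ℂ)
    (v : Bool → ℂ) (hv : ipv v v = 1) :
    ipv (V.conjTranspose.mulVec v) (V.conjTranspose.mulVec v) = 1 := by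
  have e : ∀ u w : Bool → ℂ, ipv u w = star u ⬝ᵥ w := fun u w => rfl
  rw [e, Matrix.star_mulVec, Matrix.conjTranspose_conjTranspose, ← Matrix.dotProduct_mulVec,
    Matrix.mulVec_mulVec]
  have h2 : V * V.conjTranspose = 1 := by
    have := Matrix.mem_unitaryGroup_iff.mp hV
    exact this
  rw [h2, Matrix.one_mulVec, ← e, hv]

theorem prodMat_conj (V M : Fin N → Matrix Bool Bool ℂ)
    (hV : ∀ q, V q ∈ Matrix.unitaryGroup Bool ℂ) :
    prodMat M * prodMat V
      = prodMat V * prodMat (fun q => (V q).conjTranspose * M q * V q) := by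
  rw [prodMat_mul, prodMat_mul]
  congr 1
  funext q
  have h2 : V q * (V q).conjTranspose = 1 := Matrix.mem_unitaryGroup_iff.mp (hV q)
  rw [← Matrix.mul_assoc, ← Matrix.mul_assoc, h2, Matrix.one_mul]

theorem gfac_conj (V : Fin N → Matrix Bool Bool ℂ)
    (hV : ∀ q, V q ∈ Matrix.unitaryGroup Bool ℂ) (row : Fin N → Fin N) (τ : Fin N → Bool → ℂ)
    (l : Fin N) :
    gfac row τ l * prodMat V
      = prodMat V * gfac row (fun q => (V q).conjTranspose.mulVec (τ q)) l := by
  unfold gfac
  rw [Matrix.sub_mul, Matrix.mul_sub, Matrix.smul_mul, Matrix.mul_smul, prodMat_conj V _ hV,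
    Matrix.one_mul, Matrix.mul_one]
  congr 3
  congr 1
  funext q
  by_cases h : row q = l
  · simp only [if_pos h, conj_vproj]
  · simp only [if_neg h, Matrix.mul_one]
    exact Matrix.mem_unitaryGroup_iff'.mp (hV q)

theorem layerMat_conj (V : Fin N → Matrix Bool Bool ℂ)
    (hV : ∀ q, V q ∈ Matrix.unitaryGroup Bool ℂ) (row : Fin N → Fin N) (τ : Fin N → Bool → ℂ)
    (G : Finset (Fin N)) :
    layerMat row τ G * prodMat V
      = prodMat V * layerMat row (fun q => (V q).conjTranspose.mulVec (τ q)) G := by
  rw [layerMat_eq, layerMat_eq]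
  induction G.toList with
  | nil => simp
  | cons a t ih =>
    simp only [List.map_cons, List.prod_cons]
    rw [Matrix.mul_assoc, ih, ← Matrix.mul_assoc, gfac_conj V hV, Matrix.mul_assoc]

/-! ### layers -/

theorem layer_normal (l : Layer N) (hl : l.Valid) :
    ∃ (V : Fin N → Matrix Bool Bool ℂ) (row : Fin N → Fin N) (τ : Fin N → Bool → ℂ)
      (G : Finset (Fin N)),
      (∀ q, V q ∈ Matrix.unitaryGroup Bool ℂ) ∧ (∀ q, ipv (τ q) (τ q) = 1) ∧
      (∀ k ∈ G, row k = k) ∧ (∀ q, row q ∈ G → ∃ g ∈ l, q ∈ g.support) ∧
      (l.any Gate.isMulti = false → G = ∅) ∧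
      l.mat = prodMat V * layerMat row τ G := by
  induction l with
  | nil =>
    refine ⟨fun _ => 1, id, fun _ => ket1, ∅, fun q => one_mem _, fun q => ket1_unit, by simp,
      by simp, by simp, ?_⟩
    rw [layerMat_empty, prodMat_one]
    simp [Layer.mat]
  | cons g l ih =>
    have hl' : Layer.Valid l := ⟨fun g' hg' => hl.1 g' (List.mem_cons_of_mem _ hg'),
      (List.pairwise_cons.mp hl.2).2⟩
    have hdisj := (List.pairwise_cons.mp hl.2).1
    have hg := hl.1 g List.mem_cons_self
    obtain ⟨V, row, τ, G, hV, hτ, hrep, hsupp, hmulti, hmat⟩ := ih hl'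
    have hcons : Layer.mat (g :: l) = g.mat * Layer.mat l := by
      unfold Layer.mat
      rw [List.map_cons, List.prod_cons]
    cases g with
    | single q U =>
      refine ⟨fun i => (if i = q then U else 1) * V i, row, τ, G, ?_, hτ, hrep, ?_, ?_, ?_⟩
      · intro i
        apply mul_mem _ (hV i)
        split_ifs
        · exact hg
        · exact one_mem _
      · intro i hi
        obtain ⟨g', h1, h2⟩ := hsupp i hi
        exact ⟨g', List.mem_cons_of_mem _ h1, h2⟩
      · intro h
        apply hmulti
        rw [List.any_cons] at h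
        simpa [Gate.isMulti] using h
      · rw [hcons, hmat, gate_single_mat, ← Matrix.mul_assoc, prodMat_mul]
    | toffoli S b =>
      have hbS : b ∉ S := hg.2
      have hout : ∀ i ∈ insert b S, row i ∉ G := by
        intro i hi hG
        obtain ⟨g', h1, h2⟩ := hsupp i hG
        have := hdisj g' h1
        exact (Finset.disjoint_left.mp this) hi h2
      have hbG : b ∉ G := by
        intro h
        exact hout b (Finset.mem_insert_self b S) (by rw [hrep b h]; exact h)
      set row2 : Fin N → Fin N := fun i =>
        if i ∈ insert b S then b else if row i ∈ G then row i else i with hrow2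
      set τ2 : Fin N → Bool → ℂ := fun i =>
        if i ∈ insert b S then (V i).conjTranspose.mulVec (tv b i) else τ i with hτ2
      have r1 : ∀ i, i ∈ insert b S → row2 i = b := fun i hi => by
        simp only [hrow2, if_pos hi]
      have r2 : ∀ i, i ∉ insert b S → row i ∈ G → row2 i = row i := fun i hi h2 => by
        simp only [hrow2, if_neg hi, if_pos h2]
      have r3 : ∀ i, i ∉ insert b S → row i ∉ G → row2 i = i := fun i hi h2 => by
        simp only [hrow2, if_neg hi, if_neg h2]
      have rb : ∀ i, row2 i = b ↔ i ∈ insert b S := by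
        intro i
        constructor
        · intro h
          by_contra hi
          by_cases h2 : row i ∈ G
          · rw [r2 i hi h2] at h
            exact hbG (h ▸ h2)
          · rw [r3 i hi h2] at h
            exact hi (h ▸ Finset.mem_insert_self b S)
        · exact r1 i
      have rG : ∀ l ∈ G, ∀ i, row2 i = l ↔ row i = l := by
        intro l hl i
        by_cases hi : i ∈ insert b S
        · rw [r1 i hi]
          constructor
          · intro h; exact absurd (h ▸ hl) hbG
          · intro h; exact absurd (h ▸ hl) (hout i hi)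
        · by_cases h2 : row i ∈ G
          · rw [r2 i hi h2]
          · rw [r3 i hi h2]
            constructor
            · intro h
              exfalso
              apply h2
              rw [h, hrep l hl]
              exact hl
            · intro h; exact absurd (h ▸ hl) h2
      refine ⟨V, row2, τ2, insert b G, hV, ?_, ?_, ?_, ?_, ?_⟩
      · intro i
        by_cases hi : i ∈ insert b S
        · simp only [hτ2, if_pos hi]
          exact unit_mulVec _ (hV i) _ (tv_unit b i)
        · simp only [hτ2, if_neg hi]
          exact hτ i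
      · intro k hk
        rcases Finset.mem_insert.mp hk with hk | hk
        · rw [hk]; exact r1 b (Finset.mem_insert_self b S)
        · exact (rG k hk k).mpr (hrep k hk)
      · intro i hi
        by_cases h1 : i ∈ insert b S
        · exact ⟨_, List.mem_cons_self, h1⟩
        · by_cases h2 : row i ∈ G
          · obtain ⟨g', h3, h4⟩ := hsupp i h2
            exact ⟨g', List.mem_cons_of_mem _ h3, h4⟩
          · exfalso
            rw [r3 i h1 h2] at hi
            rcases Finset.mem_insert.mp hi with h3 | h3
            · exact h1 (h3 ▸ Finset.mem_insert_self b S)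
            · exact h2 (by rw [hrep i h3]; exact h3)
      · intro h
        rw [List.any_cons] at h
        simp [Gate.isMulti] at h
      · have e1 : (Gate.toffoli S b).mat = gfac row2 (tv b) b := by
          rw [gate_toffoli_mat S b hbS]
          unfold gfac
          congr 3
          funext q
          by_cases hq : q ∈ insert b S
          · rw [if_pos hq, if_pos ((rb q).mpr hq)]
          · rw [if_neg hq, if_neg (fun h => hq ((rb q).mp h))]
        have e2 : gfac row2 (fun q => (V q).conjTranspose.mulVec (tv b q)) b = gfac row2 τ2 b := by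
          unfold gfac
          congr 3
          funext q
          by_cases hq : row2 q = b
          · rw [if_pos hq, if_pos hq]
            simp only [hτ2, if_pos ((rb q).mp hq)]
          · rw [if_neg hq, if_neg hq]
        have e3 : layerMat row τ G = layerMat row2 τ2 G := by
          apply layerMat_congr
          intro l hl
          unfold gfac
          congr 3
          funext q
          by_cases hq : row q = l
          · rw [if_pos hq, if_pos ((rG l hl q).mpr hq)]
            have : q ∉ insert b S := fun h => hout q h (hq ▸ hl)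
            simp only [hτ2, if_neg this]
          · rw [if_neg hq, if_neg (fun h => hq ((rG l hl q).mp h))]
        rw [hcons, hmat, ← Matrix.mul_assoc, e1, gfac_conj V hV, e2, Matrix.mul_assoc, e3,
          layerMat_insert row2 τ2 b G hbG]

/-! ### circuits -/

/-- normal form with `k` entangling layers -/
def NF (N : ℕ) : ℕ → Matrix (Basis N) (Basis N) ℂ → Prop
  | 0, M => ∃ V : Fin N → Matrix Bool Bool ℂ, (∀ q, V q ∈ Matrix.unitaryGroup Bool ℂ) ∧
      M = prodMat V
  | k + 1, M => ∃ (M' : Matrix (Basis N) (Basis N) ℂ) (row : Fin N → Fin N)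
      (τ : Fin N → Bool → ℂ) (G : Finset (Fin N)), NF N k M' ∧ (∀ q, ipv (τ q) (τ q) = 1) ∧
      (∀ l ∈ G, row l = l) ∧ M = M' * layerMat row τ G

theorem NF_mul (k : ℕ) (M : Matrix (Basis N) (Basis N) ℂ) (h : NF N k M)
    (V : Fin N → Matrix Bool Bool ℂ) (hV : ∀ q, V q ∈ Matrix.unitaryGroup Bool ℂ) :
    NF N k (M * prodMat V) := by
  induction k generalizing M with
  | zero =>
    obtain ⟨V', hV', rfl⟩ := h
    exact ⟨fun q => V' q * V q, fun q => mul_mem (hV' q) (hV q), prodMat_mul _ _⟩
  | succ k ih =>
    obtain ⟨M', row, τ, G, h1, h2, h3, rfl⟩ := h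
    refine ⟨M' * prodMat V, row, fun q => (V q).conjTranspose.mulVec (τ q), G, ih M' h1,
      fun q => unit_mulVec _ (hV q) _ (h2 q), h3, ?_⟩
    rw [Matrix.mul_assoc, layerMat_conj V hV, Matrix.mul_assoc]

theorem NF_succ (k : ℕ) (M : Matrix (Basis N) (Basis N) ℂ) (h : NF N k M) : NF N (k + 1) M :=
  ⟨M, id, fun _ => ket1, ∅, h, fun _ => ket1_unit, by simp, by rw [layerMat_empty, mul_one]⟩

theorem NF_le (k m : ℕ) (hkm : k ≤ m) (M : Matrix (Basis N) (Basis N) ℂ) (h : NF N k M) :
    NF N m M := by
  induction m, hkm using Nat.le_induction with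
  | base => exact h
  | succ m _ ih => exact NF_succ m M ih

theorem circuit_NF (c : Circuit N) (hc : c.Valid) : NF N c.entDepth c.mat := by
  induction c with
  | nil =>
    refine ⟨fun _ => 1, fun _ => one_mem _, ?_⟩
    rw [prodMat_one]
    simp [Circuit.mat]
  | cons l c ih =>
    have hc' : Circuit.Valid c := fun l' hl' => hc l' (List.mem_cons_of_mem _ hl')
    have hl := hc l List.mem_cons_self
    obtain ⟨V, row, τ, G, hV, hτ, hrep, _, hmulti, hmat⟩ := layer_normal l hl
    have hcons : Circuit.mat (l :: c) = Circuit.mat c * Layer.mat l := by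
      unfold Circuit.mat
      rw [List.map_cons, List.reverse_cons, List.prod_append, List.prod_singleton]
    have h1 := NF_mul _ _ (ih hc') V hV
    rw [hcons, hmat, ← Matrix.mul_assoc]
    by_cases hm : l.any Gate.isMulti = true
    · have hd : Circuit.entDepth (l :: c) = Circuit.entDepth c + 1 := by
        unfold Circuit.entDepth
        exact List.countP_cons_of_pos (p := fun l : Layer N => l.any Gate.isMulti) hm
      rw [hd]
      exact ⟨_, row, τ, G, h1, hτ, hrep, rfl⟩
    · have hd : Circuit.entDepth (l :: c) = Circuit.entDepth c := by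
        unfold Circuit.entDepth
        exact List.countP_cons_of_neg (p := fun l : Layer N => l.any Gate.isMulti) hm
      have hG : G = ∅ := hmulti (by simpa using hm)
      rw [hd, hG, layerMat_empty, mul_one]
      exact h1

theorem circuit_normal {N : ℕ} (c : Circuit N) (hc : c.Valid) (hd : c.entDepth ≤ 3) :
    ∃ (V : Fin N → Matrix Bool Bool ℂ) (row1 row2 row3 : Fin N → Fin N)
      (G1 G2 G3 : Finset (Fin N)) (τ1 τ2 τ3 : Fin N → Bool → ℂ),
      (∀ q, V q ∈ Matrix.unitaryGroup Bool ℂ) ∧
      (∀ q, ipv (τ1 q) (τ1 q) = 1) ∧ (∀ q, ipv (τ2 q) (τ2 q) = 1) ∧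
      (∀ q, ipv (τ3 q) (τ3 q) = 1) ∧
      (∀ l ∈ G1, row1 l = l) ∧ (∀ l ∈ G2, row2 l = l) ∧ (∀ l ∈ G3, row3 l = l) ∧
      c.mat = prodMat V * layerMat row3 τ3 G3 * layerMat row2 τ2 G2 * layerMat row1 τ1 G1 := by
  obtain ⟨M1, row1, τ1, G1, ⟨M2, row2, τ2, G2, ⟨M3, row3, τ3, G3, ⟨V, hV, rfl⟩, a3, b3, rfl⟩,
    a2, b2, rfl⟩, a1, b1, h⟩ := NF_le _ 3 hd _ (circuit_NF c hc)
  exact ⟨V, row1, row2, row3, G1, G2, G3, τ1, τ2, τ3, hV, a1, a2, a3, b1, b2, b3, h⟩

end

end Vale.Agent.P368
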