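import Vale.Agent.Lib.P368.ProdOp

/-!
P368, module C6: the third layer.
-/

namespace Vale.Agent.P368

open scoped InnerProductSpace Kronecker
open Finset

noncomputable section

section C6

variable {A : Type*} [Fintype A] [DecidableEq A]

omit [DecidableEq A] in
theorem c6_vproj_conj (M : Matrix A A ℂ) (v : A → ℂ) :
    M * vproj v * M.conjTranspose = vproj (M.mulVec v) := by
  unfold vproj
  rw [Matrix.mul_vecMulVec, Matrix.vecMulVec_mul]
  congr 1
  rw [Matrix.star_mulVec]

theorem c6_ipv_mulVec (M : Matrix A A ℂ) (hM : M.conjTranspose * M = 1) (v : A → ℂ) :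
    ipv (M.mulVec v) (M.mulVec v) = ipv v v := by
  have h1 : ∀ u w : A → ℂ, ipv u w = star u ⬝ᵥ w := fun u w => rfl
  rw [h1, h1, Matrix.star_mulVec, Matrix.dotProduct_mulVec, Matrix.vecMul_vecMul, hM,
    Matrix.vecMul_one]

/-- products of commuting hermitian involutions -/
theorem c6_list_fix {m L : Type*} [Fintype m] [DecidableEq m] (g : L → Matrix m m ℂ)
    (hH : ∀ l, (g l).conjTranspose = g l) (h1 : ∀ l, g l * g l = 1) (X : Matrix m m ℂ)
    (ls : List L) (hX : ∀ l ∈ ls, Commute X (g l)) :
    (ls.map g).prod.conjTranspose * X * (ls.map g).prod = X := by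
  induction ls generalizing X with
  | nil => simp
  | cons l ls ih =>
    rw [List.map_cons, List.prod_cons, Matrix.conjTranspose_mul, hH]
    have e : (ls.map g).prod.conjTranspose * g l * X * (g l * (ls.map g).prod)
        = (ls.map g).prod.conjTranspose * (g l * X * g l) * (ls.map g).prod := by
      simp only [Matrix.mul_assoc]
    have e2 : g l * X * g l = X := by
      rw [← (hX l (by simp)).eq, Matrix.mul_assoc, h1, Matrix.mul_one]
    rw [e, e2]
    exact ih X fun l' hl' => hX l' (by simp [hl'])

theorem c6_list_one {m L : Type*} [Fintype m] [DecidableEq m] [DecidableEq L]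
    (g : L → Matrix m m ℂ)
    (hH : ∀ l, (g l).conjTranspose = g l) (h1 : ∀ l, g l * g l = 1)
    (hc : ∀ l l', Commute (g l) (g l')) (X : Matrix m m ℂ) (l0 : L)
    (hX : ∀ l, l ≠ l0 → Commute X (g l)) (ls : List L) (hn : ls.Nodup) (h0 : l0 ∈ ls) :
    (ls.map g).prod.conjTranspose * X * (ls.map g).prod = g l0 * X * g l0 := by
  induction ls with
  | nil => simp at h0
  | cons l ls ih =>
    rw [List.map_cons, List.prod_cons, Matrix.conjTranspose_mul, hH]
    have e : (ls.map g).prod.conjTranspose * g l * X * (g l * (ls.map g).prod)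
        = (ls.map g).prod.conjTranspose * (g l * X * g l) * (ls.map g).prod := by
      simp only [Matrix.mul_assoc]
    rw [e]
    rw [List.nodup_cons] at hn
    by_cases hl : l = l0
    · subst hl
      apply c6_list_fix g hH h1
      intro l' hl'
      have hne : l' ≠ l := fun h => hn.1 (h ▸ hl')
      exact ((hc l l').mul_left (hX l' hne)).mul_left (hc l l')
    · have e2 : g l * X * g l = X := by
        rw [← (hX l hl).eq, Matrix.mul_assoc, h1, Matrix.mul_one]
      rw [e2]
      apply ih hn.2
      rcases List.mem_cons.1 h0 with h | h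
      · exact absurd h.symm hl
      · exact h

variable {N : ℕ}

/-- the product matrix as a function of its factor at `o` -/
theorem c6_prodMat_at (o : Fin N) (M : Fin N → Matrix Bool Bool ℂ) (x y : Basis N) :
    prodMat M x y = M o (x o) (y o) * ∏ q ∈ univ.erase o, M q (x q) (y q) := by
  show ∏ q, M q (x q) (y q) = _
  rw [mul_prod_erase univ (fun q => M q (x q) (y q)) (mem_univ o)]

/-- factor `B` at `o`, factors `R` elsewhere -/
def c6F (o : Fin N) (R : Fin N → Matrix Bool Bool ℂ) (B : Matrix Bool Bool ℂ) :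
    Matrix (Basis N) (Basis N) ℂ :=
  prodMat fun q => if q = o then B else R q

theorem c6F_apply (o : Fin N) (R : Fin N → Matrix Bool Bool ℂ) (B : Matrix Bool Bool ℂ)
    (x y : Basis N) :
    c6F o R B x y = B (x o) (y o) * ∏ q ∈ univ.erase o, R q (x q) (y q) := by
  unfold c6F
  rw [c6_prodMat_at o, if_pos rfl]
  congr 1
  apply prod_congr rfl
  intro q hq
  rw [if_neg (ne_of_mem_erase hq)]

/-- the label-`l` projection -/
def c6θ (row : Fin N → Fin N) (τ : Fin N → Bool → ℂ) (l : Fin N) :
    Matrix (Basis N) (Basis N) ℂ :=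
  prodMat fun q => if row q = l then vproj (τ q) else 1

theorem c6θ_herm (row : Fin N → Fin N) (τ : Fin N → Bool → ℂ) (l : Fin N) :
    (c6θ row τ l).conjTranspose = c6θ row τ l := by
  unfold c6θ
  rw [prodMat_conjTranspose]
  congr 1
  funext q
  split_ifs
  · exact vproj_herm (τ q)
  · exact Matrix.conjTranspose_one

theorem c6θ_idem (row : Fin N → Fin N) (τ : Fin N → Bool → ℂ) (hτ : ∀ q, ipv (τ q) (τ q) = 1)
    (l : Fin N) : c6θ row τ l * c6θ row τ l = c6θ row τ l := by
  unfold c6θ
  rw [prodMat_mul]
  congr 1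
  funext q
  split_ifs
  · exact vproj_idem (τ q) (hτ q)
  · exact Matrix.mul_one 1

theorem c6_comm (M M' : Fin N → Matrix Bool Bool ℂ) (h : ∀ q, Commute (M q) (M' q)) :
    Commute (prodMat M) (prodMat M') := by
  show prodMat M * prodMat M' = prodMat M' * prodMat M
  rw [prodMat_mul, prodMat_mul]
  congr 1
  funext q
  exact (h q).eq

theorem c6θ_comm (row : Fin N → Fin N) (τ : Fin N → Bool → ℂ) (l l' : Fin N) :
    Commute (c6θ row τ l) (c6θ row τ l') := by
  unfold c6θ
  apply c6_comm
  intro q
  split_ifs
  · exact Commute.refl _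
  · exact Commute.one_right _
  · exact Commute.one_left _
  · exact Commute.one_left _

/-- the gate `1 - 2 θ_l` -/
def c6g (row : Fin N → Fin N) (τ : Fin N → Bool → ℂ) (l : Fin N) :
    Matrix (Basis N) (Basis N) ℂ := 1 - (2 : ℂ) • c6θ row τ l

theorem c6g_herm (row : Fin N → Fin N) (τ : Fin N → Bool → ℂ) (l : Fin N) :
    (c6g row τ l).conjTranspose = c6g row τ l := by
  unfold c6g
  rw [Matrix.conjTranspose_sub, Matrix.conjTranspose_one, Matrix.conjTranspose_smul, c6θ_herm]
  simp

theorem c6_refl_sq {m : Type*} [Fintype m] [DecidableEq m] (θ : Matrix m m ℂ) (h : θ * θ = θ) :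
    (1 - (2 : ℂ) • θ) * (1 - (2 : ℂ) • θ) = 1 := by
  calc (1 - (2 : ℂ) • θ) * (1 - (2 : ℂ) • θ)
      = 1 - (2 : ℂ) • θ - (2 : ℂ) • θ + ((2 : ℂ) * (2 : ℂ)) • (θ * θ) := by
        rw [mul_sub, sub_mul, sub_mul, smul_mul_smul_comm]
        simp only [mul_one, one_mul]
        abel
    _ = 1 := by
        rw [h]
        module

theorem c6_expand {m : Type*} [Fintype m] [DecidableEq m] (t p : Matrix m m ℂ) :
    (1 - (2 : ℂ) • t) * p * (1 - (2 : ℂ) • t)
      = p - (2 : ℂ) • (t * p) - (2 : ℂ) • (p * t) + (4 : ℂ) • (t * p * t) := by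
  simp only [mul_sub, sub_mul, smul_mul_assoc, mul_smul_comm, one_mul, mul_one, smul_sub,
    smul_smul, mul_assoc]
  module

theorem c6g_sq (row : Fin N → Fin N) (τ : Fin N → Bool → ℂ) (hτ : ∀ q, ipv (τ q) (τ q) = 1)
    (l : Fin N) : c6g row τ l * c6g row τ l = 1 :=
  c6_refl_sq _ (c6θ_idem row τ hτ l)

theorem c6_commute_g {X : Matrix (Basis N) (Basis N) ℂ} (row : Fin N → Fin N)
    (τ : Fin N → Bool → ℂ) (l : Fin N) (h : Commute X (c6θ row τ l)) :
    Commute X (c6g row τ l) := by
  unfold c6g
  exact (Commute.one_right X).sub_right (h.smul_right _)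

theorem c6g_comm (row : Fin N → Fin N) (τ : Fin N → Bool → ℂ) (l l' : Fin N) :
    Commute (c6g row τ l) (c6g row τ l') :=
  c6_commute_g row τ l' (c6_commute_g row τ l (c6θ_comm row τ l' l)).symm

/-- the vector `|0⟩` -/
def c6e : Bool → ℂ := fun b => if b = false then 1 else 0

theorem c6_zMat (o : Fin N) :
    zMat o = (2 : ℂ) • c6F o (fun _ => 1) (vproj c6e) - 1 := by
  ext x y
  rw [Matrix.sub_apply, Matrix.smul_apply, c6F_apply]
  unfold zMat
  rw [Matrix.diagonal_apply]
  by_cases hxy : x = y
  · subst hxy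
    rw [if_pos rfl, Matrix.one_apply_eq]
    have h1 : ∏ q ∈ univ.erase o, (1 : Matrix Bool Bool ℂ) (x q) (x q) = 1 :=
      prod_eq_one fun q _ => Matrix.one_apply_eq _
    rw [h1]
    cases hx : x o
    · simp [vproj, Matrix.vecMulVec_apply, c6e]; norm_num
    · simp [vproj, Matrix.vecMulVec_apply, c6e]
  · rw [if_neg hxy, Matrix.one_apply_ne hxy]
    have h2 : vproj c6e (x o) (y o) * ∏ q ∈ univ.erase o, (1 : Matrix Bool Bool ℂ) (x q) (y q)
        = 0 := by
      by_cases ho : x o = y o
      · have h3 : ∃ q, x q ≠ y q := by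
          by_contra hcon
          push Not at hcon
          exact hxy (funext hcon)
        obtain ⟨q, hq⟩ := h3
        have hqo : q ≠ o := by rintro rfl; exact hq ho
        have h5 : ∏ q ∈ univ.erase o, (1 : Matrix Bool Bool ℂ) (x q) (y q) = 0 :=
          prod_eq_zero (i := q) (mem_erase.2 ⟨hqo, mem_univ q⟩) (Matrix.one_apply_ne hq)
        rw [h5, mul_zero]
      · have h3 : vproj c6e (x o) (y o) = 0 := by
          unfold vproj
          rw [Matrix.vecMulVec_apply]
          cases hx : x o <;> cases hy : y o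
          · rw [hx, hy] at ho; exact absurd rfl ho
          · simp [c6e]
          · simp [c6e]
          · rw [hx, hy] at ho; exact absurd rfl ho
        rw [h3, zero_mul]
    rw [h2]; simp

/-- For `U = V L₃`, `U† Z_o U = 2 Π - 1 ...` is a combination of three product projections. -/
theorem third_layer {N : ℕ} (V : Fin N → Matrix Bool Bool ℂ)
    (hV : ∀ q, V q ∈ Matrix.unitaryGroup Bool ℂ) (row : Fin N → Fin N) (G : Finset (Fin N))
    (τ : Fin N → Bool → ℂ) (hτ : ∀ q, ipv (τ q) (τ q) = 1) (hrep : ∀ l ∈ G, row l = l)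
    (o : Fin N) :
    ∃ pa pb pc : Fin N → Matrix Bool Bool ℂ,
      (∀ q, (pa q = 1 ∨ ∃ v, ipv v v = 1 ∧ pa q = vproj v) ∧
        (pb q = 1 ∨ ∃ v, ipv v v = 1 ∧ pb q = vproj v) ∧
        (pc q = 1 ∨ ∃ v, ipv v v = 1 ∧ pc q = vproj v)) ∧
      (prodMat V * layerMat row τ G).conjTranspose * zMat o * (prodMat V * layerMat row τ G)
        = (2 : ℂ) • (prodMat pa - prodMat pb + prodMat pc) - 1 := by
  have hVV : ∀ q, (V q).conjTranspose * V q = 1 := fun q => by
    have := (Matrix.mem_unitaryGroup_iff').1 (hV q)
    exact this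
  have hVV' : ∀ q, V q * (V q).conjTranspose = 1 := fun q => by
    have := (Matrix.mem_unitaryGroup_iff).1 (hV q)
    exact this
  set v0 : Bool → ℂ := (V o).conjTranspose.mulVec c6e with hv0
  have hv0u : ipv v0 v0 = 1 := by
    rw [hv0, c6_ipv_mulVec]
    · simp [ipv, c6e]
    · rw [Matrix.conjTranspose_conjTranspose]; exact hVV' o
  -- conjugation by V
  have hVconj : (prodMat V).conjTranspose * c6F o (fun _ => 1) (vproj c6e) * prodMat V
      = c6F o (fun _ => 1) (vproj v0) := by
    unfold c6F
    rw [prodMat_conjTranspose, prodMat_mul, prodMat_mul]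
    congr 1
    funext q
    by_cases hq : q = o
    · subst hq
      rw [if_pos rfl, if_pos rfl]
      have := c6_vproj_conj (V q).conjTranspose c6e
      rw [Matrix.conjTranspose_conjTranspose] at this
      exact this
    · rw [if_neg hq, if_neg hq, Matrix.mul_one, hVV q]
  have hVone : (prodMat V).conjTranspose * prodMat V = 1 := by
    rw [prodMat_conjTranspose, prodMat_mul]
    simp only [hVV]
    exact prodMat_one
  set L := layerMat row τ G with hL
  have hLg : L = (G.toList.map (c6g row τ)).prod := rfl
  have hLL : L.conjTranspose * L = 1 := by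
    have := c6_list_fix (c6g row τ) (c6g_herm row τ) (c6g_sq row τ hτ) 1 G.toList
      (fun l _ => Commute.one_left _)
    rw [Matrix.mul_one] at this
    rw [hLg]
    exact this
  set P0 := c6F o (fun _ => 1) (vproj v0) with hP0
  have hmain : (prodMat V * L).conjTranspose * zMat o * (prodMat V * L)
      = (2 : ℂ) • (L.conjTranspose * P0 * L) - 1 := by
    rw [c6_zMat, Matrix.conjTranspose_mul]
    calc L.conjTranspose * (prodMat V).conjTranspose *
          ((2 : ℂ) • c6F o (fun _ => 1) (vproj c6e) - 1) * (prodMat V * L)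
        = (2 : ℂ) • (L.conjTranspose * ((prodMat V).conjTranspose *
            c6F o (fun _ => 1) (vproj c6e) * prodMat V) * L)
          - L.conjTranspose * ((prodMat V).conjTranspose * prodMat V) * L := by
          rw [Matrix.mul_sub, Matrix.sub_mul, Matrix.mul_smul, Matrix.smul_mul]
          simp only [Matrix.mul_assoc, Matrix.mul_one]
      _ = _ := by rw [hVconj, hVone, Matrix.mul_one, hLL]
  rw [hmain]
  -- `P0` commutes with the other gates
  have hcomm : ∀ l, l ≠ row o → Commute P0 (c6g row τ l) := by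
    intro l hl
    apply c6_commute_g
    rw [hP0]
    unfold c6F c6θ
    apply c6_comm
    intro q
    by_cases hq : q = o
    · subst hq
      rw [if_neg (show ¬ row q = l from fun h => hl h.symm)]
      exact Commute.one_right _
    · rw [if_neg hq]
      exact Commute.one_left _
  have hpa : ∀ q, (fun q => if q = o then vproj v0 else (1 : Matrix Bool Bool ℂ)) q = 1 ∨
      ∃ v, ipv v v = 1 ∧ (fun q => if q = o then vproj v0 else (1 : Matrix Bool Bool ℂ)) q
        = vproj v := by
    intro q
    by_cases hq : q = o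
    · right; exact ⟨v0, hv0u, by simp [hq]⟩
    · left; simp [hq]
  by_cases ho : row o ∈ G
  · -- the gate of `o` acts
    have hconj : L.conjTranspose * P0 * L = c6g row τ (row o) * P0 * c6g row τ (row o) := by
      rw [hLg]
      exact c6_list_one (c6g row τ) (c6g_herm row τ) (c6g_sq row τ hτ) (c6g_comm row τ) P0
        (row o) hcomm G.toList G.nodup_toList (by simpa using ho)
    set t := vproj (τ o) with ht
    have htt : t * t = t := vproj_idem (τ o) (hτ o)
    have hth : t.conjTranspose = t := vproj_herm (τ o)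
    set R1 : Matrix Bool Bool ℂ := 1 - (2 : ℂ) • t with hR1
    have hR1h : R1.conjTranspose = R1 := by
      rw [hR1, Matrix.conjTranspose_sub, Matrix.conjTranspose_one, Matrix.conjTranspose_smul, hth]
      simp
    have hR1sq : R1 * R1 = 1 := c6_refl_sq t htt
    set v1 : Bool → ℂ := R1.mulVec v0 with hv1
    have hv1u : ipv v1 v1 = 1 := by
      rw [hv1, c6_ipv_mulVec, hv0u]
      rw [hR1h]; exact hR1sq
    set Rst : Fin N → Matrix Bool Bool ℂ := fun q => if row q = row o then vproj (τ q) else 1
      with hRst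
    have hθ : c6θ row τ (row o) = c6F o Rst t := by
      unfold c6θ c6F
      congr 1
      funext q
      by_cases hq : q = o
      · subst hq; simp [ht]
      · rw [if_neg hq]
    have hRR : ∀ q, Rst q * Rst q = Rst q := by
      intro q
      simp only [hRst]
      split_ifs
      · exact vproj_idem _ (hτ q)
      · exact Matrix.mul_one 1
    -- products
    have hFF : ∀ (R R' : Fin N → Matrix Bool Bool ℂ) (B B' : Matrix Bool Bool ℂ),
        c6F o R B * c6F o R' B' = c6F o (fun q => R q * R' q) (B * B') := by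
      intro R R' B B'
      unfold c6F
      rw [prodMat_mul]
      congr 1
      funext q
      by_cases hq : q = o
      · simp [hq]
      · simp [hq]
    set p := vproj v0 with hp
    have e1 : c6θ row τ (row o) * P0 = c6F o Rst (t * p) := by
      rw [hθ, hP0, hFF]; simp only [Matrix.mul_one]
    have e2 : P0 * c6θ row τ (row o) = c6F o Rst (p * t) := by
      rw [hθ, hP0, hFF]; simp only [Matrix.one_mul]
    have e3 : c6θ row τ (row o) * P0 * c6θ row τ (row o) = c6F o Rst (t * p * t) := by
      rw [e1, hθ, hFF]; simp only [hRR]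
    have e4 : c6g row τ (row o) * P0 * c6g row τ (row o)
        = P0 - c6F o Rst p + c6F o Rst (vproj v1) := by
      have h1 : vproj v1 = p - (2 : ℂ) • (t * p) - (2 : ℂ) • (p * t)
          + (4 : ℂ) • (t * p * t) := by
        rw [hv1, ← c6_vproj_conj, hR1h, hR1, ← hp]
        exact c6_expand t p
      have h2 : c6g row τ (row o) * P0 * c6g row τ (row o)
          = P0 - (2 : ℂ) • (c6θ row τ (row o) * P0) - (2 : ℂ) • (P0 * c6θ row τ (row o))
            + (4 : ℂ) • (c6θ row τ (row o) * P0 * c6θ row τ (row o)) := by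
        unfold c6g
        exact c6_expand _ _
      rw [h2, e3, e1, e2, h1]
      ext x y
      simp only [Matrix.add_apply, Matrix.sub_apply, Matrix.smul_apply, c6F_apply, smul_eq_mul]
      ring
    rw [hconj, e4]
    refine ⟨fun q => if q = o then vproj v0 else 1, fun q => if q = o then vproj v0 else Rst q,
      fun q => if q = o then vproj v1 else Rst q, ?_, rfl⟩
    intro q
    refine ⟨hpa q, ?_, ?_⟩
    · by_cases hq : q = o
      · right; exact ⟨v0, hv0u, by simp [hq]⟩
      · simp only [if_neg hq, hRst]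
        by_cases hr : row q = row o
        · right; exact ⟨τ q, hτ q, by simp [hr]⟩
        · left; simp [hr]
    · by_cases hq : q = o
      · right; exact ⟨v1, hv1u, by simp [hq]⟩
      · simp only [if_neg hq, hRst]
        by_cases hr : row q = row o
        · right; exact ⟨τ q, hτ q, by simp [hr]⟩
        · left; simp [hr]
  · have hconj : L.conjTranspose * P0 * L = P0 := by
      rw [hLg]
      apply c6_list_fix (c6g row τ) (c6g_herm row τ) (c6g_sq row τ hτ)
      intro l hl
      apply hcomm l
      rintro rfl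
      exact ho (by simpa using hl)
    rw [hconj]
    refine ⟨fun q => if q = o then vproj v0 else 1, fun q => if q = o then vproj v0 else 1,
      fun q => if q = o then vproj v0 else 1, fun q => ⟨hpa q, hpa q, hpa q⟩, ?_⟩
    rw [hP0]
    unfold c6F
    rw [sub_self, zero_add]

end C6

end

end Vale.Agent.P368
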