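import Vale.Agent.Lib.P368.SiteBound
import Vale.Agent.Lib.P368.Normal
import Vale.Agent.Lib.P368.Reduce
import Vale.Agent.Lib.P368.CorrFormula

/-! P368: assembly. -/

namespace Vale.Agent.P368

open scoped InnerProductSpace Kronecker
open Finset

set_option linter.unusedSectionVars false
set_option linter.deprecated false

noncomputable section

variable {N : ℕ}

/-! ### the lift -/

/-- matrix version of the lift -/
def liftMat (M : Matrix (Basis N) (Basis N) ℂ) :
    Matrix (Fin N → Bool × Bool) (Fin N → Bool × Bool) ℂ :=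
  Matrix.of fun x y : Fin N → Bool × Bool =>
    if (fun q => (x q).1) = (fun q => (y q).1) then M (fun q => (x q).2) (fun q => (y q).2) else 0

theorem lift_eq (M : Matrix (Basis N) (Basis N) ℂ) :
    lift M = Matrix.toEuclideanLin (liftMat M) := rfl

theorem liftMat_mul (M M' : Matrix (Basis N) (Basis N) ℂ) :
    liftMat (M * M') = liftMat M * liftMat M' := by
  ext x y
  simp only [liftMat, Matrix.of_apply, Matrix.mul_apply]
  have h := (Equiv.arrowProdEquivProdArrow (Fin N) (fun _ => Bool) (fun _ => Bool)).symm.sum_comp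
    (fun z : Fin N → Bool × Bool =>
      (if (fun q => (x q).1) = (fun q => (z q).1) then
        M (fun q => (x q).2) (fun q => (z q).2) else 0) *
      (if (fun q => (z q).1) = (fun q => (y q).1) then
        M' (fun q => (z q).2) (fun q => (y q).2) else 0))
  rw [← h, Fintype.sum_prod_type]
  simp only [Equiv.arrowProdEquivProdArrow_symm_apply]
  symm
  rw [Finset.sum_eq_single (fun q => (x q).1)]
  · by_cases hxy : (fun q => (x q).1) = (fun q => (y q).1)
    · simp only [if_pos hxy, if_true]
    · simp only [if_neg hxy, mul_zero, Finset.sum_const_zero]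
  · intro r _ hr
    apply Finset.sum_eq_zero
    intro b _
    rw [if_neg (fun h => hr h.symm), zero_mul]
  · intro h; exact absurd (Finset.mem_univ _) h

theorem lift_mul (M M' : Matrix (Basis N) (Basis N) ℂ) : lift (M * M') = lift M * lift M' := by
  rw [lift_eq, lift_eq, lift_eq, liftMat_mul, toEuclideanLin_mul']

theorem lift_add (M M' : Matrix (Basis N) (Basis N) ℂ) : lift (M + M') = lift M + lift M' := by
  rw [lift_eq, lift_eq, lift_eq, ← map_add]
  congr 1
  ext x y
  simp only [liftMat, Matrix.of_apply, Matrix.add_apply]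
  split_ifs <;> simp

theorem lift_sub (M M' : Matrix (Basis N) (Basis N) ℂ) : lift (M - M') = lift M - lift M' := by
  rw [lift_eq, lift_eq, lift_eq, ← map_sub]
  congr 1
  ext x y
  simp only [liftMat, Matrix.of_apply, Matrix.sub_apply]
  split_ifs <;> simp

theorem lift_smul (a : ℂ) (M : Matrix (Basis N) (Basis N) ℂ) : lift (a • M) = a • lift M := by
  rw [lift_eq, lift_eq, ← map_smul]
  congr 1
  ext x y
  simp only [liftMat, Matrix.of_apply, Matrix.smul_apply]
  split_ifs <;> simp

theorem liftSite_apply (M : Matrix Bool Bool ℂ) (x y : Bool × Bool) :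
    liftSite M x y = if x.1 = y.1 then M x.2 y.2 else 0 := by
  unfold liftSite
  rw [Matrix.kroneckerMap_apply, Matrix.one_apply]
  split_ifs <;> simp

theorem liftSite_one : liftSite (1 : Matrix Bool Bool ℂ) = 1 := by
  unfold liftSite
  exact Matrix.one_kronecker_one

theorem liftSite_mul (M M' : Matrix Bool Bool ℂ) :
    liftSite (M * M') = liftSite M * liftSite M' := by
  unfold liftSite
  rw [← Matrix.mul_kronecker_mul, Matrix.one_mul]

theorem liftSite_smul (a : ℂ) (M : Matrix Bool Bool ℂ) :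
    liftSite (a • M) = a • liftSite M := by
  unfold liftSite
  exact Matrix.kronecker_smul a 1 M

theorem liftSite_herm (M : Matrix Bool Bool ℂ) (h : M.IsHermitian) :
    (liftSite M).IsHermitian := by
  unfold liftSite Matrix.IsHermitian
  rw [Matrix.conjTranspose_kronecker, h, Matrix.conjTranspose_one]

theorem lift_prodMat (M : Fin N → Matrix Bool Bool ℂ) :
    lift (prodMat M) = prodOp (fun q => liftSite (M q)) := by
  rw [lift_eq]
  unfold prodOp
  congr 1
  ext x y
  simp only [liftMat, prodMat, Matrix.of_apply, liftSite_apply]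
  by_cases h : (fun q => (x q).1) = (fun q => (y q).1)
  · rw [if_pos h]
    apply Finset.prod_congr rfl
    intro q _
    rw [if_pos (congrFun h q)]
  · rw [if_neg h]
    obtain ⟨q, hq⟩ := Function.ne_iff.mp h
    symm
    apply Finset.prod_eq_zero (Finset.mem_univ q)
    rw [if_neg hq]

theorem lift_one : lift (1 : Matrix (Basis N) (Basis N) ℂ) = 1 := by
  rw [← prodMat_one, lift_prodMat]
  simp only [liftSite_one]
  exact prodOp_one

theorem lift_gfac (row : Fin N → Fin N) (τ : Fin N → Bool → ℂ) (l : Fin N) :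
    lift (gfac row τ l) = gateOp row (fun q => liftSite (vproj (τ q))) l := by
  unfold gfac gateOp refl
  rw [lift_sub, lift_one, lift_smul, lift_prodMat]
  congr 3
  funext q
  split_ifs
  · rfl
  · exact liftSite_one

theorem lift_layerMat (row : Fin N → Fin N) (τ : Fin N → Bool → ℂ) (G : Finset (Fin N)) :
    lift (layerMat row τ G) = layerOp row (fun q => liftSite (vproj (τ q))) G := by
  rw [layerMat_eq]
  unfold layerOp famProd
  induction G.toList with
  | nil => simp [lift_one]
  | cons a t ih =>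
    rw [List.map_cons, List.prod_cons, List.map_cons, List.prod_cons, lift_mul, ih, lift_gfac]

/-! ### layers are self adjoint unitaries -/

theorem gfac_herm (row : Fin N → Fin N) (τ : Fin N → Bool → ℂ) (l : Fin N) :
    (gfac row τ l).conjTranspose = gfac row τ l := by
  unfold gfac
  rw [Matrix.conjTranspose_sub, Matrix.conjTranspose_smul, Matrix.conjTranspose_one,
    prodMat_conjTranspose]
  have h2 : star (2 : ℂ) = 2 := by simp
  rw [h2]
  congr 3
  funext q
  split_ifs
  · exact vproj_herm _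
  · exact Matrix.conjTranspose_one

theorem gfac_sq (row : Fin N → Fin N) (τ : Fin N → Bool → ℂ)
    (hτ : ∀ q, ipv (τ q) (τ q) = 1) (l : Fin N) :
    gfac row τ l * gfac row τ l = 1 := by
  unfold gfac
  have h : (prodMat fun q => if row q = l then vproj (τ q) else 1) *
      (prodMat fun q => if row q = l then vproj (τ q) else 1)
      = prodMat fun q => if row q = l then vproj (τ q) else 1 := by
    rw [prodMat_mul]
    congr 1
    funext q
    split_ifs
    · exact vproj_idem _ (hτ q)
    · exact one_mul 1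
  set P := prodMat fun q => if row q = l then vproj (τ q) else 1
  rw [sub_mul, mul_sub, mul_sub, smul_mul_smul_comm, h]
  simp only [mul_one, one_mul]
  module

theorem layerMat_herm (row : Fin N → Fin N) (τ : Fin N → Bool → ℂ) (G : Finset (Fin N)) :
    (layerMat row τ G).conjTranspose = layerMat row τ G := by
  induction G using Finset.induction_on with
  | empty => rw [layerMat_empty, Matrix.conjTranspose_one]
  | insert j s hj ih =>
    have hc : Commute (gfac row τ j) (layerMat row τ s) := by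
      rw [layerMat_eq]
      apply Commute.list_prod_right
      intro x hx
      obtain ⟨i, _, rfl⟩ := List.mem_map.mp hx
      exact gfac_comm row τ j i
    rw [layerMat_insert row τ j s hj, Matrix.conjTranspose_mul, ih, gfac_herm, hc.eq]

theorem layerMat_sq (row : Fin N → Fin N) (τ : Fin N → Bool → ℂ)
    (hτ : ∀ q, ipv (τ q) (τ q) = 1) (G : Finset (Fin N)) :
    layerMat row τ G * layerMat row τ G = 1 := by
  induction G using Finset.induction_on with
  | empty => rw [layerMat_empty, one_mul]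
  | insert j s hj ih =>
    have hc : Commute (gfac row τ j) (layerMat row τ s) := by
      rw [layerMat_eq]
      apply Commute.list_prod_right
      intro x hx
      obtain ⟨i, _, rfl⟩ := List.mem_map.mp hx
      exact gfac_comm row τ j i
    rw [layerMat_insert row τ j s hj]
    calc gfac row τ j * layerMat row τ s * (gfac row τ j * layerMat row τ s)
        = gfac row τ j * (layerMat row τ s * gfac row τ j) * layerMat row τ s := by
          noncomm_ring
      _ = (gfac row τ j * gfac row τ j) * (layerMat row τ s * layerMat row τ s) := by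
          rw [← hc.eq]; noncomm_ring
      _ = 1 := by rw [ih, gfac_sq row τ hτ, one_mul]

/-! ### the site data -/

theorem epr_unit {n : ℕ} (s : ℂ) (hs : s = 1 ∨ s = -1) (q : Fin N) :
    ipv (epr n s q) (epr n s q) = 1 := by
  have h := sq_half
  unfold ipv epr
  rw [Fintype.sum_prod_type]
  simp only [Fintype.sum_bool]
  by_cases hq : q.val < n
  · rcases hs with rfl | rfl
    · simp only [if_pos hq, if_true, Bool.false_eq_true, if_false, reduceCtorEq, star_zero,
        mul_zero, add_zero, zero_add, one_mul, Complex.star_def, Complex.conj_ofReal, h]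
      norm_num
    · simp only [if_pos hq, if_true, Bool.false_eq_true, if_false, reduceCtorEq, star_zero,
        mul_zero, add_zero, zero_add, one_mul, neg_mul, map_neg, Complex.star_def,
        Complex.conj_ofReal, mul_neg, neg_neg, h]
      norm_num
  · simp [if_neg hq]

theorem epr_orth {n : ℕ} (q : Fin N) (hq : q.val < n) :
    ipv (epr n 1 q) (epr n (-1) q) = 0 := by
  have h := sq_half
  unfold ipv epr
  rw [Fintype.sum_prod_type]
  simp only [Fintype.sum_bool]
  simp only [if_pos hq, if_true, Bool.false_eq_true, if_false, reduceCtorEq, star_zero,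
        mul_zero, add_zero, zero_add, one_mul, neg_mul, map_neg, Complex.star_def,
        Complex.conj_ofReal, mul_neg, neg_neg, h]
  norm_num

theorem epr_same {n : ℕ} (s s' : ℂ) (q : Fin N) (hq : ¬ q.val < n) :
    epr n s q = epr n s' q := by
  unfold epr
  funext x
  simp only [if_neg hq]

/-- the weight of a lifted rank one projection on an EPR pair -/
theorem epr_half {n : ℕ} (s : ℂ) (hs : s = 1 ∨ s = -1) (q : Fin N) (hq : q.val < n)
    (t : Bool → ℂ) (ht : ipv t t = 1) :
    ipv ((liftSite (vproj t)).mulVec (epr n s q)) ((liftSite (vproj t)).mulVec (epr n s q))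
      = 1 / 2 := by
  have hh := liftSite_herm _ (vproj_herm t)
  have hi : liftSite (vproj t) * liftSite (vproj t) = liftSite (vproj t) := by
    rw [← liftSite_mul, vproj_idem t ht]
  rw [ipv_mulVec _ hh, Matrix.mulVec_mulVec, hi]
  have h := sq_half
  have hss : s * s = 1 := by rcases hs with rfl | rfl <;> norm_num
  have hcs : (starRingEnd ℂ) s = s := by rcases hs with rfl | rfl <;> simp
  have ht' : t false * (starRingEnd ℂ) (t false) + t true * (starRingEnd ℂ) (t true) = 1 := by
    have := ht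
    unfold ipv at this
    simp only [Fintype.sum_bool, Complex.star_def] at this
    linear_combination this
  unfold ipv Matrix.mulVec dotProduct
  simp only [Fintype.sum_prod_type, Fintype.sum_bool, liftSite_apply, vproj,
    Matrix.vecMulVec_apply, epr, if_pos hq, if_true, Bool.false_eq_true, if_false, reduceCtorEq,
    mul_zero, zero_mul, add_zero, zero_add, map_zero, one_mul, Pi.star_apply, Complex.star_def,
    map_mul, Complex.conj_ofReal, hcs]
  set r := ((1 / Real.sqrt 2 : ℝ) : ℂ) with hr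
  have e1 : s * r * (t true * (starRingEnd ℂ) (t true) * (s * r))
      + r * (t false * (starRingEnd ℂ) (t false) * r)
      = (s * s) * (r * r) * (t true * (starRingEnd ℂ) (t true))
        + (r * r) * (t false * (starRingEnd ℂ) (t false)) := by ring
  rw [e1, hss, h]
  linear_combination (1 / 2 : ℂ) * ht'

/-! ### the bound -/

/-- the constants of the product projections -/
theorem site_const (t : Bool → ℂ) (ht : ipv t t = 1) (p : Matrix Bool Bool ℂ)
    (hp : p = 1 ∨ ∃ v, ipv v v = 1 ∧ p = vproj v) :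
    ∃ c : ℝ, 0 ≤ c ∧ c ≤ 1 ∧ liftSite (vproj t) * liftSite p * liftSite (vproj t)
      = ((c : ℝ) : ℂ) • liftSite (vproj t) := by
  rcases hp with rfl | ⟨v, hv, rfl⟩
  · refine ⟨1, zero_le_one, le_rfl, ?_⟩
    rw [← liftSite_mul, ← liftSite_mul, mul_one, vproj_idem t ht]
    simp
  · refine ⟨‖ipv t v‖ ^ 2, by positivity, ?_, ?_⟩
    · have h1 := norm_ipv_le t v ht hv
      have h2 := norm_nonneg (ipv t v)
      nlinarith
    · rw [← liftSite_mul, ← liftSite_mul, vproj_sandwich, liftSite_smul]

theorem site_proj (p : Matrix Bool Bool ℂ)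
    (hp : p = 1 ∨ ∃ v, ipv v v = 1 ∧ p = vproj v) :
    (liftSite p).IsHermitian ∧ liftSite p * liftSite p = liftSite p := by
  rcases hp with rfl | ⟨v, hv, rfl⟩
  · rw [liftSite_one]
    exact ⟨Matrix.isHermitian_one, one_mul 1⟩
  · refine ⟨liftSite_herm _ (vproj_herm v), ?_⟩
    rw [← liftSite_mul, vproj_idem v hv]

/-- one term -/
theorem term_bound : ∃ C : ℝ, 0 < C ∧ ∀ (n N : ℕ), 0 < n → n ≤ N →
    ∀ (row1 row2 : Fin N → Fin N) (G1 G2 : Finset (Fin N)) (τ1 τ2 : Fin N → Bool → ℂ),
      (∀ q, ipv (τ1 q) (τ1 q) = 1) → (∀ q, ipv (τ2 q) (τ2 q) = 1) →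
      (∀ l ∈ G1, row1 l = l) → ∀ p : Fin N → Matrix Bool Bool ℂ,
      (∀ q, p q = 1 ∨ ∃ v, ipv v v = 1 ∧ p q = vproj v) →
    ‖⟪prodVec (epr n (-1) : Fin N → Bool × Bool → ℂ),
      lift (layerMat row1 τ1 G1 * (layerMat row2 τ2 G2 * prodMat p * layerMat row2 τ2 G2) *
        layerMat row1 τ1 G1) (prodVec (epr n 1))⟫_ℂ‖
      ≤ C * (1 + Real.log N) ^ 3 / Real.sqrt n := by
  obtain ⟨C, hC, hsb⟩ := siteBound
  refine ⟨C, hC, ?_⟩
  intro n N hn hnN row1 row2 G1 G2 τ1 τ2 h1 h2 hrep p hp
  have hc := fun q => site_const (τ2 q) (h2 q) (p q) (hp q)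
  choose c hc0 hc1 hc2 using hc
  have hcard : (univ.filter (fun q : Fin N => q.val < n)).card = n := by
    rw [Fin.card_filter_val_lt]
    exact min_eq_right hnN
  have hin : ∀ q : Fin N, q ∈ univ.filter (fun q : Fin N => q.val < n) ↔ q.val < n := by
    intro q; simp
  have h := hsb N n (epr n 1) (epr n (-1)) (univ.filter (fun q : Fin N => q.val < n)) hcard hn
    (epr_unit 1 (Or.inl rfl)) (epr_unit (-1) (Or.inr rfl))
    (fun q hq => epr_orth q ((hin q).mp hq))
    (fun q hq => epr_same _ _ q (fun h => hq ((hin q).mpr h)))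
    row1 G1 hrep (fun q => liftSite (vproj (τ1 q)))
    (fun q => liftSite_herm _ (vproj_herm _))
    (fun q => by rw [← liftSite_mul, vproj_idem _ (h1 q)])
    (fun q hq => epr_half 1 (Or.inl rfl) q ((hin q).mp hq) _ (h1 q))
    (fun q hq => epr_half (-1) (Or.inr rfl) q ((hin q).mp hq) _ (h1 q))
    row2 G2 (fun q => liftSite (vproj (τ2 q))) (fun q => liftSite (p q)) c
    (fun q => liftSite_herm _ (vproj_herm _))
    (fun q => by rw [← liftSite_mul, vproj_idem _ (h2 q)])
    (fun q => (site_proj _ (hp q)).1) (fun q => (site_proj _ (hp q)).2) hc2 hc0 hc1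
  rw [← lift_layerMat, ← lift_layerMat, ← lift_prodMat, ← lift_mul, ← lift_mul, ← lift_mul,
    ← lift_mul] at h
  exact h

theorem depth3_bound : ∃ C : ℝ, 0 < C ∧ ∀ (n N : ℕ), 0 < n → n ≤ N → ∀ (c : Circuit N),
    c.Valid → c.entDepth ≤ 3 → ∀ o : Fin N,
      |parityCorr n c o| ≤ C * (1 + Real.log N) ^ 3 / Real.sqrt n := by
  obtain ⟨C, hC, htb⟩ := term_bound
  refine ⟨6 * C, by positivity, ?_⟩
  intro n N hn hnN c hc hd o
  obtain ⟨V, row1, row2, row3, G1, G2, G3, τ1, τ2, τ3, hV, h1, h2, h3, r1, r2, r3, hmat⟩ :=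
    circuit_normal c hc hd
  obtain ⟨pa, pb, pc, hp, hthird⟩ := third_layer V hV row3 G3 τ3 h3 r3 o
  set L1 := layerMat row1 τ1 G1 with hL1
  set L2 := layerMat row2 τ2 G2 with hL2
  set U := prodMat V * layerMat row3 τ3 G3 with hU
  have hL1h : L1.conjTranspose = L1 := layerMat_herm _ _ _
  have hL2h : L2.conjTranspose = L2 := layerMat_herm _ _ _
  have hL1s : L1 * L1 = 1 := layerMat_sq _ _ h1 _
  have hL2s : L2 * L2 = 1 := layerMat_sq _ _ h2 _
  have hop : c.mat.conjTranspose * zMat o * c.mat
      = (2 : ℂ) • (L1 * (L2 * prodMat pa * L2) * L1) - (2 : ℂ) • (L1 * (L2 * prodMat pb * L2) * L1)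
        + (2 : ℂ) • (L1 * (L2 * prodMat pc * L2) * L1) - 1 := by
    rw [hmat, Matrix.conjTranspose_mul, Matrix.conjTranspose_mul, hL1h, hL2h]
    calc L1 * (L2 * U.conjTranspose) * zMat o * (U * L2 * L1)
        = L1 * (L2 * (U.conjTranspose * zMat o * U) * L2) * L1 := by noncomm_ring
      _ = L1 * (L2 * ((2 : ℂ) • (prodMat pa - prodMat pb + prodMat pc) - 1) * L2) * L1 := by
          rw [hthird]
      _ = (2 : ℂ) • (L1 * (L2 * prodMat pa * L2) * L1)
          - (2 : ℂ) • (L1 * (L2 * prodMat pb * L2) * L1)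
          + (2 : ℂ) • (L1 * (L2 * prodMat pc * L2) * L1) - L1 * (L2 * L2) * L1 := by
          simp only [mul_sub, sub_mul, mul_add, add_mul, smul_sub, smul_add, mul_smul_comm,
            smul_mul_assoc, mul_one, one_mul, mul_assoc]
      _ = _ := by rw [hL2s, mul_one, hL1s]
  have hcorr := parityCorr_eq hnN c o
  rw [hop] at hcorr
  set f := prodVec (epr n (-1) : Fin N → Bool × Bool → ℂ) with hf
  set g := prodVec (epr n 1 : Fin N → Bool × Bool → ℂ) with hg
  have horth : ⟪f, g⟫_ℂ = 0 := by
    rw [hf, hg, inner_prodVec]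
    have hN : 0 < N := lt_of_lt_of_le hn hnN
    apply Finset.prod_eq_zero (Finset.mem_univ (⟨0, hN⟩ : Fin N))
    rw [ipv_conj, epr_orth _ (by exact hn)]
    simp
  have ta := htb n N hn hnN row1 row2 G1 G2 τ1 τ2 h1 h2 r1 pa (fun q => (hp q).1)
  have tb := htb n N hn hnN row1 row2 G1 G2 τ1 τ2 h1 h2 r1 pb (fun q => (hp q).2.1)
  have tc := htb n N hn hnN row1 row2 G1 G2 τ1 τ2 h1 h2 r1 pc (fun q => (hp q).2.2)
  rw [← hL1, ← hL2, ← hf, ← hg] at ta tb tc
  have hexp : ((parityCorr n c o : ℝ) : ℂ)
      = 2 * ⟪f, lift (L1 * (L2 * prodMat pa * L2) * L1) g⟫_ℂ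
        - 2 * ⟪f, lift (L1 * (L2 * prodMat pb * L2) * L1) g⟫_ℂ
        + 2 * ⟪f, lift (L1 * (L2 * prodMat pc * L2) * L1) g⟫_ℂ := by
    rw [hcorr, lift_sub, lift_add, lift_sub, lift_smul, lift_smul, lift_smul, lift_one]
    simp only [LinearMap.sub_apply, LinearMap.add_apply, LinearMap.smul_apply,
      Module.End.one_apply, inner_sub_right, inner_add_right, inner_smul_right, horth, sub_zero]
  have hnorm : |parityCorr n c o| = ‖((parityCorr n c o : ℝ) : ℂ)‖ := by
    rw [Complex.norm_real, Real.norm_eq_abs]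
  set K := C * (1 + Real.log N) ^ 3 / Real.sqrt n with hK
  rw [hnorm, hexp]
  have hfin : 6 * C * (1 + Real.log N) ^ 3 / Real.sqrt n = 6 * K := by
    rw [hK]; ring
  rw [hfin]
  calc _ ≤ ‖2 * ⟪f, lift (L1 * (L2 * prodMat pa * L2) * L1) g⟫_ℂ
        - 2 * ⟪f, lift (L1 * (L2 * prodMat pb * L2) * L1) g⟫_ℂ‖
        + ‖2 * ⟪f, lift (L1 * (L2 * prodMat pc * L2) * L1) g⟫_ℂ‖ := norm_add_le _ _
    _ ≤ ‖2 * ⟪f, lift (L1 * (L2 * prodMat pa * L2) * L1) g⟫_ℂ‖
        + ‖2 * ⟪f, lift (L1 * (L2 * prodMat pb * L2) * L1) g⟫_ℂ‖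
        + ‖2 * ⟪f, lift (L1 * (L2 * prodMat pc * L2) * L1) g⟫_ℂ‖ := by
        gcongr
        exact norm_sub_le _ _
    _ ≤ 6 * K := by
        rw [norm_mul, norm_mul, norm_mul, Complex.norm_ofNat]
        linarith

/-! ### unitarity -/

theorem circuit_unitary (c : Circuit N) (hc : c.Valid) (hd : c.entDepth ≤ 3) :
    c.mat.conjTranspose * c.mat = 1 := by
  obtain ⟨V, row1, row2, row3, G1, G2, G3, τ1, τ2, τ3, hV, h1, h2, h3, r1, r2, r3, hmat⟩ :=
    circuit_normal c hc hd
  have hVV : (prodMat V).conjTranspose * prodMat V = 1 := by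
    rw [prodMat_conjTranspose, prodMat_mul, ← prodMat_one]
    congr 1
    funext q
    exact Matrix.mem_unitaryGroup_iff'.mp (hV q)
  rw [hmat, Matrix.conjTranspose_mul, Matrix.conjTranspose_mul, Matrix.conjTranspose_mul,
    layerMat_herm, layerMat_herm, layerMat_herm]
  calc _ = layerMat row1 τ1 G1 * (layerMat row2 τ2 G2 * (layerMat row3 τ3 G3 *
        ((prodMat V).conjTranspose * prodMat V) * layerMat row3 τ3 G3) * layerMat row2 τ2 G2) *
        layerMat row1 τ1 G1 := by noncomm_ring
    _ = 1 := by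
      rw [hVV, mul_one, layerMat_sq _ _ h3, mul_one, layerMat_sq _ _ h2, mul_one,
        layerMat_sq _ _ h1]

theorem outProb_add {n : ℕ} (c : Circuit N) (hc : c.Valid) (hd : c.entDepth ≤ 3) (o : Fin N)
    (x : Fin n → Bool) (r : Bool) : outProb c o x r + outProb c o x (!r) = 1 := by
  unfold outProb
  rw [← Finset.sum_add_distrib]
  have h1 : ∀ z : Basis N, ((if z o = r then ‖finalState c x z‖ ^ 2 else 0) +
      (if z o = (!r) then ‖finalState c x z‖ ^ 2 else 0)) = ‖finalState c x z‖ ^ 2 := by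
    intro z
    cases h2 : z o <;> cases r <;> simp
  rw [Finset.sum_congr rfl (fun z _ => h1 z)]
  have h3 := congrFun (congrFun (circuit_unitary c hc hd) (initBasis N x)) (initBasis N x)
  rw [Matrix.mul_apply, Matrix.one_apply_eq] at h3
  have h4 : ∀ z : Basis N, c.mat.conjTranspose (initBasis N x) z * c.mat z (initBasis N x)
      = ((‖finalState c x z‖ ^ 2 : ℝ) : ℂ) := by
    intro z
    rw [Matrix.conjTranspose_apply]
    unfold finalState
    rw [Complex.star_def, ← Complex.normSq_eq_conj_mul_self, Complex.normSq_eq_norm_sq]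
  rw [Finset.sum_congr rfl (fun z _ => h4 z), ← Complex.ofReal_sum] at h3
  exact_mod_cast h3

theorem parityCorr_ge {n : ℕ} (c : Circuit N) (hc : c.Valid) (hd : c.entDepth ≤ 3) (o : Fin N)
    (ε : ℝ) (h : ComputesParity n c o ε) : 2 * ε ≤ parityCorr n c o := by
  unfold parityCorr
  rw [le_div_iff₀ (by positivity)]
  have h1 : ∀ x : Fin n → Bool, 2 * ε ≤ outProb c o x (par x) - outProb c o x (!(par x)) := by
    intro x
    have h2 := outProb_add c hc hd o x (par x)
    have h3 := h x
    linarith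
  calc 2 * ε * 2 ^ n = ∑ x : Fin n → Bool, 2 * ε := by
        rw [Finset.sum_const, Finset.card_univ, Fintype.card_fun, Fintype.card_bool,
          Fintype.card_fin, nsmul_eq_mul]
        push_cast
        ring
    _ ≤ _ := Finset.sum_le_sum (fun x _ => h1 x)

/-- `(a + k log n)^3 / sqrt n` is eventually small -/
theorem log_small (a k C ε : ℝ) (hε : 0 < ε) : ∃ n₀ : ℕ, ∀ n : ℕ, n₀ ≤ n →
    C * (a + k * Real.log n) ^ 3 / Real.sqrt n < ε := by
  have h1 : (fun x : ℝ => a + k * Real.log x) =o[Filter.atTop] fun x : ℝ => x ^ (1 / 6 : ℝ) := by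
    apply Asymptotics.IsLittleO.add
    · rw [Asymptotics.isLittleO_const_left]
      right
      have := tendsto_rpow_atTop (y := (1 / 6 : ℝ)) (by norm_num)
      exact tendsto_norm_atTop_atTop.comp this
    · exact (isLittleO_log_rpow_atTop (by norm_num)).const_mul_left k
  have h2 : (fun x : ℝ => C * (a + k * Real.log x) ^ 3) =o[Filter.atTop]
      fun x : ℝ => Real.sqrt x := by
    have h3 := (h1.pow (n := 3) (by norm_num)).const_mul_left C
    apply h3.congr' (Filter.EventuallyEq.refl _ _)
    filter_upwards [Filter.eventually_ge_atTop (0 : ℝ)] with x hx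
    rw [← Real.rpow_natCast, ← Real.rpow_mul hx, Real.sqrt_eq_rpow]
    norm_num
  have h4 := h2.tendsto_div_nhds_zero
  have h5 := h4.comp (tendsto_natCast_atTop_atTop (R := ℝ))
  have h6 := (h5.eventually (gt_mem_nhds hε))
  obtain ⟨n₀, hn₀⟩ := Filter.eventually_atTop.mp h6
  exact ⟨n₀, fun n hn => hn₀ n hn⟩

/-- no depth-3 family of polynomial size computes parity with a fixed worst case advantage -/
theorem depth3_no_family (k : ℕ) (ε : ℝ) (hε : 0 < ε) : ∃ n₀ : ℕ, ∀ n N : ℕ, n₀ ≤ n → n ≤ N →
    N ≤ n ^ k + k → ∀ (c : Circuit N), c.Valid → c.entDepth ≤ 3 → ∀ o : Fin N,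
      ¬ ComputesParity n c o ε := by
  obtain ⟨C, hC, hb⟩ := depth3_bound
  obtain ⟨n₀, hn₀⟩ := log_small (1 + Real.log (k + 1)) k C (2 * ε) (by positivity)
  refine ⟨max n₀ 1, ?_⟩
  intro n N hn hnN hNk c hc hd o hcomp
  have hn0 : n₀ ≤ n := le_trans (le_max_left _ _) hn
  have hn1 : 1 ≤ n := le_trans (le_max_right _ _) hn
  have h1 := parityCorr_ge c hc hd o ε hcomp
  have h2 := hb n N (by omega) hnN c hc hd o
  have h3 : 2 * ε ≤ C * (1 + Real.log N) ^ 3 / Real.sqrt n :=
    h1.trans ((le_abs_self _).trans h2)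
  have hN1 : 1 ≤ N := le_trans hn1 hnN
  have hnR : (1 : ℝ) ≤ n := by exact_mod_cast hn1
  have hNR : (1 : ℝ) ≤ N := by exact_mod_cast hN1
  have h4 : Real.log N ≤ Real.log (k + 1) + k * Real.log n := by
    have h5 : (N : ℝ) ≤ (k + 1) * (n : ℝ) ^ k := by
      have h6 : (N : ℝ) ≤ (n : ℝ) ^ k + k := by exact_mod_cast hNk
      have h7 : (1 : ℝ) ≤ (n : ℝ) ^ k := one_le_pow₀ hnR
      have h8 : (0 : ℝ) ≤ k := Nat.cast_nonneg k
      nlinarith
    calc Real.log N ≤ Real.log ((k + 1) * (n : ℝ) ^ k) := Real.log_le_log (by linarith) h5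
      _ = _ := by
        rw [Real.log_mul (by positivity) (by positivity), Real.log_pow]
  have h9 := hn₀ n hn0
  have hlogN : 0 ≤ Real.log N := Real.log_nonneg hNR
  have h10 : (1 + Real.log N) ^ 3 ≤ (1 + Real.log (k + 1) + k * Real.log n) ^ 3 := by
    apply pow_le_pow_left₀ (by linarith)
    linarith
  have h11 : C * (1 + Real.log N) ^ 3 / Real.sqrt n
      ≤ C * (1 + Real.log (k + 1) + k * Real.log n) ^ 3 / Real.sqrt n := by
    apply div_le_div_of_nonneg_right _ (Real.sqrt_nonneg _)
    exact mul_le_mul_of_nonneg_left h10 hC.le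
  linarith

end

end Vale.Agent.P368
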