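import Vale.Agent.Lib.P368.Abs
import Vale.Agent.Lib.P368.Defs

/-!
P368: product operators and product vectors on `EuclideanSpace ℂ (ι → A)`.
-/

namespace Vale.Agent.P368

open scoped InnerProductSpace Kronecker
open Finset

noncomputable section

variable {ι A : Type*} [Fintype ι] [DecidableEq ι] [Fintype A] [DecidableEq A]

/-- The Hilbert space of sites `ι` with alphabet `A`. -/
abbrev Sp (ι A : Type*) := EuclideanSpace ℂ (ι → A)

/-- `⊗_q M_q` as a matrix. -/
def prodMat (M : ι → Matrix A A ℂ) : Matrix (ι → A) (ι → A) ℂ :=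
  Matrix.of fun x y => ∏ q, M q (x q) (y q)

/-- `⊗_q M_q` as an operator. -/
def prodOp (M : ι → Matrix A A ℂ) : Module.End ℂ (Sp ι A) :=
  Matrix.toEuclideanLin (prodMat M)

/-- `⊗_q v_q`. -/
def prodVec (v : ι → A → ℂ) : Sp ι A := WithLp.toLp 2 fun x => ∏ q, v q (x q)

/-- Rank one projection `|v⟩⟨v|`. -/
def vproj (v : A → ℂ) : Matrix A A ℂ := Matrix.vecMulVec v (star v)

/-- inner product of site vectors -/
def ipv (u v : A → ℂ) : ℂ := ∑ a, star (u a) * v a

/-- product of a family over a finset (for commuting families) -/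
def famProd {H J : Type*} [NormedAddCommGroup H] [InnerProductSpace ℂ H]
    (f : J → Module.End ℂ H) (s : Finset J) : Module.End ℂ H :=
  (s.toList.map f).prod

/-- One gate: reflection about the product projection `θ` on the sites with label `l`. -/
def gateOp (row : ι → ι) (θ : ι → Matrix A A ℂ) (l : ι) : Module.End ℂ (Sp ι A) :=
  refl (prodOp fun q => if row q = l then θ q else 1)

/-- One layer of gates. -/
def layerOp (row : ι → ι) (θ : ι → Matrix A A ℂ) (G : Finset ι) : Module.End ℂ (Sp ι A) :=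
  famProd (gateOp row θ) G

/-- Site level data for the two-layer structure. -/
structure SiteData (ι A : Type*) where
  row : ι → ι
  col : ι → ι
  φ : ι → A → ℂ
  ϑ : ι → A → ℂ
  θ : ι → Matrix A A ℂ
  p : ι → Matrix A A ℂ
  c : ι → ℝ

structure SiteData.Good (S : SiteData ι A) : Prop where
  φ_unit : ∀ q, ipv (S.φ q) (S.φ q) = 1
  ϑ_unit : ∀ q, ipv (S.ϑ q) (S.ϑ q) = 1
  θ_herm : ∀ q, (S.θ q).IsHermitian
  θ_idem : ∀ q, S.θ q * S.θ q = S.θ q
  p_herm : ∀ q, (S.p q).IsHermitian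
  p_idem : ∀ q, S.p q * S.p q = S.p q
  θpθ : ∀ q, S.θ q * S.p q * S.θ q = ((S.c q : ℝ) : ℂ) • S.θ q
  c_nonneg : ∀ q, 0 ≤ S.c q
  c_le : ∀ q, S.c q ≤ 1

namespace SiteData

variable (S : SiteData ι A)

def cellOp (M : ι → Matrix A A ℂ) (l j : ι) : Module.End ℂ (Sp ι A) :=
  prodOp fun q => if S.row q = l ∧ S.col q = j then M q else 1

def rowOp (M : ι → Matrix A A ℂ) (l : ι) (s : Finset ι) : Module.End ℂ (Sp ι A) :=
  prodOp fun q => if S.row q = l ∧ S.col q ∈ s then M q else 1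

def colOp (M : ι → Matrix A A ℂ) (j : ι) (s : Finset ι) : Module.End ℂ (Sp ι A) :=
  prodOp fun q => if S.col q = j ∧ S.row q ∈ s then M q else 1

def ops : Kind → ι → ι → Module.End ℂ (Sp ι A)
  | Kind.f => S.cellOp fun q => vproj (S.φ q)
  | Kind.t => S.cellOp fun q => vproj (S.ϑ q)
  | Kind.th => S.cellOp S.θ
  | Kind.p => S.cellOp S.p

def F : ι → Finset ι → Module.End ℂ (Sp ι A) := S.rowOp fun q => vproj (S.φ q)
def T : ι → Finset ι → Module.End ℂ (Sp ι A) := S.rowOp fun q => vproj (S.ϑ q)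
def Th : ι → Finset ι → Module.End ℂ (Sp ι A) := S.colOp S.θ
def P : ι → Finset ι → Module.End ℂ (Sp ι A) := S.colOp S.p

def η (l j : ι) : ℝ :=
  1 - ∏ q ∈ univ.filter (fun q => S.row q = l ∧ S.col q = j), ‖ipv (S.ϑ q) (S.φ q)‖ ^ 2

end SiteData

/-- The site matrix `1_ref ⊗ M`. -/
def liftSite (M : Matrix Bool Bool ℂ) : Matrix (Bool × Bool) (Bool × Bool) ℂ :=
  (1 : Matrix Bool Bool ℂ) ⊗ₖ M

/-- `1_ref ⊗ M` for an `N`-qubit matrix. -/
def lift {N : ℕ} (M : Matrix (Basis N) (Basis N) ℂ) : Module.End ℂ (Sp (Fin N) (Bool × Bool)) :=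
  Matrix.toEuclideanLin (Matrix.of fun x y : Fin N → Bool × Bool =>
    if (fun q => (x q).1) = (fun q => (y q).1) then M (fun q => (x q).2) (fun q => (y q).2) else 0)

/-- the site state: an EPR pair (with sign `s` on `|11⟩`) for inputs, `|00⟩` for ancillas -/
def epr (n : ℕ) {N : ℕ} (s : ℂ) (q : Fin N) : Bool × Bool → ℂ := fun ra =>
  if q.val < n then
    (if ra.1 = ra.2 then (if ra.1 = true then s else 1) * ((1 / Real.sqrt 2 : ℝ) : ℂ) else 0)
  else (if ra = (false, false) then 1 else 0)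

/-- Matrix version of a layer. -/
def layerMat {N : ℕ} (row : Fin N → Fin N) (τ : Fin N → Bool → ℂ) (G : Finset (Fin N)) :
    Matrix (Basis N) (Basis N) ℂ :=
  (G.toList.map fun l =>
    (1 - (2 : ℂ) • prodMat fun q => if row q = l then vproj (τ q) else 1)).prod

/-- `Z` on qubit `o`. -/
def zMat {N : ℕ} (o : Fin N) : Matrix (Basis N) (Basis N) ℂ :=
  Matrix.diagonal fun z => if z o = true then -1 else 1

end

end Vale.Agent.P368
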