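import Vale.Agent.Lib.P368.ProdDefs

/-! P368: library of product operators. -/

namespace Vale.Agent.P368

open scoped InnerProductSpace Kronecker
open Finset

set_option linter.unusedSectionVars false
set_option linter.deprecated false

noncomputable section

variable {ι A : Type*} [Fintype ι] [DecidableEq ι] [Fintype A] [DecidableEq A]

theorem prodMat_mul (M M' : ι → Matrix A A ℂ) :
    prodMat M * prodMat M' = prodMat (fun q => M q * M' q) := by
  ext x y
  simp only [prodMat, Matrix.mul_apply, Matrix.of_apply]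
  rw [Finset.prod_univ_sum]
  rw [← Fintype.piFinset_univ]
  apply Finset.sum_congr rfl
  intro z _
  rw [Finset.prod_mul_distrib]

theorem prodMat_one : prodMat (fun _ : ι => (1 : Matrix A A ℂ)) = 1 := by
  ext x y
  simp only [prodMat, Matrix.of_apply, Matrix.one_apply]
  by_cases h : x = y
  · subst h; simp
  · rw [if_neg h]
    obtain ⟨q, hq⟩ := Function.ne_iff.mp h
    exact Finset.prod_eq_zero (Finset.mem_univ q) (by simp [hq])

theorem prodMat_conjTranspose (M : ι → Matrix A A ℂ) :
    (prodMat M).conjTranspose = prodMat (fun q => (M q).conjTranspose) := by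
  ext x y
  simp only [prodMat, Matrix.conjTranspose_apply, Matrix.of_apply]
  rw [star_prod]

theorem toEuclideanLin_mul' {n : Type*} [Fintype n] [DecidableEq n] (X Y : Matrix n n ℂ) :
    (Matrix.toEuclideanLin X : Module.End ℂ (EuclideanSpace ℂ n)) * Matrix.toEuclideanLin Y
      = Matrix.toEuclideanLin (X * Y) := by
  apply LinearMap.ext
  intro v
  simp only [Module.End.mul_apply, Matrix.toEuclideanLin_apply, Matrix.mulVec_mulVec]

theorem prodOp_mul (M M' : ι → Matrix A A ℂ) :
    prodOp M * prodOp M' = prodOp (fun q => M q * M' q) := by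
  unfold prodOp
  rw [toEuclideanLin_mul', prodMat_mul]

theorem prodOp_one : prodOp (fun _ : ι => (1 : Matrix A A ℂ)) = 1 := by
  unfold prodOp
  rw [prodMat_one]
  apply LinearMap.ext
  intro v
  simp [Matrix.toEuclideanLin_apply]

theorem toEuclideanLin_inner' {n : Type*} [Fintype n] [DecidableEq n] (X : Matrix n n ℂ)
    (hX : X.IsHermitian) (u v : EuclideanSpace ℂ n) :
    ⟪Matrix.toEuclideanLin X u, v⟫_ℂ = ⟪u, Matrix.toEuclideanLin X v⟫_ℂ := by
  have h := (Matrix.isSymmetric_toEuclideanLin_iff.mpr hX)
  exact h u v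

theorem prodOp_isProj (M : ι → Matrix A A ℂ) (hM : ∀ q, (M q).IsHermitian)
    (hM' : ∀ q, M q * M q = M q) : IsProj (prodOp M) := by
  constructor
  · rw [prodOp_mul]
    congr 1
    funext q
    exact hM' q
  · intro x y
    apply toEuclideanLin_inner'
    unfold Matrix.IsHermitian
    rw [prodMat_conjTranspose]
    congr 1
    funext q
    exact hM q

theorem prodOp_commute (M M' : ι → Matrix A A ℂ) (h : ∀ q, Commute (M q) (M' q)) :
    Commute (prodOp M) (prodOp M') := by
  unfold Commute SemiconjBy
  rw [prodOp_mul, prodOp_mul]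
  congr 1
  funext q
  exact h q

theorem prodMat_smul (M : ι → Matrix A A ℂ) (c : ι → ℂ) :
    prodMat (fun q => c q • M q) = (∏ q, c q) • prodMat M := by
  ext x y
  simp only [prodMat, Matrix.of_apply, Matrix.smul_apply, smul_eq_mul]
  rw [Finset.prod_mul_distrib]

theorem prodOp_smul (M : ι → Matrix A A ℂ) (c : ι → ℂ) :
    prodOp (fun q => c q • M q) = (∏ q, c q) • prodOp M := by
  unfold prodOp
  rw [prodMat_smul, map_smul]

theorem prodOp_prodVec (M : ι → Matrix A A ℂ) (v : ι → A → ℂ) :
    prodOp M (prodVec v) = prodVec (fun q => (M q).mulVec (v q)) := by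
  unfold prodOp prodVec
  rw [Matrix.toEuclideanLin_apply]
  congr 1
  funext x
  simp only [Matrix.mulVec, dotProduct, prodMat, Matrix.of_apply]
  rw [Finset.prod_univ_sum]
  rw [← Fintype.piFinset_univ]
  apply Finset.sum_congr rfl
  intro z _
  rw [Finset.prod_mul_distrib]

theorem inner_prodVec (u v : ι → A → ℂ) :
    ⟪prodVec u, prodVec v⟫_ℂ = ∏ q, ipv (u q) (v q) := by
  simp only [prodVec, EuclideanSpace.inner_eq_star_dotProduct, ipv, dotProduct]
  rw [Finset.prod_univ_sum]
  rw [← Fintype.piFinset_univ]
  apply Finset.sum_congr rfl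
  intro z _
  rw [Finset.prod_mul_distrib]
  simp only [Pi.star_apply, star_prod]
  ring

theorem vproj_herm (v : A → ℂ) : (vproj v).IsHermitian := by
  unfold vproj Matrix.IsHermitian
  ext i j
  simp [Matrix.conjTranspose_apply, Matrix.vecMulVec_apply, mul_comm]

/-- `|v⟩⟨v| M |v⟩⟨v| = ⟨v|M|v⟩ |v⟩⟨v|` -/
theorem vproj_mul_mul (v : A → ℂ) (M : Matrix A A ℂ) :
    vproj v * M * vproj v = ipv v (M.mulVec v) • vproj v := by
  ext i j
  simp only [vproj, ipv, Matrix.mul_apply, Matrix.vecMulVec_apply, Matrix.smul_apply, smul_eq_mul,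
    Matrix.mulVec, dotProduct, Pi.star_apply, Finset.sum_mul, Finset.mul_sum]
  rw [Finset.sum_comm]
  apply Finset.sum_congr rfl
  intro a _
  apply Finset.sum_congr rfl
  intro b _
  ring

theorem vproj_idem (v : A → ℂ) (hv : ipv v v = 1) : vproj v * vproj v = vproj v := by
  classical
  have h := vproj_mul_mul v (1 : Matrix A A ℂ)
  rw [Matrix.mul_one, Matrix.one_mulVec, hv, one_smul] at h
  exact h

theorem famProd_prodFam {H J : Type*} [NormedAddCommGroup H] [InnerProductSpace ℂ H]
    [DecidableEq J] (f : J → Module.End ℂ H) (hf : ∀ i j, Commute (f i) (f j)) :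
    ProdFam f (famProd f) := by
  constructor
  · simp [famProd]
  · intro j s hj
    have hperm : ((insert j s).toList).Perm (j :: s.toList) := Finset.toList_insert hj
    unfold famProd
    have h2 : ((insert j s).toList.map f).Perm (f j :: s.toList.map f) := by
      simpa using hperm.map f
    have h3 := h2.prod_eq' (by
      rw [List.pairwise_map]
      exact List.pairwise_of_forall (fun {a b} => hf a b))
    rw [h3, List.prod_cons]

end

end Vale.Agent.P368
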