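import Vale.Agent.Lib.P368.Sites
import Vale.Agent.Lib.P368.CoreE2

/-! P368: the site bound. -/

namespace Vale.Agent.P368

open scoped InnerProductSpace Kronecker
open Finset

set_option linter.unusedSectionVars false
set_option linter.deprecated false

noncomputable section

section abstract

variable {ι H : Type*} [Fintype ι] [DecidableEq ι] [NormedAddCommGroup H] [InnerProductSpace ℂ H]

theorem rows_bound (χ : ι → Module.End ℂ H) (hχ : ∀ l, IsProj (χ l)) (w ψ : H) (hψ : ‖ψ‖ ≤ 1)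
    (R : Finset ι) (hR : ∀ l ∈ R, χ l ψ = 0) (E : ℝ) (hE : ∑ l, ‖(1 - χ l) w‖ ^ 2 ≤ E) :
    (R.card : ℝ) * ‖⟪ψ, w⟫_ℂ‖ ^ 2 ≤ E := by
  have h1 : ∀ l ∈ R, ‖⟪ψ, w⟫_ℂ‖ ^ 2 ≤ ‖(1 - χ l) w‖ ^ 2 := by
    intro l hl
    have e : ⟪ψ, w⟫_ℂ = ⟪ψ, (1 - χ l) w⟫_ℂ := by
      simp only [LinearMap.sub_apply, Module.End.one_apply, inner_sub_right]
      rw [← (hχ l).symm, hR l hl, inner_zero_left, sub_zero]
    rw [e]
    have h2 := norm_inner_le_norm (𝕜 := ℂ) ψ ((1 - χ l) w)
    have h3 : ‖ψ‖ * ‖(1 - χ l) w‖ ≤ 1 * ‖(1 - χ l) w‖ :=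
      mul_le_mul_of_nonneg_right hψ (norm_nonneg _)
    have h4 : ‖⟪ψ, (1 - χ l) w⟫_ℂ‖ ≤ ‖(1 - χ l) w‖ := by linarith
    exact pow_le_pow_left₀ (norm_nonneg _) h4 2
  calc (R.card : ℝ) * ‖⟪ψ, w⟫_ℂ‖ ^ 2 = ∑ l ∈ R, ‖⟪ψ, w⟫_ℂ‖ ^ 2 := by
        rw [Finset.sum_const, nsmul_eq_mul]
    _ ≤ ∑ l ∈ R, ‖(1 - χ l) w‖ ^ 2 := Finset.sum_le_sum h1
    _ ≤ ∑ l, ‖(1 - χ l) w‖ ^ 2 := by
        apply Finset.sum_le_sum_of_subset_of_nonneg (Finset.subset_univ _)
        intro i _ _
        positivity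
    _ ≤ E := hE

/-- removing gates -/
theorem fam_diff (f : ι → Module.End ℂ H) (hf : ∀ i j, Commute (f i) (f j))
    (hn : ∀ j x, ‖f j x‖ = ‖x‖) (x : H) (s t : Finset ι) (hd : Disjoint s t) :
    ‖famProd f (s ∪ t) x - famProd f s x‖ ≤ ∑ l ∈ t, ‖f l x - x‖ := by
  have hF := famProd_prodFam f hf
  induction t using Finset.induction_on with
  | empty => simp
  | insert l t hl ih =>
    have hd1 : Disjoint s t := Finset.disjoint_of_subset_right (Finset.subset_insert l t) hd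
    have hls : l ∉ s := fun h =>
      (Finset.disjoint_left.mp hd) h (Finset.mem_insert_self l t)
    have hlst : l ∉ s ∪ t := by
      rw [Finset.mem_union]; tauto
    have e1 : s ∪ insert l t = insert l (s ∪ t) := by
      rw [Finset.union_insert]
    have hc : Commute (f l) (famProd f (s ∪ t)) := hF.commute _ _ (fun i _ => hf l i)
    have e2 : famProd f (s ∪ insert l t) x = famProd f (s ∪ t) (f l x) := by
      rw [e1, hF.insert l _ hlst, hc.eq]
      rfl
    rw [e2, Finset.sum_insert hl]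
    calc ‖famProd f (s ∪ t) (f l x) - famProd f s x‖
        = ‖famProd f (s ∪ t) (f l x - x) + (famProd f (s ∪ t) x - famProd f s x)‖ := by
          rw [map_sub]; congr 1; abel
      _ ≤ ‖famProd f (s ∪ t) (f l x - x)‖ + ‖famProd f (s ∪ t) x - famProd f s x‖ :=
          norm_add_le _ _
      _ ≤ ‖f l x - x‖ + ∑ l ∈ t, ‖f l x - x‖ := by
          rw [famProd_norm f hn]
          exact add_le_add le_rfl (ih hd1)

theorem fam_symm (f : ι → Module.End ℂ H) (hf : ∀ i j, Commute (f i) (f j))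
    (hs : ∀ j x y, ⟪f j x, y⟫_ℂ = ⟪x, f j y⟫_ℂ) (s : Finset ι) (x y : H) :
    ⟪famProd f s x, y⟫_ℂ = ⟪x, famProd f s y⟫_ℂ := by
  have hF := famProd_prodFam f hf
  induction s using Finset.induction_on generalizing x y with
  | empty => rw [hF.empty]; simp
  | insert l s hl ih =>
    have hc : Commute (f l) (famProd f s) := hF.commute _ _ (fun i _ => hf l i)
    have e1 : famProd f (insert l s) y = famProd f s (f l y) := by
      rw [hF.insert l _ hl, hc.eq]
      rfl
    rw [e1, hF.insert l _ hl, Module.End.mul_apply, hs, ih]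

end abstract

section layer

variable {ι A : Type*} [Fintype ι] [DecidableEq ι] [Fintype A] [DecidableEq A]

theorem gateOp_comm (row : ι → ι) (θ : ι → Matrix A A ℂ) (l l' : ι) :
    Commute (gateOp row θ l) (gateOp row θ l') := by
  unfold gateOp
  exact refl_commute_left (refl_commute_left (commute_ite_same _ _ _)).symm

theorem gate_proj (row : ι → ι) (θ : ι → Matrix A A ℂ) (hh : ∀ q, (θ q).IsHermitian)
    (hi : ∀ q, θ q * θ q = θ q) (l : ι) :
    IsProj (prodOp fun q => if row q = l then θ q else 1) :=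
  isProj_ite _ θ hh hi

theorem gateOp_norm (row : ι → ι) (θ : ι → Matrix A A ℂ) (hh : ∀ q, (θ q).IsHermitian)
    (hi : ∀ q, θ q * θ q = θ q) (l : ι) (x : Sp ι A) : ‖gateOp row θ l x‖ = ‖x‖ :=
  refl_norm (gate_proj row θ hh hi l) x

theorem gateOp_symm (row : ι → ι) (θ : ι → Matrix A A ℂ) (hh : ∀ q, (θ q).IsHermitian)
    (hi : ∀ q, θ q * θ q = θ q) (l : ι) (x y : Sp ι A) :
    ⟪gateOp row θ l x, y⟫_ℂ = ⟪x, gateOp row θ l y⟫_ℂ :=
  refl_symm (gate_proj row θ hh hi l) x y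

/-- squared norm of `θ v` -/
def ws (θ : Matrix A A ℂ) (v : A → ℂ) : ℝ := (ipv (θ.mulVec v) (θ.mulVec v)).re

theorem ipv_self_real (v : A → ℂ) : ipv v v = (((ipv v v).re : ℝ) : ℂ) := by
  rw [ipv_eq_inner]
  rw [inner_self_eq_norm_sq_to_K]
  norm_cast

theorem ipv_self_nonneg (v : A → ℂ) : 0 ≤ (ipv v v).re := by
  rw [ipv_eq_inner, re_inner_self]
  positivity

theorem ipv_mulVec (θ : Matrix A A ℂ) (hh : θ.IsHermitian) (u v : A → ℂ) :
    ipv (θ.mulVec u) v = ipv u (θ.mulVec v) := by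
  rw [ipv_eq_inner, ipv_eq_inner]
  have h := toEuclideanLin_inner' θ hh (WithLp.toLp 2 u) (WithLp.toLp 2 v)
  simpa [Matrix.toEuclideanLin_apply] using h

theorem ws_eq (θ : Matrix A A ℂ) (hh : θ.IsHermitian) (hi : θ * θ = θ) (v : A → ℂ) :
    ipv (θ.mulVec v) v = ((ws θ v : ℝ) : ℂ) := by
  unfold ws
  rw [← ipv_self_real, ipv_mulVec θ hh v (θ.mulVec v), Matrix.mulVec_mulVec, hi,
    ipv_mulVec θ hh v v]

theorem ws_nonneg (θ : Matrix A A ℂ) (v : A → ℂ) : 0 ≤ ws θ v := ipv_self_nonneg _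

theorem ws_le_one (θ : Matrix A A ℂ) (hh : θ.IsHermitian) (hi : θ * θ = θ) (v : A → ℂ)
    (hv : ipv v v = 1) : ws θ v ≤ 1 := by
  have h1 := ws_eq θ hh hi v
  rw [ipv_eq_inner] at h1
  have h2 := norm_inner_le_norm (𝕜 := ℂ) (WithLp.toLp 2 (θ.mulVec v) : EuclideanSpace ℂ A)
    (WithLp.toLp 2 v)
  rw [h1, norm_toLp_eq_one v hv, mul_one] at h2
  have h3 : ‖(WithLp.toLp 2 (θ.mulVec v) : EuclideanSpace ℂ A)‖ ^ 2 = ws θ v := by
    rw [← re_inner_self, ← ipv_eq_inner]
    rfl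
  rw [Complex.norm_real, Real.norm_of_nonneg (ws_nonneg θ v)] at h2
  have h4 := ws_nonneg θ v
  by_contra hcon
  push Not at hcon
  nlinarith [norm_nonneg (WithLp.toLp 2 (θ.mulVec v) : EuclideanSpace ℂ A)]

/-- squared norm of `θ_l φ` -/
theorem norm_gate (row : ι → ι) (θ : ι → Matrix A A ℂ) (φ : ι → A → ℂ)
    (hφ : ∀ q, ipv (φ q) (φ q) = 1) (l : ι) :
    ‖(prodOp fun q => if row q = l then θ q else 1) (prodVec φ)‖ ^ 2
      = ∏ q ∈ univ.filter (fun q => row q = l), ws (θ q) (φ q) := by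
  rw [prodOp_prodVec, ← re_inner_self, inner_prodVec]
  have : ∀ q, ipv ((if row q = l then θ q else 1).mulVec (φ q))
      ((if row q = l then θ q else 1).mulVec (φ q))
      = (((if row q = l then ws (θ q) (φ q) else 1 : ℝ)) : ℂ) := by
    intro q
    by_cases h : row q = l
    · simp only [if_pos h]
      unfold ws
      exact ipv_self_real _
    · simp only [if_neg h, Matrix.one_mulVec, hφ q]
      simp
  rw [Finset.prod_congr rfl (fun q _ => this q), ← Complex.ofReal_prod, Complex.ofReal_re,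
    Finset.prod_filter]

theorem gate_diff (row : ι → ι) (θ : ι → Matrix A A ℂ) (x : Sp ι A) (l : ι) :
    ‖gateOp row θ l x - x‖ = 2 * ‖(prodOp fun q => if row q = l then θ q else 1) x‖ := by
  unfold gateOp refl
  simp only [LinearMap.sub_apply, Module.End.one_apply, LinearMap.smul_apply]
  rw [sub_sub_cancel_left, norm_neg, norm_smul, Complex.norm_ofNat]

/-- normalized site vector -/
def nrm (θ : Matrix A A ℂ) (v : A → ℂ) : A → ℂ :=
  (((Real.sqrt (ws θ v))⁻¹ : ℝ) : ℂ) • θ.mulVec v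

theorem ipv_smul_left (u v : A → ℂ) (c : ℂ) : ipv (c • u) v = star c * ipv u v := by
  simp only [ipv, Pi.smul_apply, smul_eq_mul, Finset.mul_sum, star_mul']
  apply Finset.sum_congr rfl
  intro b _
  ring

theorem nrm_unit (θ : Matrix A A ℂ) (v : A → ℂ) (h : 0 < ws θ v) :
    ipv (nrm θ v) (nrm θ v) = 1 := by
  unfold nrm
  rw [ipv_smul_left, ipv_smul_right, ipv_self_real]
  have e : (ipv (θ.mulVec v) (θ.mulVec v)).re = ws θ v := rfl
  rw [e]
  have h2 : Real.sqrt (ws θ v) * Real.sqrt (ws θ v) = ws θ v := Real.mul_self_sqrt h.le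
  have h3 : 0 < Real.sqrt (ws θ v) := Real.sqrt_pos.mpr h
  have h4 : (Real.sqrt (ws θ v))⁻¹ * ((Real.sqrt (ws θ v))⁻¹ * ws θ v) = 1 := by
    field_simp
    rw [sq, h2]
  rw [Complex.star_def, Complex.conj_ofReal]
  exact_mod_cast h4

theorem nrm_ipv (θ : Matrix A A ℂ) (hh : θ.IsHermitian) (hi : θ * θ = θ) (v : A → ℂ)
    (h : 0 < ws θ v) : ipv (nrm θ v) v = ((Real.sqrt (ws θ v) : ℝ) : ℂ) := by
  unfold nrm
  rw [ipv_smul_left, ws_eq θ hh hi v, Complex.star_def, Complex.conj_ofReal]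
  have h3 : 0 < Real.sqrt (ws θ v) := Real.sqrt_pos.mpr h
  have h2 : Real.sqrt (ws θ v) * Real.sqrt (ws θ v) = ws θ v := Real.mul_self_sqrt h.le
  have h4 : (Real.sqrt (ws θ v))⁻¹ * ws θ v = Real.sqrt (ws θ v) := by
    rw [inv_mul_eq_iff_eq_mul₀ h3.ne', h2]
  exact_mod_cast h4

theorem nrm_ipv_sq (θ : Matrix A A ℂ) (hh : θ.IsHermitian) (hi : θ * θ = θ) (v : A → ℂ)
    (h : 0 < ws θ v) : ‖ipv (nrm θ v) v‖ ^ 2 = ws θ v := by
  rw [nrm_ipv θ hh hi v h, Complex.norm_real, Real.norm_of_nonneg (Real.sqrt_nonneg _),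
    Real.sq_sqrt h.le]

theorem nrm_vproj (θ : Matrix A A ℂ) (hh : θ.IsHermitian) (hi : θ * θ = θ) (v : A → ℂ)
    (h : 0 < ws θ v) : vproj (nrm θ v) * vproj v = θ * vproj v := by
  have h1 : vproj (nrm θ v) * vproj v = Matrix.vecMulVec (ipv (nrm θ v) v • nrm θ v) (star v) := by
    rw [← vproj_mulVec]
    unfold vproj
    rw [Matrix.mul_vecMulVec]
  have h2 : θ * vproj v = Matrix.vecMulVec (θ.mulVec v) (star v) := by
    unfold vproj
    rw [Matrix.mul_vecMulVec]
  rw [h1, h2, nrm_ipv θ hh hi v h]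
  congr 1
  unfold nrm
  rw [smul_smul]
  have h3 : 0 < Real.sqrt (ws θ v) := Real.sqrt_pos.mpr h
  have h4 : ((Real.sqrt (ws θ v) : ℝ) : ℂ) * (((Real.sqrt (ws θ v))⁻¹ : ℝ) : ℂ) = 1 := by
    rw [← Complex.ofReal_mul, mul_inv_cancel₀ h3.ne']
    simp
  rw [h4, one_smul]

end layer

section main

variable {ι A : Type*} [Fintype ι] [DecidableEq ι] [Fintype A] [DecidableEq A]

/-- hypotheses on the first layer -/
structure Hyp (φ φ' : ι → A → ℂ) (I : Finset ι) (row : ι → ι) (G1 : Finset ι)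
    (θ1 : ι → Matrix A A ℂ) : Prop where
  hφ : ∀ q, ipv (φ q) (φ q) = 1
  hφ' : ∀ q, ipv (φ' q) (φ' q) = 1
  horth : ∀ q ∈ I, ipv (φ q) (φ' q) = 0
  hsame : ∀ q, q ∉ I → φ' q = φ q
  hrep : ∀ l ∈ G1, row l = l
  hh : ∀ q, (θ1 q).IsHermitian
  hi : ∀ q, θ1 q * θ1 q = θ1 q
  hI : ∀ q ∈ I, ws (θ1 q) (φ q) = 1 / 2
  hI' : ∀ q ∈ I, ws (θ1 q) (φ' q) = 1 / 2

variable {φ φ' : ι → A → ℂ} {I : Finset ι} {row : ι → ι} {G1 : Finset ι}
  {θ1 : ι → Matrix A A ℂ}

/-- weight of a gate -/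
def W (φ : ι → A → ℂ) (row : ι → ι) (θ1 : ι → Matrix A A ℂ) (l : ι) : ℝ :=
  ∏ q ∈ univ.filter (fun q => row q = l), ws (θ1 q) (φ q)

theorem W_same (h : Hyp φ φ' I row G1 θ1) (l : ι) : W φ' row θ1 l = W φ row θ1 l := by
  unfold W
  apply Finset.prod_congr rfl
  intro q _
  by_cases hq : q ∈ I
  · rw [h.hI q hq, h.hI' q hq]
  · rw [h.hsame q hq]

/-- the gates which are kept -/
def Gk (φ : ι → A → ℂ) (row : ι → ι) (θ1 : ι → Matrix A A ℂ) (G1 : Finset ι) (δ : ℝ) :
    Finset ι := G1.filter (fun l => δ ≤ W φ row θ1 l)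

/-- removal of the light gates -/
theorem remove_gates (h : Hyp φ φ' I row G1 θ1) (δ : ℝ) (hδ : 0 ≤ δ) (ψ : ι → A → ℂ)
    (hψ : ∀ q, ipv (ψ q) (ψ q) = 1) (hW : ∀ l, W ψ row θ1 l = W φ row θ1 l) :
    ‖layerOp row θ1 G1 (prodVec ψ) - layerOp row θ1 (Gk φ row θ1 G1 δ) (prodVec ψ)‖
      ≤ (Fintype.card ι : ℝ) * (2 * Real.sqrt δ) := by
  set G' := Gk φ row θ1 G1 δ with hG'
  have hsub : G' ⊆ G1 := Finset.filter_subset _ _
  have hu : G1 = G' ∪ (G1 \ G') := (Finset.union_sdiff_of_subset hsub).symm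
  have hd : Disjoint G' (G1 \ G') := Finset.disjoint_sdiff
  have h1 := fam_diff (gateOp row θ1) (gateOp_comm row θ1) (gateOp_norm row θ1 h.hh h.hi)
    (prodVec ψ) G' (G1 \ G') hd
  rw [← hu] at h1
  unfold layerOp
  refine h1.trans ?_
  have h2 : ∀ l ∈ G1 \ G', ‖gateOp row θ1 l (prodVec ψ) - prodVec ψ‖ ≤ 2 * Real.sqrt δ := by
    intro l hl
    rw [Finset.mem_sdiff] at hl
    rw [gate_diff]
    have h3 := norm_gate row θ1 ψ hψ l
    have h4 : W ψ row θ1 l < δ := by
      rw [hW l]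
      by_contra hcon
      push Not at hcon
      exact hl.2 (Finset.mem_filter.mpr ⟨hl.1, hcon⟩)
    have h5 : ‖(prodOp fun q => if row q = l then θ1 q else 1) (prodVec ψ)‖ ≤ Real.sqrt δ := by
      apply Real.le_sqrt_of_sq_le
      rw [h3]
      exact h4.le
    linarith
  calc ∑ l ∈ G1 \ G', ‖gateOp row θ1 l (prodVec ψ) - prodVec ψ‖
      ≤ ∑ l ∈ G1 \ G', 2 * Real.sqrt δ := Finset.sum_le_sum h2
    _ = ((G1 \ G').card : ℝ) * (2 * Real.sqrt δ) := by rw [Finset.sum_const, nsmul_eq_mul]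
    _ ≤ _ := by
      apply mul_le_mul_of_nonneg_right _ (by positivity)
      exact_mod_cast Finset.card_le_univ _

/-- new row labels -/
def row' (row : ι → ι) (G : Finset ι) (q : ι) : ι := if row q ∈ G then row q else q

theorem row'_iff (row : ι → ι) (G : Finset ι) (hrep : ∀ l ∈ G, row l = l) (l : ι) (hl : l ∈ G)
    (q : ι) : row' row G q = l ↔ row q = l := by
  unfold row'
  by_cases h : row q ∈ G
  · rw [if_pos h]
  · rw [if_neg h]
    constructor
    · intro h2
      rw [h2]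
      exact hrep l hl
    · intro h2
      exact absurd (h2 ▸ hl) h

theorem row'_not (row : ι → ι) (G : Finset ι) (l : ι) (hl : l ∉ G)
    (q : ι) (hq : row' row G q = l) : row q ∉ G ∧ q = l := by
  unfold row' at hq
  by_cases h : row q ∈ G
  · rw [if_pos h] at hq
    exact absurd (hq ▸ h) hl
  · rw [if_neg h] at hq
    exact ⟨h, hq⟩

/-- new second site vector -/
def vt (φ : ι → A → ℂ) (row : ι → ι) (θ1 : ι → Matrix A A ℂ) (G : Finset ι) (q : ι) : A → ℂ :=
  if row q ∈ G then nrm (θ1 q) (φ q) else φ q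

/-- the site data -/
def sd (φ : ι → A → ℂ) (row : ι → ι) (θ1 : ι → Matrix A A ℂ) (G : Finset ι)
    (col : ι → ι) (θ2 p : ι → Matrix A A ℂ) (c : ι → ℝ) : SiteData ι A where
  row := row' row G
  col := col
  φ := φ
  ϑ := vt φ row θ1 G
  θ := θ2
  p := p
  c := c

theorem ws_pos (h : Hyp φ φ' I row G1 θ1) {δ : ℝ} (hδ : 0 < δ) {q : ι}
    (hq : row q ∈ Gk φ row θ1 G1 δ) : 0 < ws (θ1 q) (φ q) := by
  have h1 : δ ≤ W φ row θ1 (row q) := (Finset.mem_filter.mp hq).2
  rcases (ws_nonneg (θ1 q) (φ q)).lt_or_eq with h2 | h2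
  · exact h2
  · exfalso
    have h3 : W φ row θ1 (row q) = 0 := by
      unfold W
      exact Finset.prod_eq_zero (i := q) (by simp) h2.symm
    linarith

theorem Gk_rep (h : Hyp φ φ' I row G1 θ1) (δ : ℝ) : ∀ l ∈ Gk φ row θ1 G1 δ, row l = l :=
  fun l hl => h.hrep l (Finset.mem_filter.mp hl).1

theorem vt_unit (h : Hyp φ φ' I row G1 θ1) {δ : ℝ} (hδ : 0 < δ) (q : ι) :
    ipv (vt φ row θ1 (Gk φ row θ1 G1 δ) q) (vt φ row θ1 (Gk φ row θ1 G1 δ) q) = 1 := by
  unfold vt
  by_cases hq : row q ∈ Gk φ row θ1 G1 δ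
  · rw [if_pos hq]
    exact nrm_unit _ _ (ws_pos h hδ hq)
  · rw [if_neg hq]
    exact h.hφ q

/-- the operator `K_l` -/
def Kop (row : ι → ι) (θ1 : ι → Matrix A A ℂ) (G : Finset ι) (l : ι) : Module.End ℂ (Sp ι A) :=
  if l ∈ G then gateOp row θ1 l else 1

section K

variable (h : Hyp φ φ' I row G1 θ1) (G : Finset ι)

include h

theorem Kop_norm (l : ι) (x : Sp ι A) : ‖Kop row θ1 G l x‖ = ‖x‖ := by
  unfold Kop
  split_ifs
  · exact gateOp_norm row θ1 h.hh h.hi l x
  · rfl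

theorem Kop_sq (l : ι) : Kop row θ1 G l * Kop row θ1 G l = 1 := by
  unfold Kop
  split_ifs
  · exact refl_mul_self (gate_proj row θ1 h.hh h.hi l)
  · rw [one_mul]

end K

theorem Kop_comm (row : ι → ι) (θ1 : ι → Matrix A A ℂ) (G : Finset ι) (l l' : ι) :
    Commute (Kop row θ1 G l) (Kop row θ1 G l') := by
  unfold Kop
  split_ifs
  · exact gateOp_comm row θ1 l l'
  · exact Commute.one_right _
  · exact Commute.one_left _
  · exact Commute.one_left _

theorem Kop_layer (row : ι → ι) (θ1 : ι → Matrix A A ℂ) (G : Finset ι) :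
    famProd (Kop row θ1 G) univ = layerOp row θ1 G := by
  have h1 := famProd_prodFam (gateOp row θ1) (gateOp_comm row θ1)
  have h2 := famProd_prodFam (Kop row θ1 G) (Kop_comm row θ1 G)
  unfold layerOp
  rw [h1.restrict h2 G (fun j hj => by unfold Kop; rw [if_pos hj])
    (fun j hj => by unfold Kop; rw [if_neg hj]) univ, Finset.univ_inter]

section chi

variable (col : ι → ι) (θ2 p : ι → Matrix A A ℂ) (c : ι → ℝ)

theorem Kop_F_comm (G : Finset ι) (hrep : ∀ l ∈ G, row l = l) (l l' : ι) (hl : l ≠ l') :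
    Commute (Kop row θ1 G l) ((sd φ row θ1 G col θ2 p c).F l' univ) := by
  unfold Kop
  split_ifs with hG
  · unfold gateOp
    apply refl_commute_left
    rw [SiteData.F_univ_eq]
    apply commute_disj
    intro q
    by_cases hq : row q = l
    · right
      rw [if_neg]
      intro h2
      have h3 : row' row G q = l := (row'_iff row G hrep l hG q).mpr hq
      exact hl (h3.symm.trans h2)
    · left
      rw [if_neg hq]
  · exact Commute.one_left _

theorem chi_eq_K (h : Hyp φ φ' I row G1 θ1) {δ : ℝ} (hδ : 0 < δ) (l : ι) :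
    chi ((sd φ row θ1 (Gk φ row θ1 G1 δ) col θ2 p c).F l univ)
      ((sd φ row θ1 (Gk φ row θ1 G1 δ) col θ2 p c).T l univ)
      = Kop row θ1 (Gk φ row θ1 G1 δ) l * (sd φ row θ1 (Gk φ row θ1 G1 δ) col θ2 p c).F l univ
        * Kop row θ1 (Gk φ row θ1 G1 δ) l := by
  set G := Gk φ row θ1 G1 δ with hG
  set S := sd φ row θ1 G col θ2 p c with hS
  have hF : S.F l univ = prodOp fun q => if row' row G q = l then vproj (φ q) else 1 :=
    S.F_univ_eq l
  have hT : S.T l univ = prodOp fun q => if row' row G q = l then vproj (vt φ row θ1 G q) else 1 :=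
    S.T_univ_eq l
  have hFp : S.F l univ * S.F l univ = S.F l univ := by
    rw [hF]
    exact (isProj_ite (fun q => row' row G q = l) (fun q => vproj (φ q)) (fun q => vproj_herm _)
      (fun q => vproj_idem _ (h.hφ q))).idem
  by_cases hl : l ∈ G
  · have hK : Kop row θ1 G l = refl (prodOp fun q => if row q = l then θ1 q else 1) := by
      unfold Kop; rw [if_pos hl]; rfl
    have hsite : ∀ q, row q = l → vproj (vt φ row θ1 G q) * vproj (φ q) = θ1 q * vproj (φ q) := by
      intro q hq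
      have hq' : row q ∈ G := hq ▸ hl
      unfold vt
      rw [if_pos hq']
      exact nrm_vproj _ (h.hh q) (h.hi q) _ (ws_pos h hδ hq')
    have hsite' : ∀ q, row q = l → vproj (φ q) * vproj (vt φ row θ1 G q) = vproj (φ q) * θ1 q := by
      intro q hq
      have h1 := congrArg Matrix.conjTranspose (hsite q hq)
      rw [Matrix.conjTranspose_mul, Matrix.conjTranspose_mul, vproj_herm, vproj_herm, h.hh q] at h1
      exact h1
    have e1 : S.T l univ * S.F l univ
        = (prodOp fun q => if row q = l then θ1 q else 1) * S.F l univ := by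
      rw [hT, hF, prodOp_mul, prodOp_mul]
      congr 1
      funext q
      by_cases hq : row q = l
      · have hq' : row' row G q = l := (row'_iff row G (Gk_rep h δ) l hl q).mpr hq
        simp only [if_pos hq, if_pos hq']
        exact hsite q hq
      · have hq' : ¬ row' row G q = l := fun hh =>
          hq ((row'_iff row G (Gk_rep h δ) l hl q).mp hh)
        simp only [if_neg hq, if_neg hq']
    have e2 : S.F l univ * S.T l univ
        = S.F l univ * (prodOp fun q => if row q = l then θ1 q else 1) := by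
      rw [hT, hF, prodOp_mul, prodOp_mul]
      congr 1
      funext q
      by_cases hq : row q = l
      · have hq' : row' row G q = l := (row'_iff row G (Gk_rep h δ) l hl q).mpr hq
        simp only [if_pos hq, if_pos hq']
        exact hsite' q hq
      · have hq' : ¬ row' row G q = l := fun hh =>
          hq ((row'_iff row G (Gk_rep h δ) l hl q).mp hh)
        simp only [if_neg hq, if_neg hq']
    have f1 : refl (S.T l univ) * S.F l univ = Kop row θ1 G l * S.F l univ := by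
      rw [hK]
      unfold refl
      rw [sub_mul, sub_mul, smul_mul_assoc, smul_mul_assoc, e1]
    have f2 : S.F l univ * refl (S.T l univ) = S.F l univ * Kop row θ1 G l := by
      rw [hK]
      unfold refl
      rw [mul_sub, mul_sub, mul_smul_comm, mul_smul_comm, e2]
    calc chi (S.F l univ) (S.T l univ)
        = refl (S.T l univ) * (S.F l univ * S.F l univ) * refl (S.T l univ) := by
          rw [hFp]; rfl
      _ = (refl (S.T l univ) * S.F l univ) * (S.F l univ * refl (S.T l univ)) := by noncomm_ring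
      _ = Kop row θ1 G l * (S.F l univ * S.F l univ) * Kop row θ1 G l := by
          rw [f1, f2]; noncomm_ring
      _ = _ := by rw [hFp]
  · have hK : Kop row θ1 G l = 1 := by
      unfold Kop; rw [if_neg hl]
    have hTF : S.T l univ = S.F l univ := by
      rw [hT, hF]
      congr 1
      funext q
      by_cases hq : row' row G q = l
      · simp only [if_pos hq]
        unfold vt
        rw [if_neg (row'_not row G l hl q hq).1]
      · simp only [if_neg hq]
    have f1 : refl (S.F l univ) * S.F l univ = - S.F l univ := by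
      unfold refl
      rw [sub_mul, one_mul, smul_mul_assoc, hFp]
      module
    have f2 : S.F l univ * refl (S.F l univ) = - S.F l univ := by
      unfold refl
      rw [mul_sub, mul_one, mul_smul_comm, hFp]
      module
    rw [hK, hTF, one_mul, mul_one]
    calc chi (S.F l univ) (S.F l univ)
        = refl (S.F l univ) * (S.F l univ * S.F l univ) * refl (S.F l univ) := by
          rw [hFp]; rfl
      _ = (refl (S.F l univ) * S.F l univ) * (S.F l univ * refl (S.F l univ)) := by noncomm_ring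
      _ = _ := by rw [f1, f2, neg_mul_neg, hFp]

theorem chi_K_app (h : Hyp φ φ' I row G1 θ1) {δ : ℝ} (hδ : 0 < δ) (l : ι) (x : Sp ι A) :
    ∃ M : Module.End ℂ (Sp ι A),
      layerOp row θ1 (Gk φ row θ1 G1 δ) = Kop row θ1 (Gk φ row θ1 G1 δ) l * M ∧
    chi ((sd φ row θ1 (Gk φ row θ1 G1 δ) col θ2 p c).F l univ)
      ((sd φ row θ1 (Gk φ row θ1 G1 δ) col θ2 p c).T l univ)
      (layerOp row θ1 (Gk φ row θ1 G1 δ) x)
      = Kop row θ1 (Gk φ row θ1 G1 δ) l
        (M ((sd φ row θ1 (Gk φ row θ1 G1 δ) col θ2 p c).F l univ x)) := by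
  set G := Gk φ row θ1 G1 δ with hG
  set S := sd φ row θ1 G col θ2 p c with hS
  have hpf := famProd_prodFam (Kop row θ1 G) (Kop_comm row θ1 G)
  have h3 := hpf.insert l _ (Finset.notMem_erase l univ)
  rw [Finset.insert_erase (mem_univ l), Kop_layer] at h3
  refine ⟨famProd (Kop row θ1 G) (univ.erase l), h3, ?_⟩
  have hcomm : Commute (S.F l univ) (famProd (Kop row θ1 G) (univ.erase l)) := by
    apply hpf.commute
    intro j hj
    exact (Kop_F_comm col θ2 p c G (Gk_rep h δ) j l (Finset.ne_of_mem_erase hj)).symm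
  rw [chi_eq_K col θ2 p c h hδ l, h3]
  have e : Kop row θ1 G l * S.F l univ * Kop row θ1 G l *
      (Kop row θ1 G l * famProd (Kop row θ1 G) (univ.erase l))
      = Kop row θ1 G l * (famProd (Kop row θ1 G) (univ.erase l) * S.F l univ) := by
    calc Kop row θ1 G l * S.F l univ * Kop row θ1 G l *
      (Kop row θ1 G l * famProd (Kop row θ1 G) (univ.erase l))
        = Kop row θ1 G l * S.F l univ * (Kop row θ1 G l * Kop row θ1 G l) *
          famProd (Kop row θ1 G) (univ.erase l) := by noncomm_ring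
      _ = Kop row θ1 G l * (S.F l univ * famProd (Kop row θ1 G) (univ.erase l)) := by
          rw [Kop_sq h G l]; noncomm_ring
      _ = _ := by rw [hcomm.eq]
  have e2 := congrArg (fun L : Module.End ℂ (Sp ι A) => L x) e
  simpa using e2

theorem chi_phi (h : Hyp φ φ' I row G1 θ1) {δ : ℝ} (hδ : 0 < δ) (l : ι) :
    chi ((sd φ row θ1 (Gk φ row θ1 G1 δ) col θ2 p c).F l univ)
      ((sd φ row θ1 (Gk φ row θ1 G1 δ) col θ2 p c).T l univ)
      (layerOp row θ1 (Gk φ row θ1 G1 δ) (prodVec φ))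
      = layerOp row θ1 (Gk φ row θ1 G1 δ) (prodVec φ) := by
  obtain ⟨M, h1, h2⟩ := chi_K_app col θ2 p c h hδ l (prodVec φ)
  have hF : (sd φ row θ1 (Gk φ row θ1 G1 δ) col θ2 p c).F l univ (prodVec φ) = prodVec φ := by
    rw [SiteData.F_univ_eq, prodOp_prodVec]
    congr 1
    funext q
    by_cases hq : (sd φ row θ1 (Gk φ row θ1 G1 δ) col θ2 p c).row q = l
    · simp only [if_pos hq]
      change (vproj (φ q)).mulVec (φ q) = φ q
      rw [vproj_mulVec, h.hφ q, one_smul]
    · simp only [if_neg hq]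
      exact Matrix.one_mulVec _
  rw [h2, hF, h1]
  rfl

theorem chi_phi' (h : Hyp φ φ' I row G1 θ1) {δ : ℝ} (hδ : 0 < δ) (l : ι) (q0 : ι) (hq0 : q0 ∈ I)
    (hl : row' row (Gk φ row θ1 G1 δ) q0 = l) :
    chi ((sd φ row θ1 (Gk φ row θ1 G1 δ) col θ2 p c).F l univ)
      ((sd φ row θ1 (Gk φ row θ1 G1 δ) col θ2 p c).T l univ)
      (layerOp row θ1 (Gk φ row θ1 G1 δ) (prodVec φ')) = 0 := by
  obtain ⟨M, h1, h2⟩ := chi_K_app col θ2 p c h hδ l (prodVec φ')
  have hF : (sd φ row θ1 (Gk φ row θ1 G1 δ) col θ2 p c).F l univ (prodVec φ') = 0 := by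
    rw [SiteData.F_univ_eq, prodOp_prodVec]
    unfold prodVec
    have : (fun x : ι → A => ∏ q, ((if (sd φ row θ1 (Gk φ row θ1 G1 δ) col θ2 p c).row q = l
        then vproj ((sd φ row θ1 (Gk φ row θ1 G1 δ) col θ2 p c).φ q) else 1).mulVec (φ' q)) (x q))
        = 0 := by
      funext x
      apply Finset.prod_eq_zero (Finset.mem_univ q0)
      have e : (sd φ row θ1 (Gk φ row θ1 G1 δ) col θ2 p c).row q0 = l := hl
      rw [if_pos e]
      change ((vproj (φ q0)).mulVec (φ' q0)) (x q0) = 0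
      rw [vproj_mulVec, h.horth q0 hq0, zero_smul]
      rfl
    rw [this]
    rfl
  rw [h2, hF, map_zero, map_zero]

theorem sd_good (h : Hyp φ φ' I row G1 θ1) {δ : ℝ} (hδ : 0 < δ)
    (h2h : ∀ q, (θ2 q).IsHermitian) (h2i : ∀ q, θ2 q * θ2 q = θ2 q)
    (hph : ∀ q, (p q).IsHermitian) (hpi : ∀ q, p q * p q = p q)
    (hc : ∀ q, θ2 q * p q * θ2 q = ((c q : ℝ) : ℂ) • θ2 q)
    (hc0 : ∀ q, 0 ≤ c q) (hc1 : ∀ q, c q ≤ 1) :
    (sd φ row θ1 (Gk φ row θ1 G1 δ) col θ2 p c).Good where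
  φ_unit := h.hφ
  ϑ_unit := vt_unit h hδ
  θ_herm := h2h
  θ_idem := h2i
  p_herm := hph
  p_idem := hpi
  θpθ := hc
  c_nonneg := hc0
  c_le := hc1

/-- the total non-orthogonality of a row -/
theorem eta_sum (h : Hyp φ φ' I row G1 θ1) {δ : ℝ} (hδ : 0 < δ) (hδ1 : δ ≤ 1) (l : ι) :
    ∑ j, (sd φ row θ1 (Gk φ row θ1 G1 δ) col θ2 p c).η l j ≤ - Real.log δ := by
  set G := Gk φ row θ1 G1 δ with hG
  by_cases hl : l ∈ G
  · have hpos : ∀ q ∈ univ.filter (fun q => row q = l), 0 < ws (θ1 q) (φ q) := by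
      intro q hq
      have : row q = l := (Finset.mem_filter.mp hq).2
      exact ws_pos h hδ (this ▸ hl)
    have h1 : ∀ j, (sd φ row θ1 G col θ2 p c).η l j
        ≤ ∑ q ∈ univ.filter (fun q => row q = l ∧ col q = j), - Real.log (ws (θ1 q) (φ q)) := by
      intro j
      unfold SiteData.η
      have e1 : ∏ q ∈ univ.filter (fun q => (sd φ row θ1 G col θ2 p c).row q = l ∧
          (sd φ row θ1 G col θ2 p c).col q = j),
          ‖ipv ((sd φ row θ1 G col θ2 p c).ϑ q) ((sd φ row θ1 G col θ2 p c).φ q)‖ ^ 2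
          = ∏ q ∈ univ.filter (fun q => row q = l ∧ col q = j), ws (θ1 q) (φ q) := by
        apply Finset.prod_congr
        · ext q
          simp only [Finset.mem_filter, Finset.mem_univ, true_and]
          have := row'_iff row G (Gk_rep h δ) l hl q
          change (row' row G q = l ∧ col q = j) ↔ _
          rw [this]
        · intro q hq
          have hq2 : row q = l := by
            have := (Finset.mem_filter.mp hq).2
            exact this.1
          have hq3 : row q ∈ G := hq2 ▸ hl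
          change ‖ipv (vt φ row θ1 G q) (φ q)‖ ^ 2 = _
          unfold vt
          rw [if_pos hq3]
          exact nrm_ipv_sq _ (h.hh q) (h.hi q) _ (ws_pos h hδ hq3)
      rw [e1, Finset.sum_neg_distrib, ← Real.log_prod (fun q hq => by
        have hq2 : row q = l := (Finset.mem_filter.mp hq).2.1
        exact (ws_pos h hδ (hq2 ▸ hl)).ne')]
      have hp : 0 < ∏ q ∈ univ.filter (fun q => row q = l ∧ col q = j), ws (θ1 q) (φ q) :=
        Finset.prod_pos (fun q hq => by
          have hq2 : row q = l := (Finset.mem_filter.mp hq).2.1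
          exact ws_pos h hδ (hq2 ▸ hl))
      have := Real.log_le_sub_one_of_pos hp
      linarith
    have h2 : ∑ j, ∑ q ∈ univ.filter (fun q => row q = l ∧ col q = j),
        - Real.log (ws (θ1 q) (φ q))
        = ∑ q ∈ univ.filter (fun q => row q = l), - Real.log (ws (θ1 q) (φ q)) := by
      rw [← Finset.sum_fiberwise_of_maps_to (s := univ.filter (fun q => row q = l)) (t := univ)
        (g := col) (fun q _ => Finset.mem_univ _)]
      apply Finset.sum_congr rfl
      intro j _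
      rw [Finset.filter_filter]
    calc ∑ j, (sd φ row θ1 G col θ2 p c).η l j
        ≤ ∑ j, ∑ q ∈ univ.filter (fun q => row q = l ∧ col q = j),
          - Real.log (ws (θ1 q) (φ q)) := Finset.sum_le_sum (fun j _ => h1 j)
      _ = - Real.log (W φ row θ1 l) := by
        rw [h2, Finset.sum_neg_distrib]
        unfold W
        rw [Real.log_prod (fun q hq => (hpos q hq).ne')]
      _ ≤ - Real.log δ := by
        have h3 : δ ≤ W φ row θ1 l := (Finset.mem_filter.mp hl).2
        have := Real.log_le_log hδ h3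
        linarith
  · have h1 : ∀ j, (sd φ row θ1 G col θ2 p c).η l j = 0 := by
      intro j
      unfold SiteData.η
      rw [Finset.prod_eq_one, sub_self]
      intro q hq
      have hq2 : row' row G q = l := (Finset.mem_filter.mp hq).2.1
      have hq3 := (row'_not row G l hl q hq2).1
      change ‖ipv (vt φ row θ1 G q) (φ q)‖ ^ 2 = _
      unfold vt
      rw [if_neg hq3, h.hφ q]
      simp
    rw [Finset.sum_congr rfl (fun j _ => h1 j), Finset.sum_const_zero]
    have := Real.log_nonpos hδ.le hδ1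
    linarith

/-- number of inputs in a row -/
theorem fiber_card (h : Hyp φ φ' I row G1 θ1) {δ : ℝ} (hδ : 0 < δ) (hδ1 : δ ≤ 1) (l : ι) :
    ((I.filter (fun q => row' row (Gk φ row θ1 G1 δ) q = l)).card : ℝ)
      ≤ 1 - Real.log δ / Real.log 2 := by
  set G := Gk φ row θ1 G1 δ with hG
  have hlog2 : 0 < Real.log 2 := Real.log_pos one_lt_two
  have hlogδ := Real.log_nonpos hδ.le hδ1
  by_cases hl : l ∈ G
  · have h3 : δ ≤ W φ row θ1 l := (Finset.mem_filter.mp hl).2
    have hsub : I.filter (fun q => row' row G q = l) ⊆ univ.filter (fun q => row q = l) := by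
      intro q hq
      rw [Finset.mem_filter] at hq ⊢
      exact ⟨Finset.mem_univ _, (row'_iff row G (Gk_rep h δ) l hl q).mp hq.2⟩
    have h4 : W φ row θ1 l ≤ ∏ q ∈ I.filter (fun q => row' row G q = l), ws (θ1 q) (φ q) := by
      unfold W
      rw [← Finset.prod_sdiff hsub]
      have h10 : ∏ q ∈ (univ.filter (fun q => row q = l)) \ (I.filter (fun q => row' row G q = l)),
          ws (θ1 q) (φ q) ≤ 1 := by
        apply Finset.prod_le_one
        · intro q _; exact ws_nonneg _ _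
        · intro q _; exact ws_le_one _ (h.hh q) (h.hi q) _ (h.hφ q)
      have h11 : 0 ≤ ∏ q ∈ I.filter (fun q => row' row G q = l), ws (θ1 q) (φ q) :=
        Finset.prod_nonneg (fun q _ => ws_nonneg _ _)
      calc _ ≤ 1 * ∏ q ∈ I.filter (fun q => row' row G q = l), ws (θ1 q) (φ q) :=
            mul_le_mul_of_nonneg_right h10 h11
        _ = _ := one_mul _
    have h5 : ∏ q ∈ I.filter (fun q => row' row G q = l), ws (θ1 q) (φ q)
        = (1 / 2 : ℝ) ^ (I.filter (fun q => row' row G q = l)).card := by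
      rw [Finset.prod_congr rfl (fun q hq => h.hI q (Finset.mem_filter.mp hq).1),
        Finset.prod_const]
    rw [h5] at h4
    have h6 : Real.log δ ≤ Real.log ((1 / 2 : ℝ) ^ (I.filter (fun q => row' row G q = l)).card) :=
      Real.log_le_log hδ (h3.trans h4)
    rw [Real.log_pow, one_div, Real.log_inv] at h6
    have h7 : ((I.filter (fun q => row' row G q = l)).card : ℝ) ≤ - Real.log δ / Real.log 2 := by
      rw [le_div_iff₀ hlog2]
      linarith
    have e : 1 - Real.log δ / Real.log 2 = 1 + (- Real.log δ / Real.log 2) := by ring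
    rw [e]
    linarith
  · have h1 : (I.filter (fun q => row' row G q = l)).card ≤ 1 := by
      apply Finset.card_le_one.mpr
      intro a ha b hb
      rw [Finset.mem_filter] at ha hb
      rw [(row'_not row G l hl a ha.2).2, (row'_not row G l hl b hb.2).2]
    have h2 : ((I.filter (fun q => row' row G q = l)).card : ℝ) ≤ 1 := by exact_mod_cast h1
    have h3 : 0 ≤ - Real.log δ / Real.log 2 := div_nonneg (by linarith) hlog2.le
    have e : 1 - Real.log δ / Real.log 2 = 1 + (- Real.log δ / Real.log 2) := by ring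
    rw [e]
    linarith

end chi

/-- the final numerical estimate -/
theorem final_num (N n R : ℝ) (hn : 1 ≤ n) (hN : n ≤ N) (cw : ℝ) (hcw : 0 ≤ cw)
    (hR : n ≤ (1 + 3 * Real.log N / Real.log 2) * R)
    (hE : R * cw ^ 2 ≤ lam (3 * Real.log N) *
      (3 + 30 * (1 + 8 * Real.log N) * (1 + 4 * Real.log N))) :
    cw ≤ 600 * (1 + Real.log N) ^ 3 / Real.sqrt n := by
  have hN1 : 1 ≤ N := hn.trans hN
  have hL : 0 ≤ Real.log N := Real.log_nonneg hN1
  set L := Real.log N with hLdef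
  have hlog2 : (0.6 : ℝ) < Real.log 2 := by
    have := Real.log_two_gt_d9
    linarith
  have h3 : 3 * L / Real.log 2 ≤ 5 * L := by
    rw [div_le_iff₀ (by linarith)]
    nlinarith
  set x := 1 + L with hx
  have hx1 : 1 ≤ x := by linarith
  have hRpos : 0 < R := by
    by_contra hcon
    push Not at hcon
    have h0 : 0 ≤ 3 * L / Real.log 2 := by positivity
    have : (1 + 3 * L / Real.log 2) * R ≤ 0 := mul_nonpos_of_nonneg_of_nonpos (by linarith) hcon
    linarith
  have hR' : n ≤ 5 * x * R := by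
    calc n ≤ (1 + 3 * L / Real.log 2) * R := hR
      _ ≤ (5 * x) * R := by
        apply mul_le_mul_of_nonneg_right _ hRpos.le
        rw [hx]; linarith
  have hlam : lam (3 * L) ≤ 74 * x ^ 2 := by
    unfold lam
    have e1 : L = x - 1 := by rw [hx]; ring
    rw [e1]
    nlinarith
  have h4 : 3 + 30 * (1 + 8 * L) * (1 + 4 * L) ≤ 963 * x ^ 2 := by
    have e1 : L = x - 1 := by rw [hx]; ring
    rw [e1]
    nlinarith
  have h5 : lam (3 * L) * (3 + 30 * (1 + 8 * L) * (1 + 4 * L)) ≤ 74 * x ^ 2 * (963 * x ^ 2) := by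
    apply mul_le_mul hlam h4
    · positivity
    · positivity
  have h6 : n * cw ^ 2 ≤ (600 * x ^ 3) ^ 2 := by
    calc n * cw ^ 2 ≤ (5 * x * R) * cw ^ 2 := mul_le_mul_of_nonneg_right hR' (sq_nonneg _)
      _ = 5 * x * (R * cw ^ 2) := by ring
      _ ≤ 5 * x * (74 * x ^ 2 * (963 * x ^ 2)) := by
        apply mul_le_mul_of_nonneg_left (hE.trans h5)
        positivity
      _ = 356310 * x ^ 5 := by ring
      _ ≤ 360000 * x ^ 6 := by
        have : x ^ 5 ≤ x ^ 6 := pow_le_pow_right₀ hx1 (by norm_num)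
        have h5p : 0 ≤ x ^ 5 := by positivity
        linarith
      _ = (600 * x ^ 3) ^ 2 := by ring
  have hsn : 0 < Real.sqrt n := Real.sqrt_pos.mpr (by linarith)
  rw [le_div_iff₀ hsn]
  have h7 : (cw * Real.sqrt n) ^ 2 ≤ (600 * x ^ 3) ^ 2 := by
    rw [mul_pow, Real.sq_sqrt (by linarith)]
    linarith
  exact (pow_le_pow_iff_left₀ (by positivity) (by positivity) (by norm_num)).mp h7

end main

section final

variable {ι A : Type*} [Fintype ι] [DecidableEq ι] [Fintype A] [DecidableEq A]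

theorem siteBound_gen {φ φ' : ι → A → ℂ} {I : Finset ι} {row : ι → ι} {G1 : Finset ι}
    {θ1 : ι → Matrix A A ℂ} (h : Hyp φ φ' I row G1 θ1) (hI0 : 0 < I.card)
    (col : ι → ι) (G2 : Finset ι) (θ2 p : ι → Matrix A A ℂ) (c : ι → ℝ)
    (h2h : ∀ q, (θ2 q).IsHermitian) (h2i : ∀ q, θ2 q * θ2 q = θ2 q)
    (hph : ∀ q, (p q).IsHermitian) (hpi : ∀ q, p q * p q = p q)
    (hc : ∀ q, θ2 q * p q * θ2 q = ((c q : ℝ) : ℂ) • θ2 q)
    (hc0 : ∀ q, 0 ≤ c q) (hc1 : ∀ q, c q ≤ 1) :
    ‖⟪prodVec φ', (layerOp row θ1 G1 * (layerOp col θ2 G2 * prodOp p * layerOp col θ2 G2) *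
        layerOp row θ1 G1) (prodVec φ)⟫_ℂ‖
      ≤ 1000 * (1 + Real.log (Fintype.card ι)) ^ 3 / Real.sqrt I.card := by
  classical
  set N : ℝ := (Fintype.card ι : ℝ) with hN
  set n : ℝ := (I.card : ℝ) with hn
  have hn1 : 1 ≤ n := by
    have : 1 ≤ I.card := hI0
    rw [hn]
    exact_mod_cast this
  have hnN : n ≤ N := by
    have : I.card ≤ Fintype.card ι := Finset.card_le_univ I
    rw [hn, hN]
    exact_mod_cast this
  have hN1 : 1 ≤ N := hn1.trans hnN
  have hL : 0 ≤ Real.log N := Real.log_nonneg hN1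
  set δ : ℝ := (N ^ 3)⁻¹ with hδdef
  have hδ : 0 < δ := by positivity
  have hδ1 : δ ≤ 1 := inv_le_one_of_one_le₀ (one_le_pow₀ hN1)
  have hlogδ : Real.log δ = - (3 * Real.log N) := by
    rw [hδdef, Real.log_inv, Real.log_pow]
    norm_num
  set G := Gk φ row θ1 G1 δ with hG
  set S := sd φ row θ1 G col θ2 p c with hS
  have hgood : S.Good := sd_good col θ2 p c h hδ h2h h2i hph hpi hc hc0 hc1
  obtain ⟨ε, ν, D⟩ := sites_twoLayer S hgood (fun j => j ∈ G2)
  obtain ⟨hBf, hBeq⟩ := colB_prod S hgood G2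
  set B := famProd (colB S.Th S.P (fun j => j ∈ G2)) univ with hBdef
  set x := layerOp row θ1 G1 (prodVec φ) with hx
  set y := layerOp row θ1 G1 (prodVec φ') with hy
  set x' := layerOp row θ1 G (prodVec φ) with hx'
  set y' := layerOp row θ1 G (prodVec φ') with hy'
  have hlayer_norm : ∀ (s : Finset ι) (z : Sp ι A), ‖layerOp row θ1 s z‖ = ‖z‖ := fun s z =>
    famProd_norm (gateOp row θ1) (gateOp_norm row θ1 h.hh h.hi) s z
  have nx : ‖x‖ = 1 := by rw [hx, hlayer_norm, norm_prodVec _ h.hφ]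
  have ny : ‖y‖ = 1 := by rw [hy, hlayer_norm, norm_prodVec _ h.hφ']
  have nx' : ‖x'‖ = 1 := by rw [hx', hlayer_norm, norm_prodVec _ h.hφ]
  have ny' : ‖y'‖ = 1 := by rw [hy', hlayer_norm, norm_prodVec _ h.hφ']
  have hBproj : IsProj B := hBf.isProj (coreE_colB_proj D) (coreE_colB_comm D) univ
  -- rewrite the inner product
  have e1 : ⟪prodVec φ', (layerOp row θ1 G1 * (layerOp col θ2 G2 * prodOp p *
      layerOp col θ2 G2) * layerOp row θ1 G1) (prodVec φ)⟫_ℂ = ⟪y, B x⟫_ℂ := by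
    rw [hBeq]
    change _ = ⟪layerOp row θ1 G1 (prodVec φ'), (layerOp col θ2 G2 * prodOp p *
      layerOp col θ2 G2) x⟫_ℂ
    unfold layerOp
    rw [fam_symm (gateOp row θ1) (gateOp_comm row θ1) (gateOp_symm row θ1 h.hh h.hi)]
    rfl
  rw [e1]
  -- distances
  have hsq : N * (2 * Real.sqrt δ) ≤ 2 / Real.sqrt n := by
    have h1 : Real.sqrt δ = (N * Real.sqrt N)⁻¹ := by
      rw [hδdef, Real.sqrt_inv]
      congr 1
      rw [show N ^ 3 = (N * N) * N by ring, Real.sqrt_mul (by positivity),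
        Real.sqrt_mul_self (by linarith)]
    have hsN : 0 < Real.sqrt N := Real.sqrt_pos.mpr (by linarith)
    have hsn : 0 < Real.sqrt n := Real.sqrt_pos.mpr (by linarith)
    have h2 : N * (2 * Real.sqrt δ) = 2 / Real.sqrt N := by
      rw [h1]
      field_simp
    rw [h2]
    apply div_le_div_of_nonneg_left (by norm_num) hsn (Real.sqrt_le_sqrt hnN)
  have dx : ‖x - x'‖ ≤ 2 / Real.sqrt n :=
    (remove_gates h δ hδ.le φ h.hφ (fun l => rfl)).trans hsq
  have dy : ‖y - y'‖ ≤ 2 / Real.sqrt n :=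
    (remove_gates h δ hδ.le φ' h.hφ' (fun l => W_same h l)).trans hsq
  -- core
  have hφfix : ∀ l, chi (S.F l univ) (S.T l univ) x' = x' := fun l => chi_phi col θ2 p c h hδ l
  have hM0 : ∀ l, ∑ j, S.η l j ≤ 3 * Real.log N := by
    intro l
    have := eta_sum col θ2 p c h hδ hδ1 l
    rw [hlogδ] at this
    linarith
  obtain ⟨w, hw1, hw2⟩ := coreE2 D _ hBf x' hφfix nx'.le (3 * Real.log N) (8 * Real.log N)
    (4 * Real.log N) (by linarith) (by linarith) (by linarith) hM0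
  have hBw : ‖B x' - w‖ ≤ 12 / Real.sqrt n := by
    refine hw1.trans ?_
    have hNpos : 0 < N := by linarith
    have e2 : Real.exp (-(8 * Real.log N) / 4) = (N ^ 2)⁻¹ := by
      have : -(8 * Real.log N) / 4 = - (Real.log (N ^ 2)) := by
        rw [Real.log_pow]; push_cast; ring
      rw [this, Real.exp_neg, Real.exp_log (by positivity)]
    have e3 : Real.exp (-(4 * Real.log N) / 2) = (N ^ 2)⁻¹ := by
      have : -(4 * Real.log N) / 2 = - (Real.log (N ^ 2)) := by
        rw [Real.log_pow]; push_cast; ring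
      rw [this, Real.exp_neg, Real.exp_log (by positivity)]
    rw [e2, e3]
    have e4 : N * (4 * (N ^ 2)⁻¹ + 8 * (N ^ 2)⁻¹) = 12 / N := by
      field_simp
      ring
    rw [e4]
    have hsn : 0 < Real.sqrt n := Real.sqrt_pos.mpr (by linarith)
    apply div_le_div_of_nonneg_left (by norm_num) hsn
    calc Real.sqrt n ≤ n := by
          rw [Real.sqrt_le_left (by linarith)]
          nlinarith
      _ ≤ N := hnN
  -- rows containing inputs
  set R := I.image (row' row G) with hR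
  have hRz : ∀ l ∈ R, chi (S.F l univ) (S.T l univ) y' = 0 := by
    intro l hl
    obtain ⟨q, hq, hql⟩ := Finset.mem_image.mp hl
    exact chi_phi' col θ2 p c h hδ l q hq hql
  have hrow := rows_bound (fun l => chi (S.F l univ) (S.T l univ))
    (fun l => chi_isProj (S.gateData hgood l) univ) w y' ny'.le R hRz _ hw2
  have hcount : n ≤ (1 + 3 * Real.log N / Real.log 2) * (R.card : ℝ) := by
    have e5 : I.card = ∑ l ∈ R, (I.filter (fun q => row' row G q = l)).card :=
      Finset.card_eq_sum_card_image (row' row G) I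
    rw [hn, e5]
    push_cast
    calc ∑ l ∈ R, ((I.filter (fun q => row' row G q = l)).card : ℝ)
        ≤ ∑ l ∈ R, (1 + 3 * Real.log N / Real.log 2) := by
          apply Finset.sum_le_sum
          intro l _
          have := fiber_card h hδ hδ1 l
          rw [hlogδ] at this
          have e6 : 1 - -(3 * Real.log N) / Real.log 2 = 1 + 3 * Real.log N / Real.log 2 := by ring
          rw [e6] at this
          exact this
      _ = _ := by rw [Finset.sum_const, nsmul_eq_mul, mul_comm]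
  have hcw := final_num N n R.card hn1 hnN ‖⟪y', w⟫_ℂ‖ (norm_nonneg _) hcount hrow
  -- combine
  have hin : ∀ u v : Sp ι A, ‖⟪u, v⟫_ℂ‖ ≤ ‖u‖ * ‖v‖ := fun u v => norm_inner_le_norm u v
  have split : ⟪y, B x⟫_ℂ = ⟪y - y', B x⟫_ℂ + ⟪y', B (x - x')⟫_ℂ + ⟪y', B x' - w⟫_ℂ
      + ⟪y', w⟫_ℂ := by
    simp only [inner_sub_left, inner_sub_right, map_sub]
    ring
  have b1 : ‖⟪y - y', B x⟫_ℂ‖ ≤ 2 / Real.sqrt n := by
    calc _ ≤ ‖y - y'‖ * ‖B x‖ := hin _ _
      _ ≤ ‖y - y'‖ * 1 := by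
        apply mul_le_mul_of_nonneg_left _ (norm_nonneg _)
        exact (hBproj.norm_le x).trans nx.le
      _ ≤ _ := by rw [mul_one]; exact dy
  have b2 : ‖⟪y', B (x - x')⟫_ℂ‖ ≤ 2 / Real.sqrt n := by
    calc _ ≤ ‖y'‖ * ‖B (x - x')‖ := hin _ _
      _ ≤ 1 * ‖x - x'‖ := by
        rw [ny']
        apply mul_le_mul_of_nonneg_left _ zero_le_one
        exact hBproj.norm_le _
      _ ≤ _ := by rw [one_mul]; exact dx
  have b3 : ‖⟪y', B x' - w⟫_ℂ‖ ≤ 12 / Real.sqrt n := by
    calc _ ≤ ‖y'‖ * ‖B x' - w‖ := hin _ _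
      _ ≤ _ := by rw [ny', one_mul]; exact hBw
  have hx3 : 1 ≤ (1 + Real.log N) ^ 3 := one_le_pow₀ (by linarith)
  have hsn : 0 < Real.sqrt n := Real.sqrt_pos.mpr (by linarith)
  rw [split]
  calc ‖⟪y - y', B x⟫_ℂ + ⟪y', B (x - x')⟫_ℂ + ⟪y', B x' - w⟫_ℂ + ⟪y', w⟫_ℂ‖
      ≤ ‖⟪y - y', B x⟫_ℂ‖ + ‖⟪y', B (x - x')⟫_ℂ‖ + ‖⟪y', B x' - w⟫_ℂ‖ + ‖⟪y', w⟫_ℂ‖ := by
        refine (norm_add_le _ _).trans ?_
        gcongr
        refine (norm_add_le _ _).trans ?_
        gcongr
        exact norm_add_le _ _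
    _ ≤ 2 / Real.sqrt n + 2 / Real.sqrt n + 12 / Real.sqrt n
        + 600 * (1 + Real.log N) ^ 3 / Real.sqrt n := by
        gcongr
    _ = (16 + 600 * (1 + Real.log N) ^ 3) / Real.sqrt n := by ring
    _ ≤ 1000 * (1 + Real.log N) ^ 3 / Real.sqrt n := by
        apply div_le_div_of_nonneg_right _ hsn.le
        linarith

end final

theorem siteBound : ∃ C : ℝ, 0 < C ∧ ∀ (N n : ℕ) (φ φ' : Fin N → (Bool × Bool) → ℂ)
    (I : Finset (Fin N)) (_ : I.card = n) (_ : 0 < n)
    (_ : ∀ q, ipv (φ q) (φ q) = 1) (_ : ∀ q, ipv (φ' q) (φ' q) = 1)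
    (_ : ∀ q ∈ I, ipv (φ q) (φ' q) = 0) (_ : ∀ q, q ∉ I → φ' q = φ q)
    (row : Fin N → Fin N) (G1 : Finset (Fin N)) (_ : ∀ l ∈ G1, row l = l)
    (θ1 : Fin N → Matrix (Bool × Bool) (Bool × Bool) ℂ)
    (_ : ∀ q, (θ1 q).IsHermitian) (_ : ∀ q, θ1 q * θ1 q = θ1 q)
    (_ : ∀ q ∈ I, ipv ((θ1 q).mulVec (φ q)) ((θ1 q).mulVec (φ q)) = 1 / 2)
    (_ : ∀ q ∈ I, ipv ((θ1 q).mulVec (φ' q)) ((θ1 q).mulVec (φ' q)) = 1 / 2)
    (col : Fin N → Fin N) (G2 : Finset (Fin N))
    (θ2 p : Fin N → Matrix (Bool × Bool) (Bool × Bool) ℂ) (c : Fin N → ℝ)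
    (_ : ∀ q, (θ2 q).IsHermitian) (_ : ∀ q, θ2 q * θ2 q = θ2 q)
    (_ : ∀ q, (p q).IsHermitian) (_ : ∀ q, p q * p q = p q)
    (_ : ∀ q, θ2 q * p q * θ2 q = ((c q : ℝ) : ℂ) • θ2 q)
    (_ : ∀ q, 0 ≤ c q) (_ : ∀ q, c q ≤ 1),
    ‖⟪prodVec φ', (layerOp row θ1 G1 * (layerOp col θ2 G2 * prodOp p * layerOp col θ2 G2) *
        layerOp row θ1 G1) (prodVec φ)⟫_ℂ‖ ≤ C * (1 + Real.log N) ^ 3 / Real.sqrt n := by
  refine ⟨1000, by norm_num, ?_⟩
  intro N n φ φ' I hIc hn h1 h2 h3 h4 row G1 h5 θ1 h6 h7 h8 h9 col G2 θ2 p c h10 h11 h12 h13 h14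
    h15 h16
  have hyp : Hyp φ φ' I row G1 θ1 := by
    constructor
    · exact h1
    · exact h2
    · exact h3
    · exact h4
    · exact h5
    · exact h6
    · exact h7
    · intro q hq
      unfold ws
      rw [h8 q hq]
      norm_num
    · intro q hq
      unfold ws
      rw [h9 q hq]
      norm_num
  have h := siteBound_gen hyp (by omega) col G2 θ2 p c h10 h11 h12 h13 h14 h15 h16
  rw [Fintype.card_fin, hIc] at h
  exact h

end

end Vale.Agent.P368
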